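import Vale.Agent.P371.H816.Tools2

set_option linter.all false

/-!
Positive parts of matrices and positivity of integrated forms.
-/

namespace Vale.Agent.P371.H816

open MeasureTheory Filter Topology Set Matrix
open Vale.Agent.P371 Vale.Agent.P371.G
open scoped ComplexOrder Matrix.Norms.L2Operator MatrixOrder

variable {N M m K : ℕ}

/-- positive part of a Hermitian matrix -/
noncomputable def pp (X : Matrix (Fin m) (Fin m) ℂ) : Matrix (Fin m) (Fin m) ℂ :=
  cfc (fun u : ℝ => max u 0) X

theorem pp_posSemidef (X : Matrix (Fin m) (Fin m) ℂ) : (pp X).PosSemidef := by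
  have h : 0 ≤ cfc (fun u : ℝ => max u 0) X := cfc_nonneg fun x _ => le_max_right _ _
  exact Matrix.nonneg_iff_posSemidef.1 h

theorem pp_sub_posSemidef {X : Matrix (Fin m) (Fin m) ℂ} (hX : X.IsHermitian) :
    (pp X - X).PosSemidef := by
  have h1 : X ≤ pp X := by
    conv_lhs => rw [← PI.cfc_id_eq hX]
    exact cfc_mono (fun x _ => le_max_left _ _) (by fun_prop) (by fun_prop)
  exact Matrix.le_iff.1 h1

theorem trPow_pp {X : Matrix (Fin m) (Fin m) ℂ} (hX : X.IsHermitian) {p : ℝ} (hp : 0 < p) :
    trPow p (pp X) = trPos p X := by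
  have hc : Continuous fun t : ℝ => t ^ p := Real.continuous_rpow_const hp.le
  rw [PI.trPow_eq_trace (pp_posSemidef X).isHermitian, trPos, pp]
  have h := cfc_comp' (R := ℝ) (p := IsSelfAdjoint) (fun x : ℝ => x ^ p) (fun x : ℝ => max x 0) X
    hc.continuousOn (by fun_prop) hX
  rw [h]

theorem continuous_pp_hp : Continuous fun X : Matrix (Fin m) (Fin m) ℂ => pp (G.hp X) :=
  Continuous.cfc_of_mem_nhdsSet (s := Set.univ) _ (by simp) G.continuous_hp
    (fun X => G.hp_isHermitian X) (by fun_prop)

theorem continuous_pp {X : Type*} [TopologicalSpace X] {V : X → Matrix (Fin m) (Fin m) ℂ}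
    (hV : Continuous V) (hh : ∀ x, (V x).IsHermitian) : Continuous fun x => pp (V x) := by
  have h := continuous_pp_hp.comp hV
  have e : (fun x => pp (V x)) = (fun X : Matrix (Fin m) (Fin m) ℂ => pp (G.hp X)) ∘ V := by
    funext x
    simp only [Function.comp_apply]
    rw [G.hp_eq_self (hh x)]
  rw [e]
  exact h

theorem measurable_pp {X : Type*} [MeasurableSpace X] {V : X → Matrix (Fin m) (Fin m) ℂ}
    (hV : ∀ i j, Measurable fun x => V x i j) (hh : ∀ x, (V x).IsHermitian) (i j : Fin m) :
    Measurable fun x => pp (V x) i j := by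
  have hc : Continuous fun Z : Matrix (Fin m) (Fin m) ℂ => Z i j := by fun_prop
  have h1 : Continuous fun Y : Fin m → Fin m → ℂ => pp (G.hp (Matrix.of Y)) i j :=
    hc.comp (continuous_pp_hp.comp continuous_id)
  have h2 : Measurable fun x => (fun i j => V x i j : Fin m → Fin m → ℂ) :=
    measurable_pi_lambda _ fun i => measurable_pi_lambda _ fun j => hV i j
  have h3 := h1.measurable.comp h2
  have e : (fun x => pp (V x) i j) =
      (fun Y : Fin m → Fin m → ℂ => pp (G.hp (Matrix.of Y)) i j) ∘
        fun x => (fun i j => V x i j : Fin m → Fin m → ℂ) := by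
    funext x
    simp only [Function.comp_apply]
    have : Matrix.of (fun i j => V x i j) = V x := rfl
    rw [this, G.hp_eq_self (hh x)]
  rw [e]
  exact h3

theorem re_inner_nonneg_of_psd {S : Matrix (Fin m) (Fin m) ℂ} (hS : S.PosSemidef)
    (u : EuclideanSpace ℂ (Fin m)) :
    0 ≤ (inner ℂ u (Matrix.toEuclideanLin S u) : ℂ).re :=
  (Matrix.isPositive_toEuclideanLin_iff.2 hS).re_inner_nonneg_right u

/-- integrated forms of positive semidefinite matrices are positive semidefinite -/
theorem form_psd {X : Type*} [MeasurableSpace X] {μ : Measure X}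
    {S : X → Matrix (Fin m) (Fin m) ℂ} (hS : ∀ x, (S x).PosSemidef)
    {f : Fin N → X → EuclideanSpace ℂ (Fin m)}
    (hi : ∀ i j, Integrable (fun x => (inner ℂ (f i x) (Matrix.toEuclideanLin (S x) (f j x)) : ℂ)) μ) :
    (Matrix.of fun i j => ∫ x, (inner ℂ (f i x) (Matrix.toEuclideanLin (S x) (f j x)) : ℂ) ∂μ :
      Matrix (Fin N) (Fin N) ℂ).PosSemidef := by
  rw [posSemidef_iff_qf]
  refine ⟨?_, fun v => ?_⟩
  · ext i j
    rw [conjTranspose_apply, of_apply, of_apply, Complex.star_def, ← integral_conj]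
    simp only [inner_symm_herm (hS _).isHermitian]
  · set r : Matrix (Fin N) (Fin 1) ℂ := Matrix.of fun i _ => v i with hr
    have h1 : ∀ A : Matrix (Fin N) (Fin N) ℂ, qf A v = ((rᴴ * A * r) 0 0).re := by
      intro A
      rw [qf, Matrix.mul_assoc, Matrix.mul_apply]
      rfl
    rw [h1, ← integral_sesq r (fun i j x => inner ℂ (f i x) (Matrix.toEuclideanLin (S x) (f j x))) hi]
    have h2 : ∀ x, (∑ i, ∑ j, star (r i 0) *
        inner ℂ (f i x) (Matrix.toEuclideanLin (S x) (f j x)) * r j 0 : ℂ) =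
        inner ℂ (lc r f 0 x) (Matrix.toEuclideanLin (S x) (lc r f 0 x)) := fun x =>
      (inner_lc r f f (fun x => Matrix.toEuclideanLin (S x)) 0 0 x).symm
    simp_rw [h2]
    have h3 : Integrable (fun x => (inner ℂ (lc r f 0 x)
        (Matrix.toEuclideanLin (S x) (lc r f 0 x)) : ℂ)) μ := by
      simp_rw [← h2]
      exact integrable_finset_sum _ fun i _ => integrable_finset_sum _ fun j _ =>
        ((hi i j).const_mul _).mul_const _
    have h4 : (∫ x, (inner ℂ (lc r f 0 x) (Matrix.toEuclideanLin (S x) (lc r f 0 x)) : ℂ) ∂μ).re =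
        ∫ x, (inner ℂ (lc r f 0 x) (Matrix.toEuclideanLin (S x) (lc r f 0 x)) : ℂ).re ∂μ := by
      have := integral_re h3
      exact this.symm
    rw [h4]
    exact integral_nonneg fun x => re_inner_nonneg_of_psd (hS x) _

theorem toEuclideanLin_one (v : EuclideanSpace ℂ (Fin m)) :
    Matrix.toEuclideanLin (1 : Matrix (Fin m) (Fin m) ℂ) v = v := by
  rw [Matrix.toLpLin_apply, Matrix.one_mulVec]

end Vale.Agent.P371.H816
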