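import Vale.Agent.P371.H816.BetaInt
import Vale.Agent.P371.H816.Forms

set_option linter.all false

/-!
The core inequality for `γ > 3/2` with the semiclassical constant (Aizenman-Lieb).
-/

namespace Vale.Agent.P371.H816

open MeasureTheory Filter Topology Set Matrix
open Vale.Agent.P371 Vale.Agent.P371.G
open scoped ComplexOrder Matrix.Norms.L2Operator MatrixOrder ENNReal

variable {N M m K : ℕ}

theorem smul_one_isHermitian (t : ℝ) : (((t : ℝ) : ℂ) • (1 : Matrix (Fin m) (Fin m) ℂ)).IsHermitian := by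
  rw [IsHermitian, conjTranspose_smul, conjTranspose_one, Complex.star_def, Complex.conj_ofReal]

theorem shift_isHermitian {X : Matrix (Fin m) (Fin m) ℂ} (hX : X.IsHermitian) (t : ℝ) :
    (X - (t : ℂ) • 1).IsHermitian := hX.sub (smul_one_isHermitian t)

theorem smul_one_psd {t : ℝ} (ht : 0 ≤ t) :
    (((t : ℝ) : ℂ) • (1 : Matrix (Fin m) (Fin m) ℂ)).PosSemidef :=
  PosSemidef.one.smul (by exact_mod_cast ht)

/-- comparison of `Λ` for `(W - t)_+ + δ` with `Λ_W - t` -/
theorem LamM_shift_psd {a : ℝ} (ha : 0 < a) {W U : ℝ → Matrix (Fin m) (Fin m) ℂ}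
    (hW : Continuous W) (hU : Continuous U) {t : ℝ} (ht : 0 ≤ t)
    (hUW : ∀ x, (U x - (W x - (t : ℂ) • 1)).PosSemidef)
    {f f' : Fin N → ℝ → EuclideanSpace ℂ (Fin m)} (hf : ∀ j, IsH1 (f j) (f' j))
    (ho : gram volume f = 1) :
    (LamM a U f f' - (LamM a W f f' - (t : ℂ) • 1)).PosSemidef := by
  have haa : -a ≤ a := by linarith
  set T : ℝ → Matrix (Fin m) (Fin m) ℂ := fun x => U x - (W x - (t : ℂ) • 1) with hT
  have hTc : Continuous T := hU.sub (hW.sub continuous_const)
  have hint : ∀ (V : ℝ → Matrix (Fin m) (Fin m) ℂ), Continuous V → ∀ i j, Integrable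
      (fun x => (inner ℂ (f i x) (Matrix.toEuclideanLin (V x) (f j x)) : ℂ))
      (volume.restrict (Ioc (-a) a)) := fun V hV i j =>
    (intervalIntegrable_iff_integrableOn_Ioc_of_le haa).1
      (intervalIntegrable_form hV.locallyIntegrable hf i j (-a) a)
  have hfi : ∀ i j, Integrable (fun x => (inner ℂ (f i x) (f j x) : ℂ)) volume := fun i j =>
    integrable_inner_gen (hf i).memLp (hf j).memLp
  have h1 := form_psd (μ := volume.restrict (Ioc (-a) a)) hUW (hint T hTc)
  have h2 := form_psd (μ := volume.restrict (Ioc (-a) a)ᶜ) (S := fun _ => (t : ℂ) • 1)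
    (fun _ => smul_one_psd ht) (f := f) (fun i j => by
      have : (fun x => (inner ℂ (f i x) (Matrix.toEuclideanLin
          ((t : ℂ) • (1 : Matrix (Fin m) (Fin m) ℂ)) (f j x)) : ℂ)) =
          fun x => (t : ℂ) * inner ℂ (f i x) (f j x) := by
        funext x
        rw [map_smul, LinearMap.smul_apply, toEuclideanLin_one, inner_smul_right]
      rw [this]
      exact ((hfi i j).restrict).const_mul _)
  have h3 := h1.add h2
  refine (congrArg Matrix.PosSemidef ?_).mpr h3
  ext i j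
  simp only [Matrix.sub_apply, Matrix.add_apply, LamM, of_apply, Matrix.smul_apply]
  rw [intervalIntegral.integral_of_le haa, intervalIntegral.integral_of_le haa]
  have e1 : ∫ x in Ioc (-a) a, (inner ℂ (f i x) (Matrix.toEuclideanLin (T x) (f j x)) : ℂ) =
      (∫ x in Ioc (-a) a, (inner ℂ (f i x) (Matrix.toEuclideanLin (U x) (f j x)) : ℂ)) -
      (∫ x in Ioc (-a) a, (inner ℂ (f i x) (Matrix.toEuclideanLin (W x) (f j x)) : ℂ)) +
      (t : ℂ) * ∫ x in Ioc (-a) a, (inner ℂ (f i x) (f j x) : ℂ) := by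
    have iUW : Integrable (fun x => (inner ℂ (f i x) (Matrix.toEuclideanLin (U x) (f j x)) : ℂ) -
        inner ℂ (f i x) (Matrix.toEuclideanLin (W x) (f j x))) (volume.restrict (Ioc (-a) a)) :=
      (hint U hU i j).sub (hint W hW i j)
    have iC : Integrable (fun x => (t : ℂ) * inner ℂ (f i x) (f j x))
        (volume.restrict (Ioc (-a) a)) := ((hfi i j).restrict).const_mul _
    have e0 : ∫ x in Ioc (-a) a, (inner ℂ (f i x) (Matrix.toEuclideanLin (T x) (f j x)) : ℂ) =
        ∫ x in Ioc (-a) a, (((inner ℂ (f i x) (Matrix.toEuclideanLin (U x) (f j x)) : ℂ) -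
        inner ℂ (f i x) (Matrix.toEuclideanLin (W x) (f j x))) +
          (t : ℂ) * inner ℂ (f i x) (f j x)) := by
      refine integral_congr_ae (Eventually.of_forall fun x => ?_)
      simp only [hT, map_sub, map_smul, LinearMap.sub_apply, LinearMap.smul_apply,
        toEuclideanLin_one, inner_sub_right, inner_smul_right]
      ring
    rw [e0, integral_add iUW iC, integral_sub (hint U hU i j) (hint W hW i j),
      integral_const_mul]
  have e2 : ∫ x in (Ioc (-a) a)ᶜ, (inner ℂ (f i x) (Matrix.toEuclideanLin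
      ((t : ℂ) • (1 : Matrix (Fin m) (Fin m) ℂ)) (f j x)) : ℂ) =
      (t : ℂ) * ∫ x in (Ioc (-a) a)ᶜ, (inner ℂ (f i x) (f j x) : ℂ) := by
    rw [← integral_const_mul]
    refine integral_congr_ae (Eventually.of_forall fun x => ?_)
    simp only [map_smul, LinearMap.smul_apply, toEuclideanLin_one, inner_smul_right]
  have e3 : (∫ x in Ioc (-a) a, (inner ℂ (f i x) (f j x) : ℂ)) +
      ∫ x in (Ioc (-a) a)ᶜ, (inner ℂ (f i x) (f j x) : ℂ) = (1 : Matrix (Fin N) (Fin N) ℂ) i j := by
    rw [integral_add_compl measurableSet_Ioc (hfi i j), ← ho]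
    rfl
  rw [e1, e2, ← e3]
  simp only [smul_eq_mul]
  ring

/-- the inequality at `γ = 3/2` for the shifted potential -/
theorem claim_t {a d : ℝ} (ha : 0 < a) (hd : 0 < d) {W : ℝ → Matrix (Fin m) (Fin m) ℂ}
    (hWc : Continuous W) (hW : ∀ x, (W x - (d : ℂ) • 1).PosSemidef)
    {f f' : Fin N → ℝ → EuclideanSpace ℂ (Fin m)} (hf : ∀ j, IsH1 (f j) (f' j))
    (ho : gram volume f = 1) (hL : (LamM a W f f').IsHermitian) {t : ℝ} (ht : 0 ≤ t) :
    trPos (3 / 2) (LamM a W f f' - (t : ℂ) • 1) ≤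
      Lcl (3 / 2) * ∫ x in (-a)..a, trPos 2 (W x - (t : ℂ) • 1) := by
  have haa : -a ≤ a := by linarith
  have hWh : ∀ x, (W x).IsHermitian := fun x => (posSemidef_of_shift hd.le (hW x)).isHermitian
  have hWth : ∀ x, (W x - (t : ℂ) • 1).IsHermitian := fun x => shift_isHermitian (hWh x) t
  obtain ⟨N', r, hr1, hr2, hr3⟩ := pos_system (shift_isHermitian hL t)
  rw [← hr3 (3 / 2) (by norm_num)]
  set P : ℝ → Matrix (Fin m) (Fin m) ℂ := fun x => pp (W x - (t : ℂ) • 1) with hP
  have hPc : Continuous P := continuous_pp (hWc.sub continuous_const) hWth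
  have hPp : ∀ x, (P x).PosSemidef := fun x => pp_posSemidef _
  have hP2c : Continuous fun x => trPow 2 (P x) := continuous_trPow_comp (by norm_num) hPc hPp
  have hP2 : ∀ x, trPow 2 (P x) = trPos 2 (W x - (t : ℂ) • 1) := fun x =>
    trPow_pp (hWth x) (by norm_num)
  have key : ∀ n : ℕ, trPow (3 / 2) (rᴴ * (LamM a W f f' - (t : ℂ) • 1) * r) ≤
      Lcl (3 / 2) * ((1 - 1 / ((n : ℝ) + 2)) ^ ((1 : ℝ) - 2) *
        (∫ x in (-a)..a, trPos 2 (W x - (t : ℂ) • 1)) +
        (2 * a * m) * (1 / ((n : ℝ) + 2)) ^ (3 : ℝ)) := by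
    intro n
    set τ : ℝ := 1 / ((n : ℝ) + 2) with hτ
    have hτ0 : 0 < τ := by positivity
    have hτ1 : τ < 1 := by
      rw [hτ, div_lt_one (by positivity)]
      have : (0:ℝ) ≤ n := Nat.cast_nonneg n
      linarith
    set U : ℝ → Matrix (Fin m) (Fin m) ℂ := fun x => P x + ((τ ^ 2 : ℝ) : ℂ) • 1 with hU
    have hUc : Continuous U := hPc.add continuous_const
    have hU1 : ∀ x, (U x - ((τ ^ 2 : ℝ) : ℂ) • 1).PosSemidef := fun x => by
      rw [hU]; simp only [add_sub_cancel_right]; exact hPp x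
    have hU2 : ∀ x, (U x - (W x - (t : ℂ) • 1)).PosSemidef := fun x => by
      have h1 := (pp_sub_posSemidef (hWth x)).add (smul_one_psd (m := m) (sq_nonneg τ))
      refine (congrArg Matrix.PosSemidef ?_).mpr h1
      rw [hU, hP]
      simp only []
      abel
    have hUp : ∀ x, (U x).PosSemidef := fun x => posSemidef_of_shift (sq_nonneg τ) (hU1 x)
    have h1 := LamM_shift_psd ha hWc hUc ht hU2 hf ho
    have h2 := posSemidef_conj h1 r
    rw [Matrix.mul_sub, Matrix.sub_mul, ← LamM_lc ha.le hUc.locallyIntegrable r hf] at h2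
    have h3 : (LamM a U (lc r f) (lc r f')).PosDef := by
      have := hr2.add_posSemidef h2
      rwa [add_sub_cancel] at this
    refine (trPow_mono (by norm_num) hr2 h2).trans ?_
    have h4 := mainHyp_three_half N' m a (τ ^ 2) U (lc r f) (lc r f') ha (by positivity) hUc hU1
      (fun j => isH1_lc r hf j) (by
        intro i j
        have h5 := gram_lc r (fun j => (hf j).memLp) (μ := volume)
        rw [ho, Matrix.mul_one, hr1] at h5
        have h6 := congrFun (congrFun h5 i) j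
        rw [gram, of_apply] at h6
        rw [h6, Matrix.one_apply]) h3
    refine h4.trans (mul_le_mul_of_nonneg_left ?_ (Lcl_pos (by norm_num)).le)
    have e32 : (3 / 2 : ℝ) + 1 / 2 = 2 := by norm_num
    rw [e32]
    have h7 : ∫ x in (-a)..a, trPow 2 (U x) ≤ ∫ x in (-a)..a,
        ((1 - τ) ^ ((1 : ℝ) - 2) * trPow 2 (P x) + τ ^ ((1 : ℝ) - 2) * (m * (τ ^ 2) ^ (2 : ℝ))) := by
      refine intervalIntegral.integral_mono_on haa
        ((continuous_trPow_comp (by norm_num) hUc hUp).intervalIntegrable _ _)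
        (((continuous_const.mul hP2c).intervalIntegrable _ _).add intervalIntegrable_const)
        fun x _ => ?_
      exact trPow_add_const_le (hPp x) (d := τ ^ 2) (p := 2) (τ := τ) (by positivity)
        (by norm_num) hτ0 hτ1
    have iP : IntervalIntegrable (fun x => (1 - τ) ^ ((1 : ℝ) - 2) * trPow 2 (P x)) volume
        (-a) a := (continuous_const.mul hP2c).intervalIntegrable _ _
    refine h7.trans (le_of_eq ?_)
    rw [intervalIntegral.integral_add iP intervalIntegrable_const, intervalIntegral.integral_const_mul,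
      intervalIntegral.integral_const, smul_eq_mul]
    simp_rw [hP2]
    congr 1
    have e1 : τ ^ ((1 : ℝ) - 2) * (τ ^ 2) ^ (2 : ℝ) = τ ^ (3 : ℝ) := by
      rw [← Real.rpow_natCast τ 2, ← Real.rpow_mul hτ0.le, ← Real.rpow_add hτ0]
      congr 1
      push_cast
      norm_num
    calc (a - -a) * (τ ^ ((1 : ℝ) - 2) * (m * (τ ^ 2) ^ (2 : ℝ)))
        = (2 * a * m) * (τ ^ ((1 : ℝ) - 2) * (τ ^ 2) ^ (2 : ℝ)) := by ring
      _ = _ := by rw [e1]
  have hlim : Tendsto (fun n : ℕ => Lcl (3 / 2) * ((1 - 1 / ((n : ℝ) + 2)) ^ ((1 : ℝ) - 2) *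
        (∫ x in (-a)..a, trPos 2 (W x - (t : ℂ) • 1)) +
        (2 * a * m) * (1 / ((n : ℝ) + 2)) ^ (3 : ℝ))) atTop
      (𝓝 (Lcl (3 / 2) * ∫ x in (-a)..a, trPos 2 (W x - (t : ℂ) • 1))) := by
    have h1 : Tendsto (fun n : ℕ => (1 - 1 / ((n : ℝ) + 2)) ^ ((1 : ℝ) - 2)) atTop (𝓝 1) := by
      have h2 : Tendsto (fun n : ℕ => (1 - 1 / ((n : ℝ) + 2))) atTop (𝓝 1) := by
        have := tendsto_tn.const_sub 1
        simpa only [sub_zero] using this
      have h3 := h2.rpow_const (p := (1 : ℝ) - 2) (Or.inl one_ne_zero)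
      simpa only [Real.one_rpow] using h3
    have h2 : Tendsto (fun n : ℕ => (1 / ((n : ℝ) + 2)) ^ (3 : ℝ)) atTop (𝓝 0) := by
      have h3 := tendsto_tn.rpow_const (p := (3 : ℝ)) (Or.inr (by norm_num))
      rwa [Real.zero_rpow (by norm_num)] at h3
    have h4 := ((h1.mul_const (∫ x in (-a)..a, trPos 2 (W x - (t : ℂ) • 1))).add
      (h2.const_mul (2 * a * m))).const_mul (Lcl (3 / 2))
    simpa only [one_mul, mul_zero, add_zero] using h4
  exact ge_of_tendsto' hlim key

theorem continuous_shift_trPos {p : ℝ} (hp : 0 < p) {W : ℝ → Matrix (Fin m) (Fin m) ℂ}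
    (hWc : Continuous W) (hWh : ∀ x, (W x).IsHermitian) :
    Continuous fun z : ℝ × ℝ => trPos p (W z.2 - (z.1 : ℂ) • 1) := by
  have h1 : Continuous fun z : ℝ × ℝ => W z.2 - (z.1 : ℂ) • (1 : Matrix (Fin m) (Fin m) ℂ) := by
    refine (hWc.comp continuous_snd).sub ?_
    exact (Complex.continuous_ofReal.comp continuous_fst).smul continuous_const
  have h2 := (continuous_trPos hp).comp h1
  have e : (fun z : ℝ × ℝ => trPos p (W z.2 - (z.1 : ℂ) • 1)) =
      (fun X : Matrix (Fin m) (Fin m) ℂ => trPos p (G.hp X)) ∘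
        fun z : ℝ × ℝ => W z.2 - (z.1 : ℂ) • (1 : Matrix (Fin m) (Fin m) ℂ) := by
    funext z
    simp only [Function.comp_apply]
    rw [G.hp_eq_self (shift_isHermitian (hWh _) _)]
  rw [e]
  exact h2

/-- integrating the shifted traces -/
theorem lintegral_trPos {q s : ℝ} (hq : 0 < q) (hs : 0 < s) {X : Matrix (Fin m) (Fin m) ℂ}
    (hX : X.PosSemidef) :
    ∫⁻ t in Ioi (0:ℝ), ENNReal.ofReal (t ^ (q - 1) * trPos s (X - (t : ℂ) • 1)) =
      ENNReal.ofReal (trPow (q + s) X * ProbabilityTheory.beta q (s + 1)) := by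
  have hh := hX.isHermitian
  have h1 : ∀ t ∈ Ioi (0:ℝ), ENNReal.ofReal (t ^ (q - 1) * trPos s (X - (t : ℂ) • 1)) =
      ∑ i, ENNReal.ofReal (t ^ (q - 1) * (max (hh.eigenvalues i - t) 0) ^ s) := by
    intro t ht
    have ht0 : (0:ℝ) < t := ht
    rw [trPos_shift hh s t hs, Finset.mul_sum, ENNReal.ofReal_sum_of_nonneg fun i _ =>
      mul_nonneg (Real.rpow_nonneg ht0.le _) (Real.rpow_nonneg (le_max_right _ _) _)]
  rw [setLIntegral_congr_fun measurableSet_Ioi h1, lintegral_finset_sum]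
  · simp_rw [lintegral_max hq hs (hX.eigenvalues_nonneg _)]
    have hB : 0 ≤ ProbabilityTheory.beta q (s + 1) :=
      (ProbabilityTheory.beta_pos hq (by linarith)).le
    rw [← ENNReal.ofReal_sum_of_nonneg fun i _ =>
      mul_nonneg (Real.rpow_nonneg (hX.eigenvalues_nonneg i) _) hB, ← Finset.sum_mul]
    rw [trPow, dif_pos hh]
  · intro i _
    fun_prop

/-- The core inequality for `γ > 3/2` with the semiclassical constant. -/
theorem mainHyp_AL {γ : ℝ} (hγ : 3 / 2 < γ) (N m : ℕ) : MainHyp γ (Lcl γ) N m := by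
  intro a d W f f' ha hd hWc hW hf ho hL
  have haa : -a ≤ a := by linarith
  set q : ℝ := γ - 3 / 2 with hq
  have hq0 : 0 < q := by linarith
  have hWp : ∀ x, (W x).PosSemidef := fun x => posSemidef_of_shift hd.le (hW x)
  have hWh : ∀ x, (W x).IsHermitian := fun x => (hWp x).isHermitian
  have hog : gram volume f = 1 := by
    ext i j
    rw [gram, of_apply, ho i j, Matrix.one_apply]
  have hLh := hL.isHermitian
  have hC0 := Lcl_pos (γ := 3 / 2) (by norm_num)
  have hCγ := Lcl_pos (γ := γ) (by linarith)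
  have hB1 := ProbabilityTheory.beta_pos hq0 (show (0:ℝ) < 3 / 2 + 1 by norm_num)
  have hB2 := ProbabilityTheory.beta_pos hq0 (show (0:ℝ) < 2 + 1 by norm_num)
  have hcont := continuous_shift_trPos (p := 2) (by norm_num) hWc hWh
  -- left side
  have hl := lintegral_trPos hq0 (show (0:ℝ) < 3 / 2 by norm_num) hL.posSemidef
  have hle : ∫⁻ t in Ioi (0:ℝ), ENNReal.ofReal (t ^ (q - 1) *
        trPos (3 / 2) (LamM a W f f' - (t : ℂ) • 1)) ≤
      ∫⁻ t in Ioi (0:ℝ), ∫⁻ x in Ioc (-a) a, ENNReal.ofReal (Lcl (3 / 2)) *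
        ENNReal.ofReal (t ^ (q - 1) * trPos 2 (W x - (t : ℂ) • 1)) := by
    refine setLIntegral_mono' measurableSet_Ioi fun t ht => ?_
    have ht0 : (0:ℝ) < t := ht
    have htq : 0 ≤ t ^ (q - 1) := Real.rpow_nonneg ht0.le _
    have hct : Continuous fun x => trPos 2 (W x - (t : ℂ) • 1) :=
      hcont.comp (continuous_const.prodMk continuous_id)
    have hi : Integrable (fun x => t ^ (q - 1) * trPos 2 (W x - (t : ℂ) • 1))
        (volume.restrict (Ioc (-a) a)) :=
      ((hct.const_smul (t ^ (q - 1))).intervalIntegrable (-a) a).1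
    have hm1 : Measurable fun x => ENNReal.ofReal (t ^ (q - 1) * trPos 2 (W x - (t : ℂ) • 1)) :=
      (continuous_const.mul hct).measurable.ennreal_ofReal
    rw [lintegral_const_mul _ hm1,
      ← ofReal_integral_eq_lintegral_ofReal hi (Eventually.of_forall fun x =>
        mul_nonneg htq (trPos_nonneg (shift_isHermitian (hWh x) t) 2)),
      ← ENNReal.ofReal_mul hC0.le]
    apply ENNReal.ofReal_le_ofReal
    rw [integral_const_mul, ← intervalIntegral.integral_of_le haa]
    have h1 := claim_t ha hd hWc hW hf hog hLh ht0.le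
    calc t ^ (q - 1) * trPos (3 / 2) (LamM a W f f' - (t : ℂ) • 1)
        ≤ t ^ (q - 1) * (Lcl (3 / 2) * ∫ x in (-a)..a, trPos 2 (W x - (t : ℂ) • 1)) :=
          mul_le_mul_of_nonneg_left h1 htq
      _ = _ := by ring
  have hswap : ∫⁻ t in Ioi (0:ℝ), ∫⁻ x in Ioc (-a) a, ENNReal.ofReal (Lcl (3 / 2)) *
        ENNReal.ofReal (t ^ (q - 1) * trPos 2 (W x - (t : ℂ) • 1)) =
      ∫⁻ x in Ioc (-a) a, ∫⁻ t in Ioi (0:ℝ), ENNReal.ofReal (Lcl (3 / 2)) *
        ENNReal.ofReal (t ^ (q - 1) * trPos 2 (W x - (t : ℂ) • 1)) := by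
    refine lintegral_lintegral_swap ?_
    refine Measurable.aemeasurable ?_
    refine Measurable.const_mul ?_ _
    refine Measurable.ennreal_ofReal ?_
    refine Measurable.mul ?_ hcont.measurable
    exact (measurable_fst.pow_const _)
  have hr : ∀ x, ∫⁻ t in Ioi (0:ℝ), ENNReal.ofReal (Lcl (3 / 2)) *
        ENNReal.ofReal (t ^ (q - 1) * trPos 2 (W x - (t : ℂ) • 1)) =
      ENNReal.ofReal (Lcl (3 / 2) * ProbabilityTheory.beta q (2 + 1) * trPow (γ + 1 / 2) (W x)) := by
    intro x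
    have hct : Measurable fun t : ℝ => ENNReal.ofReal (t ^ (q - 1) *
        trPos 2 (W x - (t : ℂ) • 1)) := by
      refine Measurable.ennreal_ofReal ?_
      refine Measurable.mul (measurable_id.pow_const _) ?_
      exact (hcont.comp (continuous_id.prodMk continuous_const)).measurable
    rw [lintegral_const_mul _ hct, lintegral_trPos hq0 (by norm_num : (0:ℝ) < 2) (hWp x),
      ← ENNReal.ofReal_mul hC0.le]
    have e1 : q + 2 = γ + 1 / 2 := by rw [hq]; ring
    rw [e1]
    congr 1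
    ring
  rw [hl, hswap] at hle
  simp_rw [hr] at hle
  have hc2 : Continuous fun x => trPow (γ + 1 / 2) (W x) :=
    continuous_trPow_comp (by linarith) hWc hWp
  have hi2 : Integrable (fun x => Lcl (3 / 2) * ProbabilityTheory.beta q (2 + 1) *
      trPow (γ + 1 / 2) (W x)) (volume.restrict (Ioc (-a) a)) :=
    ((continuous_const.mul hc2).intervalIntegrable (-a) a).1
  rw [← ofReal_integral_eq_lintegral_ofReal hi2
    (Eventually.of_forall fun x => mul_nonneg (mul_nonneg hC0.le hB2.le)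
      (trPow_nonneg' (hWp x) _))] at hle
  have hnn : 0 ≤ ∫ x in Ioc (-a) a, Lcl (3 / 2) * ProbabilityTheory.beta q (2 + 1) *
      trPow (γ + 1 / 2) (W x) := integral_nonneg fun x => mul_nonneg (mul_nonneg hC0.le hB2.le)
      (trPow_nonneg' (hWp x) _)
  have h2 := (ENNReal.ofReal_le_ofReal_iff hnn).1 hle
  have e2 : q + 3 / 2 = γ := by rw [hq]; ring
  rw [e2, integral_const_mul, ← intervalIntegral.integral_of_le haa, hq, const_eq hγ, ← hq] at h2
  have h3 : ProbabilityTheory.beta q (3 / 2 + 1) * trPow γ (LamM a W f f') ≤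
      ProbabilityTheory.beta q (3 / 2 + 1) *
        (Lcl γ * ∫ x in (-a)..a, trPow (γ + 1 / 2) (W x)) := by
    calc _ = trPow γ (LamM a W f f') * ProbabilityTheory.beta q (3 / 2 + 1) := by ring
      _ ≤ _ := h2
      _ = _ := by ring
  exact le_of_mul_le_mul_left h3 hB1

end Vale.Agent.P371.H816
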