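import Vale.Agent.P371.H816.Endpoint

set_option linter.all false

/-!
The scalar integral `∫_0^∞ t^(q-1) (μ - t)_+^s dt = μ^(q+s) B(q, s+1)` and the constants.
-/

namespace Vale.Agent.P371.H816

open MeasureTheory Filter Topology Set
open Vale.Agent.P371
open scoped ENNReal

theorem beta_real2 {α β : ℝ} (hα : 0 < α) (hβ : 0 < β) :
    ∫ t in (0:ℝ)..1, t ^ (α - 1) * (1 - t) ^ (β - 1) = ProbabilityTheory.beta α β := by
  rw [ProbabilityTheory.beta_eq_betaIntegralReal α β hα hβ, Complex.betaIntegral]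
  have h : ∫ x in (0:ℝ)..1, (x : ℂ) ^ ((α : ℂ) - 1) * (1 - (x : ℂ)) ^ ((β : ℂ) - 1) =
      ((∫ t in (0:ℝ)..1, t ^ (α - 1) * (1 - t) ^ (β - 1) : ℝ) : ℂ) := by
    rw [← intervalIntegral.integral_ofReal]
    refine intervalIntegral.integral_congr fun x hx => ?_
    rw [Set.uIcc_of_le zero_le_one] at hx
    have h1 : (1 : ℂ) - (x : ℂ) = ((1 - x : ℝ) : ℂ) := by push_cast; ring
    have h2 : (α : ℂ) - 1 = ((α - 1 : ℝ) : ℂ) := by push_cast; ring
    have h3 : (β : ℂ) - 1 = ((β - 1 : ℝ) : ℂ) := by push_cast; ring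
    rw [h1, h2, h3, ← Complex.ofReal_cpow hx.1, ← Complex.ofReal_cpow (by linarith [hx.2]),
      ← Complex.ofReal_mul]
  rw [h, Complex.ofReal_re]

theorem ii_rpow_mul {q s μ a b : ℝ} (hq : 0 < q) (hs : 0 < s) :
    IntervalIntegrable (fun t : ℝ => t ^ (q - 1) * (max (μ - t) 0) ^ s) volume a b := by
  refine (intervalIntegral.intervalIntegrable_rpow' (by linarith)).mul_continuousOn ?_
  exact (((continuous_const.sub continuous_id).max continuous_const).rpow_const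
    fun x => Or.inr hs.le).continuousOn

theorem integral_max {q s μ : ℝ} (hq : 0 < q) (hs : 0 < s) (hμ : 0 < μ) :
    ∫ t in (0:ℝ)..μ, t ^ (q - 1) * (max (μ - t) 0) ^ s =
      μ ^ (q + s) * ProbabilityTheory.beta q (s + 1) := by
  have h := intervalIntegral.smul_integral_comp_mul_left (a := (0:ℝ)) (b := 1)
    (f := fun t : ℝ => t ^ (q - 1) * (max (μ - t) 0) ^ s) μ
  rw [mul_zero, mul_one] at h
  rw [← h, ← beta_real2 hq (by linarith : 0 < s + 1), smul_eq_mul]
  have h1 : ∫ x in (0:ℝ)..1, (μ * x) ^ (q - 1) * (max (μ - μ * x) 0) ^ s =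
      ∫ x in (0:ℝ)..1, μ ^ (q - 1 + s) * (x ^ (q - 1) * (1 - x) ^ (s + 1 - 1)) := by
    refine intervalIntegral.integral_congr fun x hx => ?_
    rw [Set.uIcc_of_le zero_le_one] at hx
    have hx1 : 0 ≤ 1 - x := by linarith [hx.2]
    have e1 : max (μ - μ * x) 0 = μ * (1 - x) := by
      rw [max_eq_left]
      · ring
      · have := mul_nonneg hμ.le hx1
        linarith
    rw [e1, Real.mul_rpow hμ.le hx.1, Real.mul_rpow hμ.le hx1, Real.rpow_add hμ,
      add_sub_cancel_right]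
    ring
  rw [h1, intervalIntegral.integral_const_mul, ← mul_assoc]
  congr 1
  have : μ * μ ^ (q - 1 + s) = μ ^ (1 : ℝ) * μ ^ (q - 1 + s) := by rw [Real.rpow_one]
  rw [this, ← Real.rpow_add hμ]
  congr 1
  ring

theorem lintegral_max {q s : ℝ} (hq : 0 < q) (hs : 0 < s) {μ : ℝ} (hμ : 0 ≤ μ) :
    ∫⁻ t in Ioi (0:ℝ), ENNReal.ofReal (t ^ (q - 1) * (max (μ - t) 0) ^ s) =
      ENNReal.ofReal (μ ^ (q + s) * ProbabilityTheory.beta q (s + 1)) := by
  have hzero : ∀ t ∈ Ioi μ, ENNReal.ofReal (t ^ (q - 1) * (max (μ - t) 0) ^ s) = 0 := by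
    intro t ht
    have ht' : μ < t := ht
    rw [max_eq_right (by linarith), Real.zero_rpow hs.ne', mul_zero, ENNReal.ofReal_zero]
  have hsplit : Ioi (0:ℝ) = Ioc 0 μ ∪ Ioi μ := (Ioc_union_Ioi_eq_Ioi hμ).symm
  have hdisj : Disjoint (Ioc 0 μ) (Ioi μ) := by
    rw [Set.disjoint_left]
    intro x hx hx'
    exact absurd hx.2 (not_le.2 hx')
  rw [hsplit, lintegral_union measurableSet_Ioi hdisj, setLIntegral_congr_fun measurableSet_Ioi
    hzero, lintegral_zero, add_zero]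
  rcases hμ.eq_or_lt with h0 | hμ0
  · rw [← h0]
    simp only [Ioc_self, Measure.restrict_empty, lintegral_zero_measure]
    rw [Real.zero_rpow (by linarith), zero_mul, ENNReal.ofReal_zero]
  · rw [← integral_max hq hs hμ0, intervalIntegral.integral_of_le hμ0.le,
      ofReal_integral_eq_lintegral_ofReal]
    · exact (intervalIntegrable_iff_integrableOn_Ioc_of_le hμ0.le).1 (ii_rpow_mul hq hs)
    · refine (ae_restrict_iff' measurableSet_Ioc).2 (Eventually.of_forall fun t ht => ?_)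
      exact mul_nonneg (Real.rpow_nonneg ht.1.le _) (Real.rpow_nonneg (le_max_right _ _) _)

/-- `L_{3/2} B(q, 3) = L_γ B(q, 5/2)`, `q = γ - 3/2` -/
theorem const_eq {γ : ℝ} (hγ : 3 / 2 < γ) :
    Lcl (3 / 2) * ProbabilityTheory.beta (γ - 3 / 2) (2 + 1) =
      Lcl γ * ProbabilityTheory.beta (γ - 3 / 2) (3 / 2 + 1) := by
  unfold Lcl ProbabilityTheory.beta
  have e1 : γ - 3 / 2 + (2 + 1) = γ + 3 / 2 := by ring
  have e2 : γ - 3 / 2 + (3 / 2 + 1) = γ + 1 := by ring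
  have e3 : (3 / 2 : ℝ) + 3 / 2 = 2 + 1 := by norm_num
  rw [e1, e2, e3]
  have h1 := Real.Gamma_pos_of_pos (show (0:ℝ) < 2 + 1 by norm_num)
  have h2 := Real.Gamma_pos_of_pos (show 0 < γ + 1 by linarith)
  have h3 := Real.Gamma_pos_of_pos (show 0 < γ + 3 / 2 by linarith)
  have h4 : 0 < Real.sqrt Real.pi := Real.sqrt_pos.2 Real.pi_pos
  field_simp

end Vale.Agent.P371.H816
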