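import Vale.Agent.P371.LT
import Mathlib.Analysis.Calculus.ContDiff.Basic
import Mathlib.Analysis.InnerProductSpace.Calculus

/-!
Definitions for the Lieb-Thirring constants `L_{γ,d}(m)` of `-Δ - V` on `L^2(ℝ^d; ℂ^m)`, with
matrix-valued potentials `V`.
-/

namespace Vale.Agent.P371.DimLT

open MeasureTheory Filter Topology
open scoped ENNReal ContDiff ComplexOrder

variable {d m : ℕ}

/-- The partial derivative `∂_i f`. -/
noncomputable def pd (i : Fin d) (f : (Fin d → ℝ) → EuclideanSpace ℂ (Fin m)) (x : Fin d → ℝ) :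
    EuclideanSpace ℂ (Fin m) := fderiv ℝ f x (Pi.single i 1)

/-- `f`, with gradient `f' = (∂_1 f, ..., ∂_d f)`, is in the Sobolev space `H^1(ℝ^d; ℂ^m)`, the
closure of `C_c^∞(ℝ^d; ℂ^m)` in the norm `‖f‖_2 + ‖∇f‖_2`. -/
def H1 (f : (Fin d → ℝ) → EuclideanSpace ℂ (Fin m))
    (f' : Fin d → (Fin d → ℝ) → EuclideanSpace ℂ (Fin m)) : Prop :=
  MemLp f 2 volume ∧ (∀ i, MemLp (f' i) 2 volume) ∧
  ∃ φ : ℕ → (Fin d → ℝ) → EuclideanSpace ℂ (Fin m),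
    (∀ n, ContDiff ℝ ∞ (φ n) ∧ HasCompactSupport (φ n)) ∧
    Tendsto (fun n => eLpNorm (f - φ n) 2 volume) atTop (𝓝 0) ∧
    ∀ i, Tendsto (fun n => eLpNorm (f' i - pd i (φ n)) 2 volume) atTop (𝓝 0)

/-- Matrix potentials on `ℝ^d` : measurable, positive semidefinite, with `∫ tr V^p < ∞`. -/
structure Potential (p : ℝ) (V : (Fin d → ℝ) → Matrix (Fin m) (Fin m) ℂ) : Prop where
  measurable : ∀ i j, Measurable fun x => V x i j
  posSemidef : ∀ x, (V x).PosSemidef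
  integrable : Integrable (fun x => LT.trPow p (V x)) volume

/-- The `L^2` inner product `∫ ⟨g(x), f(x)⟩ dx`. -/
noncomputable def ip (g f : (Fin d → ℝ) → EuclideanSpace ℂ (Fin m)) : ℂ :=
  ∫ x, (inner ℂ (g x) (f x) : ℂ)

/-- The function `x ↦ ⟨g(x), V(x) f(x)⟩ = ∑_{a,b} conj(g_a(x)) V_{ab}(x) f_b(x)`. -/
noncomputable def pot (V : (Fin d → ℝ) → Matrix (Fin m) (Fin m) ℂ)
    (g f : (Fin d → ℝ) → EuclideanSpace ℂ (Fin m)) (x : Fin d → ℝ) : ℂ :=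
  ∑ a, ∑ b, star (g x a) * V x a b * f x b

/-- `f`, with gradient `f'`, is in the form domain of `-Δ - V` : `f ∈ H^1` and
`∫ ⟨f, V f⟩ < ∞`. -/
def FormDomain (V : (Fin d → ℝ) → Matrix (Fin m) (Fin m) ℂ)
    (f : (Fin d → ℝ) → EuclideanSpace ℂ (Fin m))
    (f' : Fin d → (Fin d → ℝ) → EuclideanSpace ℂ (Fin m)) : Prop :=
  H1 f f' ∧ Integrable (pot V f f) volume

/-- `f` is in the form domain and satisfies `h_V(g, f) = lam ⟨g, f⟩` for every `g` in the form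
domain, where `h_V(g, f) = ∑_i ∫ ⟨∂_i g, ∂_i f⟩ - ∫ ⟨g, V f⟩` is the form of `-Δ - V`. -/
def Eigen (V : (Fin d → ℝ) → Matrix (Fin m) (Fin m) ℂ) (lam : ℝ)
    (f : (Fin d → ℝ) → EuclideanSpace ℂ (Fin m))
    (f' : Fin d → (Fin d → ℝ) → EuclideanSpace ℂ (Fin m)) : Prop :=
  FormDomain V f f' ∧ ∀ g g', FormDomain V g g' →
    (∑ i, ip (g' i) (f' i)) - (∫ x, pot V g f x) = lam * ip g f

/-- `∑_j |λ_j|^γ` over the negative eigenvalues of `-Δ - V` counted with multiplicity, written as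
the supremum over all finite orthonormal systems of eigenfunctions with negative eigenvalues. -/
noncomputable def rieszMean (γ : ℝ) (V : (Fin d → ℝ) → Matrix (Fin m) (Fin m) ℂ) : ℝ≥0∞ :=
  ⨆ (N : ℕ) (lam : Fin N → ℝ) (f : Fin N → (Fin d → ℝ) → EuclideanSpace ℂ (Fin m))
    (f' : Fin N → Fin d → (Fin d → ℝ) → EuclideanSpace ℂ (Fin m))
    (_ : ∀ j, lam j < 0 ∧ Eigen V (lam j) (f j) (f' j))
    (_ : ∀ i j, ip (f i) (f j) = if i = j then 1 else 0),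
    ∑ j, ENNReal.ofReal (|lam j| ^ γ)

/-- The Lieb-Thirring constant `L_{γ,d}(m)` : the best constant in
`Tr (-Δ - V)_-^γ ≤ L ∫ tr V^(γ+d/2)`. -/
noncomputable def LTconst (γ : ℝ) (d m : ℕ) : ℝ≥0∞ :=
  ⨆ (V : (Fin d → ℝ) → Matrix (Fin m) (Fin m) ℂ) (_ : Potential (γ + d / 2) V)
    (_ : ∫ x, LT.trPow (γ + d / 2) (V x) ≠ 0),
    rieszMean γ V / ENNReal.ofReal (∫ x, LT.trPow (γ + d / 2) (V x))

/-- The semiclassical constant `L^{cl}_{γ,d} = Γ(γ+1) / ((4π)^(d/2) Γ(γ+d/2+1))`. -/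
noncomputable def Lcl (γ : ℝ) (d : ℕ) : ℝ :=
  Real.Gamma (γ + 1) / ((4 * Real.pi) ^ ((d : ℝ) / 2) * Real.Gamma (γ + d / 2 + 1))

end Vale.Agent.P371.DimLT
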