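import Vale.Agent.P371.H816.Tools2

set_option linter.all false

/-!
The endpoint `γ = 3/2` of the core inequality, by continuity in `γ`.
-/

namespace Vale.Agent.P371.H816

open MeasureTheory Filter Topology Set Matrix
open Vale.Agent.P371 Vale.Agent.P371.G
open scoped ComplexOrder Matrix.Norms.L2Operator MatrixOrder

variable {N M m K : ℕ}

theorem le_eigenvalues {X : Matrix (Fin m) (Fin m) ℂ} (hX : X.IsHermitian) {d : ℝ}
    (h : (X - (d : ℂ) • 1).PosSemidef) (i : Fin m) : d ≤ hX.eigenvalues i := by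
  have h1 := (posSemidef_iff_qf.1 h).2 (⇑(hX.eigenvectorBasis i))
  have h2 : qf (X - (d : ℂ) • 1) (⇑(hX.eigenvectorBasis i)) =
      qf X (⇑(hX.eigenvectorBasis i)) - d * qf (1 : Matrix (Fin m) (Fin m) ℂ)
        (⇑(hX.eigenvectorBasis i)) := by
    rw [qf_sub]
    congr 1
    have : ((d : ℂ) • (1 : Matrix (Fin m) (Fin m) ℂ)) = d • (1 : Matrix (Fin m) (Fin m) ℂ) := by
      ext a b; simp
    rw [this, qf_smul]
  rw [h2, qf_eigenvector (hX.mulVec_eigenvectorBasis i)] at h1
  have h3 := qf_one_pos (eigenvectorBasis_ne_zero hX i)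
  by_contra h4
  push Not at h4
  nlinarith

theorem continuous_trPow_comp {p : ℝ} (hp : 0 < p) {X : Type*} [TopologicalSpace X]
    {W : X → Matrix (Fin m) (Fin m) ℂ} (hW : Continuous W) (hP : ∀ x, (W x).PosSemidef) :
    Continuous fun x => trPow p (W x) :=
  continuous_iff_continuousAt.mpr fun x =>
    tendsto_trPow (hW.tendsto x) (Eventually.of_forall hP) (hP x) hp

theorem posSemidef_of_shift {X : Matrix (Fin m) (Fin m) ℂ} {d : ℝ} (hd : 0 ≤ d)
    (h : (X - (d : ℂ) • 1).PosSemidef) : X.PosSemidef := PI.posSemidef_of_sub hd h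

theorem tendsto_Cg : Tendsto (fun n : ℕ => Cg (3 / 2 - 1 / ((n : ℝ) + 2))) atTop
    (𝓝 (Lcl (3 / 2))) := by
  have h0 : ∀ n : ℕ, Cg (3 / 2 - 1 / ((n : ℝ) + 2)) =
      (fun γ : ℝ => 2 * ((γ - 1 / 2) / (γ + 1 / 2)) ^ (γ - 1 / 2) * Lcl γ)
        (3 / 2 - 1 / ((n : ℝ) + 2)) := by
    intro n
    refine Cg_eq ?_
    have h1 : (0:ℝ) ≤ n := Nat.cast_nonneg n
    have h2 : 1 / ((n : ℝ) + 2) < 1 := by
      rw [div_lt_one (by linarith)]; linarith
    linarith
  simp_rw [h0]
  have h1 : Tendsto (fun n : ℕ => 3 / 2 - 1 / ((n : ℝ) + 2)) atTop (𝓝 (3 / 2)) := by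
    have := tendsto_tn.const_sub (3 / 2)
    simpa only [sub_zero] using this
  have hG1 : ContinuousAt (fun γ : ℝ => Real.Gamma (γ + 1)) (3 / 2) := by
    have : ContinuousAt Real.Gamma (3 / 2 + 1) :=
      (Real.differentiableAt_Gamma fun k => by
        have : (0:ℝ) ≤ k := Nat.cast_nonneg k
        linarith).continuousAt
    exact ContinuousAt.comp (f := fun γ : ℝ => γ + 1) this (by fun_prop)
  have hG2 : ContinuousAt (fun γ : ℝ => Real.Gamma (γ + 3 / 2)) (3 / 2) := by
    have : ContinuousAt Real.Gamma (3 / 2 + 3 / 2) :=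
      (Real.differentiableAt_Gamma fun k => by
        have : (0:ℝ) ≤ k := Nat.cast_nonneg k
        linarith).continuousAt
    exact ContinuousAt.comp (f := fun γ : ℝ => γ + 3 / 2) this (by fun_prop)
  have hL : ContinuousAt Lcl (3 / 2) := by
    unfold Lcl
    refine hG1.div (continuousAt_const.mul hG2) ?_
    have h3 := Real.Gamma_pos_of_pos (show (0:ℝ) < 3 / 2 + 3 / 2 by norm_num)
    have := Real.pi_pos
    positivity
  have hR : ContinuousAt (fun γ : ℝ => ((γ - 1 / 2) / (γ + 1 / 2)) ^ (γ - 1 / 2)) (3 / 2) := by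
    refine ContinuousAt.rpow ?_ (by fun_prop) (Or.inl (by norm_num))
    refine ContinuousAt.div (by fun_prop) (by fun_prop) (by norm_num)
  have h2 : ContinuousAt (fun γ : ℝ => 2 * ((γ - 1 / 2) / (γ + 1 / 2)) ^ (γ - 1 / 2) * Lcl γ)
      (3 / 2) := (continuousAt_const.mul hR).mul hL
  have h3 := h2.tendsto.comp h1
  have h4 : 2 * (((3 / 2 : ℝ) - 1 / 2) / (3 / 2 + 1 / 2)) ^ ((3 / 2 : ℝ) - 1 / 2) * Lcl (3 / 2) =
      Lcl (3 / 2) := by
    have e1 : (3 / 2 : ℝ) - 1 / 2 = 1 := by norm_num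
    have e2 : (3 / 2 : ℝ) + 1 / 2 = 2 := by norm_num
    rw [e1, e2, Real.rpow_one]
    ring
  rw [h4] at h3
  exact h3

theorem Lcl_pos {γ : ℝ} (hγ : -1 < γ) : 0 < Lcl γ := by
  unfold Lcl
  have h3 := Real.Gamma_pos_of_pos (show 0 < γ + 1 by linarith)
  have h4 := Real.Gamma_pos_of_pos (show 0 < γ + 3 / 2 by linarith)
  have := Real.pi_pos
  positivity

/-- The core inequality at `γ = 3/2`. -/
theorem mainHyp_three_half (N m : ℕ) : MainHyp (3 / 2) (Lcl (3 / 2)) N m := by
  intro a d W f f' ha hd hWc hW hf ho hL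
  set g : ℕ → ℝ := fun n => 3 / 2 - 1 / ((n : ℝ) + 2) with hg
  have hg1 : ∀ n, 1 / 2 < g n := by
    intro n
    have h1 : (0:ℝ) ≤ n := Nat.cast_nonneg n
    have h2 : 1 / ((n : ℝ) + 2) < 1 := by
      rw [div_lt_one (by linarith)]; linarith
    rw [hg]; simp only []; linarith
  have hg2 : ∀ n, g n < 3 / 2 := by
    intro n
    have h2 : 0 < 1 / ((n : ℝ) + 2) := by positivity
    rw [hg]; simp only []; linarith
  have hgt : Tendsto g atTop (𝓝 (3 / 2)) := by
    have := tendsto_tn.const_sub (3 / 2)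
    simpa only [sub_zero] using this
  have haa : -a ≤ a := by linarith
  have hWp : ∀ x, (W x).PosSemidef := fun x => posSemidef_of_shift hd.le (hW x)
  have hc2 : Continuous fun x => trPow 2 (W x) := continuous_trPow_comp (by norm_num) hWc hWp
  have key : ∀ n, trPow (g n) (LamM a W f f') ≤
      Cg (g n) * (d ^ (g n - 3 / 2) * ∫ x in (-a)..a, trPow 2 (W x)) := by
    intro n
    refine (PI.mainHyp (hg1 n) (hg2 n) N m a d W f f' ha hd hWc hW hf ho hL).trans ?_
    refine mul_le_mul_of_nonneg_left ?_ (Cg_pos (hg1 n)).le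
    rw [← intervalIntegral.integral_const_mul]
    refine intervalIntegral.integral_mono_on haa
      ((continuous_trPow_comp (by linarith [hg1 n]) hWc hWp).intervalIntegrable _ _)
      ((hc2.const_smul (d ^ (g n - 3 / 2))).intervalIntegrable _ _) fun x _ => ?_
    have hh := (hWp x).isHermitian
    simp only [trPow, dif_pos hh, Finset.mul_sum]
    refine Finset.sum_le_sum fun i _ => ?_
    have hw := le_eigenvalues hh (hW x) i
    have hw0 : 0 < hh.eigenvalues i := hd.trans_le hw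
    have e1 : hh.eigenvalues i ^ (g n + 1 / 2) =
        hh.eigenvalues i ^ (g n - 3 / 2) * hh.eigenvalues i ^ (2 : ℝ) := by
      rw [← Real.rpow_add hw0]; congr 1; ring
    rw [e1]
    refine mul_le_mul_of_nonneg_right ?_ (Real.rpow_nonneg hw0.le _)
    exact Real.rpow_le_rpow_of_nonpos hd hw (by linarith [hg2 n])
  have e32 : (3 / 2 : ℝ) + 1 / 2 = 2 := by norm_num
  rw [e32]
  have hl1 : Tendsto (fun n => trPow (g n) (LamM a W f f')) atTop
      (𝓝 (trPow (3 / 2) (LamM a W f f'))) := by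
    simp only [trPow, dif_pos hL.isHermitian]
    refine tendsto_finset_sum _ fun i _ => ?_
    have := Real.continuous_const_rpow (hL.eigenvalues_pos i).ne'
    exact (this.tendsto (3 / 2)).comp hgt
  have hl2 : Tendsto (fun n => Cg (g n) * (d ^ (g n - 3 / 2) * ∫ x in (-a)..a, trPow 2 (W x)))
      atTop (𝓝 (Lcl (3 / 2) * (1 * ∫ x in (-a)..a, trPow 2 (W x)))) := by
    refine tendsto_Cg.mul (Tendsto.mul_const _ ?_)
    have h1 : Tendsto (fun n => g n - 3 / 2) atTop (𝓝 0) := by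
      have := hgt.sub_const (3 / 2)
      simpa only [sub_self] using this
    have h2 := ((Real.continuous_const_rpow hd.ne').tendsto 0).comp h1
    rwa [Real.rpow_zero] at h2
  rw [one_mul] at hl2
  exact le_of_tendsto_of_tendsto hl1 hl2 (Eventually.of_forall key)

end Vale.Agent.P371.H816
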