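import Vale.Agent.P371.H816.DimDefs

/-!
Definitions for the Lieb-Thirring kinetic energy inequality.
-/

namespace Vale.Agent.P371.DimLT

open MeasureTheory

variable {d m : ℕ}

/-- The one-particle density matrix `R(x) = ∑_j |f_j(x)⟩⟨f_j(x)|` of a system `f_1, ..., f_N`. For
`m = 1` it is the density `∑_j |f_j(x)|^2`. -/
noncomputable def density {N : ℕ} (f : Fin N → (Fin d → ℝ) → EuclideanSpace ℂ (Fin m))
    (x : Fin d → ℝ) : Matrix (Fin m) (Fin m) ℂ :=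
  Matrix.of fun a b => ∑ j, f j x a * star (f j x b)

/-- The Lieb-Thirring kinetic energy inequality in `ℝ^d`, with constant `K` : for `f_1, ..., f_N` in
`H^1(ℝ^d; ℂ^m)` orthonormal in `L^2`, with one-particle density matrix `R`,
`∑_j ∫ |∇f_j|^2 ≥ K ∫ tr R^(1+2/d)`. -/
def Kinetic (d m : ℕ) (K : ℝ) : Prop :=
  ∀ (N : ℕ) (f : Fin N → (Fin d → ℝ) → EuclideanSpace ℂ (Fin m))
    (f' : Fin N → Fin d → (Fin d → ℝ) → EuclideanSpace ℂ (Fin m)), (∀ j, H1 (f j) (f' j)) →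
    (∀ i j, ip (f i) (f j) = if i = j then 1 else 0) →
    ENNReal.ofReal K * ∫⁻ x, ENNReal.ofReal (LT.trPow (1 + 2 / (d : ℝ)) (density f x)) ≤
      ENNReal.ofReal (∑ j, ∑ i, ∫ x, ‖f' j i x‖ ^ 2)

/-- The semiclassical (Thomas-Fermi) constant `K^{cl}_d = 4π (d/(d+2)) Γ(d/2+1)^(2/d)`. -/
noncomputable def Kcl (d : ℕ) : ℝ :=
  4 * Real.pi * ((d : ℝ) / (d + 2)) * Real.Gamma ((d : ℝ) / 2 + 1) ^ (2 / (d : ℝ))

/-- The ratio `r(γ) = L^{(1)}_γ / L^{cl}_γ = 2 ((γ-1/2)/(γ+1/2))^(γ-1/2)`. -/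
noncomputable def ratio (γ : ℝ) : ℝ := 2 * ((γ - 1 / 2) / (γ + 1 / 2)) ^ (γ - 1 / 2)

end Vale.Agent.P371.DimLT
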