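import Vale.Agent.P371.H816.AL
import Vale.Agent.P371.H816.DimDefs

set_option linter.all false

/-!
Lifting: basic notions.
-/

namespace Vale.Agent.P371.H816

open MeasureTheory Filter Topology Set Matrix
open Vale.Agent.P371 Vale.Agent.P371.G
open scoped ComplexOrder Matrix.Norms.L2Operator MatrixOrder ENNReal ContDiff
open Vale.Agent.P371.DimLT (pd)

variable {N M m K d : ℕ}

/-- `C^1` functions with compact support -/
def Cc (f : (Fin d → ℝ) → EuclideanSpace ℂ (Fin m)) : Prop := ContDiff ℝ 1 f ∧ HasCompactSupport f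

theorem Cc.differentiable {f : (Fin d → ℝ) → EuclideanSpace ℂ (Fin m)} (hf : Cc f) :
    Differentiable ℝ f := hf.1.differentiable (by norm_num)

theorem Cc.continuous {f : (Fin d → ℝ) → EuclideanSpace ℂ (Fin m)} (hf : Cc f) : Continuous f :=
  hf.1.continuous

theorem Cc.continuous_pd {f : (Fin d → ℝ) → EuclideanSpace ℂ (Fin m)} (hf : Cc f) (i : Fin d) :
    Continuous (pd i f) := by
  have h : Continuous (fderiv ℝ f) := hf.1.continuous_fderiv (by norm_num)
  exact h.clm_apply continuous_const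

theorem Cc.hasCompactSupport_pd {f : (Fin d → ℝ) → EuclideanSpace ℂ (Fin m)} (hf : Cc f)
    (i : Fin d) : HasCompactSupport (pd i f) := by
  have h := hf.2.fderiv (𝕜 := ℝ)
  exact h.comp_left (g := fun L : (Fin d → ℝ) →L[ℝ] EuclideanSpace ℂ (Fin m) => L (Pi.single i 1))
    (by simp)

theorem memLp_cc {f : (Fin d → ℝ) → EuclideanSpace ℂ (Fin m)} (hc : Continuous f)
    (hs : HasCompactSupport f) : MemLp f 2 volume := hc.memLp_of_hasCompactSupport hs

theorem Cc.memLp {f : (Fin d → ℝ) → EuclideanSpace ℂ (Fin m)} (hf : Cc f) : MemLp f 2 volume :=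
  memLp_cc hf.continuous hf.2

theorem Cc.memLp_pd {f : (Fin d → ℝ) → EuclideanSpace ℂ (Fin m)} (hf : Cc f) (i : Fin d) :
    MemLp (pd i f) 2 volume := memLp_cc (hf.continuous_pd i) (hf.hasCompactSupport_pd i)

theorem cc_lc (r : Matrix (Fin N) (Fin M) ℂ) {f : Fin N → (Fin d → ℝ) → EuclideanSpace ℂ (Fin m)}
    (hf : ∀ j, Cc (f j)) (k : Fin M) : Cc (lc r f k) := by
  constructor
  · unfold lc
    exact ContDiff.sum fun j _ => (hf j).1.const_smul (r j k)
  · obtain ⟨S, hS, hS'⟩ : ∃ S : Set (Fin d → ℝ), IsCompact S ∧ ∀ j, ∀ x ∉ S, f j x = 0 := by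
      refine ⟨⋃ j, tsupport (f j), isCompact_iUnion fun j => (hf j).2, fun j x hx => ?_⟩
      exact image_eq_zero_of_notMem_tsupport fun h => hx (mem_iUnion.2 ⟨j, h⟩)
    refine HasCompactSupport.intro hS fun x hx => ?_
    unfold lc
    exact Finset.sum_eq_zero fun j _ => by rw [hS' j x hx, smul_zero]

theorem pd_lc (r : Matrix (Fin N) (Fin M) ℂ) {f : Fin N → (Fin d → ℝ) → EuclideanSpace ℂ (Fin m)}
    (hf : ∀ j, Cc (f j)) (i : Fin d) (k : Fin M) :
    pd i (lc r f k) = lc r (fun j => pd i (f j)) k := by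
  funext x
  unfold pd lc
  have h1 : fderiv ℝ (fun x => ∑ j, r j k • f j x) x = ∑ j, fderiv ℝ (fun x => r j k • f j x) x :=
    fderiv_fun_sum fun j _ => ((hf j).differentiable x).const_smul (r j k)
  rw [h1, ContinuousLinearMap.sum_apply]
  refine Finset.sum_congr rfl fun j _ => ?_
  rw [fderiv_fun_const_smul ((hf j).differentiable x)]
  rfl

/-- the matrix of the form of `V + Δ` -/
noncomputable def Lam (V : (Fin d → ℝ) → Matrix (Fin m) (Fin m) ℂ)
    (f : Fin N → (Fin d → ℝ) → EuclideanSpace ℂ (Fin m)) : Matrix (Fin N) (Fin N) ℂ :=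
  (Matrix.of fun i j => ∫ x, (inner ℂ (f i x) (Matrix.toEuclideanLin (V x) (f j x)) : ℂ)) -
    ∑ k : Fin d, gram volume (fun j => pd k (f j))

/-- bounded measurable potentials -/
structure Bdd {X : Type*} [MeasurableSpace X] (V : X → Matrix (Fin m) (Fin m) ℂ) : Prop where
  measurable : ∀ i j, Measurable fun x => V x i j
  posSemidef : ∀ x, (V x).PosSemidef
  bound : ∃ B, ∀ x, ‖V x‖ ≤ B

theorem aesm_form' {X : Type*} [MeasurableSpace X] {μ : Measure X}
    {V : X → Matrix (Fin m) (Fin m) ℂ} (hV : ∀ i j, Measurable fun x => V x i j)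
    {f g : X → EuclideanSpace ℂ (Fin m)} (hf : AEStronglyMeasurable f μ)
    (hg : AEStronglyMeasurable g μ) :
    AEStronglyMeasurable (fun x => (inner ℂ (f x) (Matrix.toEuclideanLin (V x) (g x)) : ℂ)) μ := by
  have h2 : (fun x => (inner ℂ (f x) (Matrix.toEuclideanLin (V x) (g x)) : ℂ)) =
      fun x => ∑ k, ∑ l, (starRingEnd ℂ (f x k)) * V x k l * g x l := by
    funext x
    rw [PiLp.inner_apply]
    refine Finset.sum_congr rfl fun k _ => ?_
    rw [RCLike.inner_apply, Matrix.toLpLin_apply]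
    simp only [Matrix.mulVec, dotProduct, Finset.sum_mul]
    refine Finset.sum_congr rfl fun l _ => ?_
    ring
  rw [h2]
  refine Finset.aestronglyMeasurable_fun_sum _ fun k _ =>
    Finset.aestronglyMeasurable_fun_sum _ fun l _ => ?_
  have hk : Continuous fun v : EuclideanSpace ℂ (Fin m) => starRingEnd ℂ (v k) := by fun_prop
  have hl : Continuous fun v : EuclideanSpace ℂ (Fin m) => v l := by fun_prop
  exact ((hk.comp_aestronglyMeasurable hf).mul (hV k l).aestronglyMeasurable).mul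
    (hl.comp_aestronglyMeasurable hg)

theorem integrable_form' {X : Type*} [MeasurableSpace X] {μ : Measure X}
    {V : X → Matrix (Fin m) (Fin m) ℂ} (hV : Bdd V)
    {f g : X → EuclideanSpace ℂ (Fin m)} (hf : MemLp f 2 μ) (hg : MemLp g 2 μ) :
    Integrable (fun x => (inner ℂ (f x) (Matrix.toEuclideanLin (V x) (g x)) : ℂ)) μ := by
  obtain ⟨B, hB⟩ := hV.bound
  have h1 : Integrable (fun x => B * (‖f x‖ ^ 2 + ‖g x‖ ^ 2)) μ :=
    ((hf.integrable_norm_pow (by norm_num)).add (hg.integrable_norm_pow (by norm_num))).const_mul B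
  refine h1.mono' (aesm_form' hV.measurable hf.1 hg.1) (Eventually.of_forall fun x => ?_)
  refine (norm_inner_toEuclideanLin_le _ _ _).trans ?_
  have hb := hB x
  have h0 := norm_nonneg (V x)
  have h2 : ‖f x‖ * ‖g x‖ ≤ ‖f x‖ ^ 2 + ‖g x‖ ^ 2 := by
    nlinarith only [sq_nonneg (‖f x‖ - ‖g x‖), sq_nonneg (‖f x‖), sq_nonneg (‖g x‖)]
  calc ‖V x‖ * ‖f x‖ * ‖g x‖ = ‖V x‖ * (‖f x‖ * ‖g x‖) := by ring
    _ ≤ B * (‖f x‖ ^ 2 + ‖g x‖ ^ 2) := mul_le_mul hb h2 (by positivity) (h0.trans hb)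

theorem Lam_lc {V : (Fin d → ℝ) → Matrix (Fin m) (Fin m) ℂ} (hV : Bdd V)
    (r : Matrix (Fin N) (Fin M) ℂ) {f : Fin N → (Fin d → ℝ) → EuclideanSpace ℂ (Fin m)}
    (hf : ∀ j, Cc (f j)) : Lam V (lc r f) = rᴴ * Lam V f * r := by
  unfold Lam
  rw [Matrix.mul_sub, Matrix.sub_mul, Matrix.mul_sum, Matrix.sum_mul]
  congr 1
  · ext k l
    rw [Matrix.of_apply]
    have h1 : ∀ x, (inner ℂ (lc r f k x) (Matrix.toEuclideanLin (V x) (lc r f l x)) : ℂ) =
        ∑ i, ∑ j, star (r i k) * inner ℂ (f i x) (Matrix.toEuclideanLin (V x) (f j x)) * r j l :=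
      fun x => inner_lc r f f (fun x => Matrix.toEuclideanLin (V x)) k l x
    simp_rw [h1]
    exact integral_sesq r (fun i j x => inner ℂ (f i x) (Matrix.toEuclideanLin (V x) (f j x)))
      (fun i j => integrable_form' hV (hf i).memLp (hf j).memLp) k l
  · refine Finset.sum_congr rfl fun k _ => ?_
    rw [← gram_lc r fun j => (hf j).memLp_pd k]
    congr 1
    funext j
    exact pd_lc r hf k j

theorem Lam_isHermitian {V : (Fin d → ℝ) → Matrix (Fin m) (Fin m) ℂ} (hV : ∀ x, (V x).PosSemidef)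
    (f : Fin N → (Fin d → ℝ) → EuclideanSpace ℂ (Fin m)) : (Lam V f).IsHermitian := by
  unfold Lam
  refine IsHermitian.sub ?_ ?_
  · ext i j
    rw [conjTranspose_apply, of_apply, of_apply, Complex.star_def, ← integral_conj]
    simp only [inner_symm_herm (hV _).isHermitian]
  · rw [IsHermitian, conjTranspose_sum]
    exact Finset.sum_congr rfl fun k _ => gram_isHermitian volume _

/-- The Lieb-Thirring inequality in `ℝ^d` with constant `C`, for `C^1_c` orthonormal systems and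
bounded potentials. -/
def LP (d m : ℕ) (γ C : ℝ) : Prop :=
  ∀ (N : ℕ) (V : (Fin d → ℝ) → Matrix (Fin m) (Fin m) ℂ)
    (f : Fin N → (Fin d → ℝ) → EuclideanSpace ℂ (Fin m)), Bdd V → (∀ j, Cc (f j)) →
    gram volume f = 1 → (Lam V f).PosDef →
    ENNReal.ofReal (trPow γ (Lam V f)) ≤
      ENNReal.ofReal C * ∫⁻ x, ENNReal.ofReal (trPow (γ + d / 2) (V x))

/-- ... then for every orthonormal system, with the positive part -/
theorem LP.trPos_le {γ C : ℝ} (hγ : 0 < γ) (h : LP d m γ C)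
    {V : (Fin d → ℝ) → Matrix (Fin m) (Fin m) ℂ} (hV : Bdd V)
    {f : Fin N → (Fin d → ℝ) → EuclideanSpace ℂ (Fin m)} (hf : ∀ j, Cc (f j))
    (ho : gram volume f = 1) :
    ENNReal.ofReal (trPos γ (Lam V f)) ≤
      ENNReal.ofReal C * ∫⁻ x, ENNReal.ofReal (trPow (γ + d / 2) (V x)) := by
  obtain ⟨N', r, hr1, hr2, hr3⟩ := pos_system (Lam_isHermitian hV.posSemidef f)
  rw [← hr3 γ hγ]
  rw [← Lam_lc hV r hf] at hr2 ⊢
  refine h N' V (lc r f) hV (fun j => cc_lc r hf j) ?_ hr2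
  rw [gram_lc r fun j => (hf j).memLp, ho, Matrix.mul_one, hr1]

end Vale.Agent.P371.H816
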