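import Vale.Agent.P371.H816.L9

set_option linter.all false

/-!
From compactly supported functions to the form domain.
-/

namespace Vale.Agent.P371.H816

open MeasureTheory Filter Topology Set Matrix
open Vale.Agent.P371 Vale.Agent.P371.G
open scoped ComplexOrder Matrix.Norms.L2Operator MatrixOrder ENNReal ContDiff
open Vale.Agent.P371.DimLT (pd)

variable {N M m K d : ℕ}

/-- the form of a bounded potential is bounded -/
theorem norm_form_le {X : Type*} [MeasurableSpace X] {μ : Measure X}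
    {V : X → Matrix (Fin m) (Fin m) ℂ} {B : ℝ} (hB : ∀ x, ‖V x‖ ≤ B) (hB0 : 0 ≤ B)
    {a b : X → EuclideanSpace ℂ (Fin m)} (ha : MemLp a 2 μ) (hb : MemLp b 2 μ) :
    ‖∫ x, (inner ℂ (a x) (Matrix.toEuclideanLin (V x) (b x)) : ℂ) ∂μ‖ ≤
      B * ((eLpNorm a 2 μ).toReal * (eLpNorm b 2 μ).toReal) := by
  have i1 : Integrable (fun x => ‖a x‖ * ‖b x‖) μ := by
    have h1 := (ha.integrable_norm_pow (by norm_num)).add (hb.integrable_norm_pow (by norm_num))
    refine h1.mono' (ha.1.norm.mul hb.1.norm) (Eventually.of_forall fun x => ?_)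
    rw [norm_mul, norm_norm, norm_norm, Pi.add_apply]
    nlinarith only [sq_nonneg (‖a x‖ - ‖b x‖), sq_nonneg (‖a x‖), sq_nonneg (‖b x‖)]
  have h1 : ‖∫ x, (inner ℂ (a x) (Matrix.toEuclideanLin (V x) (b x)) : ℂ) ∂μ‖ ≤
      ∫ x, B * (‖a x‖ * ‖b x‖) ∂μ := by
    refine norm_integral_le_of_norm_le (i1.const_mul B) (Eventually.of_forall fun x => ?_)
    refine (norm_inner_toEuclideanLin_le _ _ _).trans ?_
    rw [mul_assoc]
    exact mul_le_mul_of_nonneg_right (hB x) (by positivity)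
  refine h1.trans ?_
  rw [integral_const_mul]
  refine mul_le_mul_of_nonneg_left ?_ hB0
  have hc : (2:ℝ).HolderConjugate 2 := by
    rw [Real.holderConjugate_iff]; norm_num
  have h2 := integral_mul_norm_le_Lp_mul_Lq (μ := μ) (f := a) (g := b) hc
    (by simpa using ha) (by simpa using hb)
  have e : ∀ {c : X → EuclideanSpace ℂ (Fin m)}, MemLp c 2 μ →
      (eLpNorm c 2 μ).toReal = (∫ x, ‖c x‖ ^ (2:ℝ) ∂μ) ^ ((1:ℝ) / 2) := by
    intro c hc
    rw [hc.eLpNorm_eq_integral_rpow_norm (by norm_num) (by norm_num), ENNReal.toReal_ofReal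
      (by positivity)]
    norm_num
  rw [e ha, e hb]
  exact h2

theorem tendsto_form {X : Type*} [MeasurableSpace X] {μ : Measure X}
    {V : X → Matrix (Fin m) (Fin m) ℂ} (hV : Bdd V)
    {a b : ℕ → X → EuclideanSpace ℂ (Fin m)} {A B : X → EuclideanSpace ℂ (Fin m)}
    (ha : ∀ n, MemLp (a n) 2 μ) (hb : ∀ n, MemLp (b n) 2 μ) (hA : MemLp A 2 μ) (hB : MemLp B 2 μ)
    (la : Tendsto (fun n => eLpNorm (A - a n) 2 μ) atTop (𝓝 0))
    (lb : Tendsto (fun n => eLpNorm (B - b n) 2 μ) atTop (𝓝 0)) :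
    Tendsto (fun n => ∫ x, (inner ℂ (a n x) (Matrix.toEuclideanLin (V x) (b n x)) : ℂ) ∂μ) atTop
      (𝓝 (∫ x, (inner ℂ (A x) (Matrix.toEuclideanLin (V x) (B x)) : ℂ) ∂μ)) := by
  obtain ⟨C, hC⟩ := hV.bound
  by_cases hX : IsEmpty X
  · have : ∀ F : X → ℂ, ∫ x, F x ∂μ = 0 := fun F => by
      rw [Subsingleton.elim μ 0, integral_zero_measure]
    simp only [this]
    exact tendsto_const_nhds
  rw [not_isEmpty_iff] at hX
  have hC0 : 0 ≤ C := (norm_nonneg _).trans (hC hX.some)
  have la' : Tendsto (fun n => (eLpNorm (A - a n) 2 μ).toReal) atTop (𝓝 0) := by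
    exact (ENNReal.tendsto_toReal ENNReal.zero_ne_top).comp la
  have lb' : Tendsto (fun n => (eLpNorm (B - b n) 2 μ).toReal) atTop (𝓝 0) := by
    exact (ENNReal.tendsto_toReal ENNReal.zero_ne_top).comp lb
  rw [tendsto_iff_norm_sub_tendsto_zero]
  set F : (X → EuclideanSpace ℂ (Fin m)) → (X → EuclideanSpace ℂ (Fin m)) → ℂ := fun u v =>
    ∫ x, (inner ℂ (u x) (Matrix.toEuclideanLin (V x) (v x)) : ℂ) ∂μ with hF
  have e : ∀ n, F (a n) (b n) - F A B = F (A - a n) (B - b n) - F (A - a n) B - F A (B - b n) := by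
    intro n
    have i1 := integrable_form' hV (hA.sub (ha n)) (hB.sub (hb n))
    have i2 := integrable_form' hV (hA.sub (ha n)) hB
    have i3 := integrable_form' hV hA (hB.sub (hb n))
    have i12 : Integrable (fun x => (inner ℂ ((A - a n) x)
        (Matrix.toEuclideanLin (V x) ((B - b n) x)) : ℂ) -
        inner ℂ ((A - a n) x) (Matrix.toEuclideanLin (V x) (B x))) μ := i1.sub i2
    simp only [hF]
    rw [← integral_sub (integrable_form' hV (ha n) (hb n)) (integrable_form' hV hA hB),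
      ← integral_sub i1 i2, ← integral_sub i12 i3]
    refine integral_congr_ae (Eventually.of_forall fun x => ?_)
    simp only [Pi.sub_apply, map_sub, inner_sub_left, inner_sub_right]
    ring
  have hb1 : ∀ n, ‖F (a n) (b n) - F A B‖ ≤
      C * ((eLpNorm (A - a n) 2 μ).toReal * (eLpNorm (B - b n) 2 μ).toReal) +
      C * ((eLpNorm (A - a n) 2 μ).toReal * (eLpNorm B 2 μ).toReal) +
      C * ((eLpNorm A 2 μ).toReal * (eLpNorm (B - b n) 2 μ).toReal) := by
    intro n
    rw [e n]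
    refine (norm_sub_le _ _).trans (add_le_add ((norm_sub_le _ _).trans (add_le_add ?_ ?_)) ?_)
    · exact norm_form_le hC hC0 (hA.sub (ha n)) (hB.sub (hb n))
    · exact norm_form_le hC hC0 (hA.sub (ha n)) hB
    · exact norm_form_le hC hC0 hA (hB.sub (hb n))
  refine squeeze_zero (fun n => norm_nonneg _) hb1 ?_
  have t1 := (la'.mul lb').const_mul C
  have t2 := (la'.mul_const (eLpNorm B 2 μ).toReal).const_mul C
  have t3 := (lb'.const_mul (eLpNorm A 2 μ).toReal).const_mul C
  have t4 := (t1.add t2).add t3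
  simpa using t4

/-- the matrix of the form of `V + Δ`, for functions with given gradients -/
noncomputable def LamH (V : (Fin d → ℝ) → Matrix (Fin m) (Fin m) ℂ)
    (f : Fin N → (Fin d → ℝ) → EuclideanSpace ℂ (Fin m))
    (f' : Fin N → Fin d → (Fin d → ℝ) → EuclideanSpace ℂ (Fin m)) : Matrix (Fin N) (Fin N) ℂ :=
  (Matrix.of fun i j => ∫ x, (inner ℂ (f i x) (Matrix.toEuclideanLin (V x) (f j x)) : ℂ)) -
    ∑ k : Fin d, gram volume (fun j => f' j k)

theorem LamH_isHermitian {V : (Fin d → ℝ) → Matrix (Fin m) (Fin m) ℂ} (hV : ∀ x, (V x).PosSemidef)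
    (f : Fin N → (Fin d → ℝ) → EuclideanSpace ℂ (Fin m))
    (f' : Fin N → Fin d → (Fin d → ℝ) → EuclideanSpace ℂ (Fin m)) :
    (LamH V f f').IsHermitian := by
  unfold LamH
  refine IsHermitian.sub ?_ ?_
  · ext i j
    rw [conjTranspose_apply, of_apply, of_apply, Complex.star_def, ← integral_conj]
    simp only [inner_symm_herm (hV _).isHermitian]
  · rw [IsHermitian, conjTranspose_sum]
    exact Finset.sum_congr rfl fun k _ => gram_isHermitian volume _

/-- the inequality for `H^1` systems and bounded potentials -/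
theorem LP.h1 {γ C : ℝ} (hγ : 0 < γ) (h : LP d m γ C)
    {V : (Fin d → ℝ) → Matrix (Fin m) (Fin m) ℂ} (hV : Bdd V)
    {f : Fin N → (Fin d → ℝ) → EuclideanSpace ℂ (Fin m)}
    {f' : Fin N → Fin d → (Fin d → ℝ) → EuclideanSpace ℂ (Fin m)}
    (hf : ∀ j, DimLT.H1 (f j) (f' j)) (ho : gram volume f = 1) (hp : (LamH V f f').PosDef) :
    ENNReal.ofReal (trPow γ (LamH V f f')) ≤
      ENNReal.ofReal C * ∫⁻ x, ENNReal.ofReal (trPow (γ + d / 2) (V x)) := by
  choose φ hφ hφ0 hφ1 using fun j => (hf j).2.2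
  have hcc : ∀ n j, Cc (φ j n) := fun n j => ⟨(hφ j n).1.of_le (by exact_mod_cast le_top), (hφ j n).2⟩
  have hfl : ∀ j, MemLp (f j) 2 volume := fun j => (hf j).1
  have hfl' : ∀ j i, MemLp (f' j i) 2 volume := fun j => (hf j).2.1
  set g : ℕ → Fin N → (Fin d → ℝ) → EuclideanSpace ℂ (Fin m) := fun n j => φ j n with hg
  have tg : ∀ {a b : ℕ → (Fin d → ℝ) → EuclideanSpace ℂ (Fin m)}
      {A B : (Fin d → ℝ) → EuclideanSpace ℂ (Fin m)}
      (ha : ∀ n, MemLp (a n) 2 volume) (hb : ∀ n, MemLp (b n) 2 volume) (hA : MemLp A 2 volume)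
      (hB : MemLp B 2 volume) (la : Tendsto (fun n => eLpNorm (A - a n) 2 volume) atTop (𝓝 0))
      (lb : Tendsto (fun n => eLpNorm (B - b n) 2 volume) atTop (𝓝 0)),
      Tendsto (fun n => ∫ x, (inner ℂ (a n x) (b n x) : ℂ)) atTop
        (𝓝 (∫ x, (inner ℂ (A x) (B x) : ℂ))) := by
    intro a b A B ha hb hA hB la lb
    have h := tendsto_form (bdd_one (d := d) (m := m)) ha hb hA hB la lb
    simpa only [toEuclideanLin_one] using h
  have hG : Tendsto (fun n => gram volume (g n)) atTop (𝓝 1) := by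
    rw [← ho]
    refine tendsto_entries fun i j => ?_
    simp only [gram, of_apply]
    exact tg (fun n => (hcc n i).memLp) (fun n => (hcc n j).memLp) (hfl i) (hfl j) (hφ0 i) (hφ0 j)
  have hL : Tendsto (fun n => Lam V (g n)) atTop (𝓝 (LamH V f f')) := by
    unfold Lam LamH
    refine Tendsto.sub ?_ (tendsto_finset_sum _ fun k _ => ?_)
    · refine tendsto_entries fun i j => ?_
      simp only [of_apply]
      exact tendsto_form hV (fun n => (hcc n i).memLp) (fun n => (hcc n j).memLp) (hfl i) (hfl j)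
        (hφ0 i) (hφ0 j)
    · refine tendsto_entries fun i j => ?_
      simp only [gram, of_apply]
      exact tg (fun n => (hcc n i).memLp_pd k) (fun n => (hcc n j).memLp_pd k) (hfl' i k)
        (hfl' j k) (hφ1 i k) (hφ1 j k)
  have hGev := eventually_posDef hG (fun n => gram_isHermitian volume (g n)) PosDef.one
  set r : ℕ → Matrix (Fin N) (Fin N) ℂ := fun n =>
    cfc (fun x : ℝ => x ^ (-(1 / 2) : ℝ)) (gram volume (g n)) with hr
  have hrt : Tendsto r atTop (𝓝 1) := tendsto_invsqrt hG hGev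
  have hrc : Tendsto (fun n => (r n)ᴴ) atTop (𝓝 1) := by
    have := (continuous_star (R := Matrix (Fin N) (Fin N) ℂ)).tendsto 1 |>.comp hrt
    rw [star_one] at this
    exact this
  have hL2 : Tendsto (fun n => Lam V (lc (r n) (g n))) atTop (𝓝 (LamH V f f')) := by
    have h1 := (hrc.mul hL).mul hrt
    rw [one_mul, mul_one] at h1
    refine h1.congr fun n => ?_
    rw [Lam_lc hV (r n) (hcc n)]
  have hev := eventually_posDef hL2 (fun n => Lam_isHermitian hV.posSemidef _) hp
  have ht := tendsto_trPow hL2 (hev.mono fun n h => h.posSemidef) hp.posSemidef hγ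
  refine le_of_tendsto (ENNReal.tendsto_ofReal ht) ?_
  filter_upwards [hev, hGev] with n h1 h2
  refine h N V (lc (r n) (g n)) hV (fun j => cc_lc (r n) (hcc n) j) ?_ h1
  rw [gram_lc (r n) fun j => (hcc n j).memLp]
  exact orthonormalise h2

end Vale.Agent.P371.H816
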