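import Vale.Agent.P371.H816.L10

set_option linter.all false

/-!
From bounded potentials to all potentials, and the bound on the Lieb-Thirring constant.
-/

namespace Vale.Agent.P371.H816

open MeasureTheory Filter Topology Set Matrix
open Vale.Agent.P371 Vale.Agent.P371.G
open scoped ComplexOrder Matrix.Norms.L2Operator MatrixOrder ENNReal ContDiff
open Vale.Agent.P371.DimLT (pd)

variable {N M m K d : ℕ}

/-- truncation -/
noncomputable def trn (V : (Fin d → ℝ) → Matrix (Fin m) (Fin m) ℂ) (n : ℕ) (x : Fin d → ℝ) :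
    Matrix (Fin m) (Fin m) ℂ := if ‖V x‖ ≤ n then V x else 0

theorem measurable_norm_mat {X : Type*} [MeasurableSpace X] {V : X → Matrix (Fin m) (Fin m) ℂ}
    (hV : ∀ i j, Measurable fun x => V x i j) : Measurable fun x => ‖V x‖ := by
  have h1 : Continuous fun Y : Fin m → Fin m → ℂ => ‖(Matrix.of Y : Matrix (Fin m) (Fin m) ℂ)‖ :=
    continuous_norm.comp continuous_id
  have h2 : Measurable fun x => (fun i j => V x i j : Fin m → Fin m → ℂ) :=
    measurable_pi_lambda _ fun i => measurable_pi_lambda _ fun j => hV i j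
  exact h1.measurable.comp h2

theorem bdd_trn {V : (Fin d → ℝ) → Matrix (Fin m) (Fin m) ℂ}
    (hV : ∀ i j, Measurable fun x => V x i j) (hp : ∀ x, (V x).PosSemidef) (n : ℕ) :
    Bdd (trn V n) where
  measurable i j := by
    have h1 : MeasurableSet {x | ‖V x‖ ≤ n} := measurableSet_le (measurable_norm_mat hV)
      measurable_const
    have e : (fun x => trn V n x i j) = {x | ‖V x‖ ≤ n}.indicator fun x => V x i j := by
      funext x
      unfold trn
      by_cases h : ‖V x‖ ≤ n
      · rw [if_pos h, indicator_of_mem (show x ∈ {x | ‖V x‖ ≤ n} from h)]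
      · rw [if_neg h, indicator_of_notMem (show x ∉ {x | ‖V x‖ ≤ n} from h), Matrix.zero_apply]
    rw [e]
    exact (hV i j).indicator h1
  posSemidef x := by
    unfold trn
    split_ifs
    · exact hp x
    · exact PosSemidef.zero
  bound := ⟨n, fun x => by
    unfold trn
    split_ifs with h
    · exact h
    · rw [norm_zero]; exact Nat.cast_nonneg n⟩

theorem trPow_zero {p : ℝ} (hp : 0 < p) : trPow p (0 : Matrix (Fin m) (Fin m) ℂ) = 0 := by
  rw [PI.trPow_eq_trace isHermitian_zero, cfc_apply_zero]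
  simp [Real.zero_rpow hp.ne']

theorem trPow_trn_le {V : (Fin d → ℝ) → Matrix (Fin m) (Fin m) ℂ} (hp : ∀ x, (V x).PosSemidef)
    {p : ℝ} (hp0 : 0 < p) (n : ℕ) (x : Fin d → ℝ) : trPow p (trn V n x) ≤ trPow p (V x) := by
  unfold trn
  split_ifs
  · exact le_rfl
  · rw [trPow_zero hp0]; exact trPow_nonneg' (hp x) p

/-- Cauchy-Schwarz for a positive semidefinite matrix -/
theorem norm_inner_psd_le {A : Matrix (Fin m) (Fin m) ℂ} (hA : A.PosSemidef)
    (u v : EuclideanSpace ℂ (Fin m)) :
    ‖(inner ℂ u (Matrix.toEuclideanLin A v) : ℂ)‖ ≤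
      ‖(inner ℂ u (Matrix.toEuclideanLin A u) : ℂ)‖ + ‖(inner ℂ v (Matrix.toEuclideanLin A v) : ℂ)‖ := by
  obtain ⟨B, hB⟩ := CStarAlgebra.nonneg_iff_eq_star_mul_self.mp hA.nonneg
  have h1 : ∀ a b : EuclideanSpace ℂ (Fin m), (inner ℂ a (Matrix.toEuclideanLin A b) : ℂ) =
      inner ℂ (Matrix.toEuclideanLin B a) (Matrix.toEuclideanLin B b) := by
    intro a b
    have e : Matrix.toEuclideanLin A b =
        Matrix.toEuclideanLin Bᴴ (Matrix.toEuclideanLin B b) := by
      rw [hB, Matrix.star_eq_conjTranspose]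
      ext k
      simp only [Matrix.toLpLin_apply, Matrix.mulVec_mulVec]
    rw [e, Matrix.toEuclideanLin_conjTranspose_eq_adjoint, LinearMap.adjoint_inner_right]
  rw [h1 u v, h1 u u, h1 v v]
  refine (norm_inner_le_norm _ _).trans ?_
  rw [inner_self_eq_norm_sq_to_K, inner_self_eq_norm_sq_to_K, norm_pow, norm_pow,
    RCLike.norm_ofReal, RCLike.norm_ofReal, abs_norm, abs_norm]
  nlinarith only [sq_nonneg (‖Matrix.toEuclideanLin B u‖ - ‖Matrix.toEuclideanLin B v‖),
    sq_nonneg (‖Matrix.toEuclideanLin B u‖), sq_nonneg (‖Matrix.toEuclideanLin B v‖)]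

theorem pot_eq (V : (Fin d → ℝ) → Matrix (Fin m) (Fin m) ℂ)
    (g f : (Fin d → ℝ) → EuclideanSpace ℂ (Fin m)) (x : Fin d → ℝ) :
    DimLT.pot V g f x = (inner ℂ (g x) (Matrix.toEuclideanLin (V x) (f x)) : ℂ) := by
  rw [PiLp.inner_apply, DimLT.pot]
  refine Finset.sum_congr rfl fun k _ => ?_
  rw [RCLike.inner_apply, Matrix.toLpLin_apply, ← Complex.star_def]
  simp only [Matrix.mulVec, dotProduct, Finset.sum_mul]
  refine Finset.sum_congr rfl fun l _ => ?_
  ring

theorem LP.riesz_le {γ C : ℝ} (hγ : 0 < γ) (h : LP d m γ C)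
    {V : (Fin d → ℝ) → Matrix (Fin m) (Fin m) ℂ} (hV : DimLT.Potential (γ + d / 2) V) :
    DimLT.rieszMean γ V ≤
      ENNReal.ofReal C * ENNReal.ofReal (∫ x, LT.trPow (γ + d / 2) (V x)) := by
  have hp0 : 0 < γ + (d : ℝ) / 2 := by positivity
  unfold DimLT.rieszMean
  refine iSup_le fun N => iSup_le fun lam => iSup_le fun f => iSup_le fun f' => iSup_le fun he =>
    iSup_le fun ho => ?_
  have hi0 : ∀ j, Integrable (fun x => (inner ℂ (f j x)
      (Matrix.toEuclideanLin (V x) (f j x)) : ℂ)) volume := fun j => by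
    simp_rw [← pot_eq]
    exact (he j).2.1.2
  have hf : ∀ j, DimLT.H1 (f j) (f' j) := fun j => (he j).2.1.1
  have hfl : ∀ j, MemLp (f j) 2 volume := fun j => (hf j).1
  have hg : gram volume f = 1 := by
    ext i j
    rw [Matrix.one_apply]
    exact ho i j
  set D : Matrix (Fin N) (Fin N) ℂ := diagonal fun j => ((-lam j : ℝ) : ℂ) with hD
  have hDp : D.PosDef := PosDef.diagonal fun j => by
    have := (he j).1
    have h2 : 0 < -lam j := by linarith
    exact_mod_cast h2
  have hint : ∀ i j, Integrable (fun x => ‖(inner ℂ (f i x)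
      (Matrix.toEuclideanLin (V x) (f i x)) : ℂ)‖ + ‖(inner ℂ (f j x)
      (Matrix.toEuclideanLin (V x) (f j x)) : ℂ)‖) volume := fun i j =>
    ((hi0 i).norm).add ((hi0 j).norm)
  have hLD : LamH V f f' = D := by
    ext i j
    rw [LamH, Matrix.sub_apply, of_apply, Matrix.sum_apply]
    have h1 := (he j).2.2 (f i) (f' i) (he i).2.1
    rw [ho] at h1
    simp only [DimLT.ip, pot_eq] at h1
    simp only [gram, of_apply]
    rw [hD, diagonal_apply]
    have h2 : (∫ x, (inner ℂ (f i x) (Matrix.toEuclideanLin (V x) (f j x)) : ℂ)) -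
        ∑ k, ∫ x, (inner ℂ (f' i k x) (f' j k x) : ℂ) = -(lam j * if i = j then 1 else 0) := by
      rw [← h1]; ring
    rw [h2]
    split_ifs with hij
    · rw [hij]; push_cast; ring
    · simp
  have hL : Tendsto (fun n => LamH (trn V n) f f') atTop (𝓝 D) := by
    rw [← hLD]
    unfold LamH
    refine Tendsto.sub ?_ tendsto_const_nhds
    refine tendsto_entries fun i j => ?_
    simp only [of_apply]
    refine tendsto_integral_of_dominated_convergence _
      (fun n => aesm_form' (bdd_trn hV.measurable hV.posSemidef n).measurable (hfl i).1 (hfl j).1)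
      (hint i j) (fun n => Eventually.of_forall fun x => ?_) (Eventually.of_forall fun x => ?_)
    · unfold trn
      split_ifs
      · exact norm_inner_psd_le (hV.posSemidef x) _ _
      · rw [map_zero, LinearMap.zero_apply, inner_zero_right, norm_zero]
        positivity
    · refine tendsto_const_nhds.congr' ?_
      filter_upwards [eventually_ge_atTop ⌈‖V x‖⌉₊] with n hn
      have : ‖V x‖ ≤ n := (Nat.le_ceil _).trans (by exact_mod_cast hn)
      rw [trn, if_pos this]
  have hev := eventually_posDef hL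
    (fun n => LamH_isHermitian (bdd_trn hV.measurable hV.posSemidef n).posSemidef f f') hDp
  have ht := tendsto_trPow hL (hev.mono fun n h => h.posSemidef) hDp.posSemidef hγ
  have hfin : ENNReal.ofReal (trPow γ D) ≤
      ENNReal.ofReal C * ENNReal.ofReal (∫ x, LT.trPow (γ + d / 2) (V x)) := by
    refine le_of_tendsto (ENNReal.tendsto_ofReal ht) ?_
    filter_upwards [hev] with n h1
    refine (h.h1 hγ (bdd_trn hV.measurable hV.posSemidef n) hf hg h1).trans ?_
    refine mul_le_mul_right ?_ _
    rw [ofReal_integral_eq_lintegral_ofReal hV.integrable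
      (Eventually.of_forall fun x => trPow_nonneg' (hV.posSemidef x) _)]
    exact lintegral_mono fun x => ENNReal.ofReal_le_ofReal
      (trPow_trn_le hV.posSemidef hp0 n x)
  refine le_trans (le_of_eq ?_) hfin
  rw [hD, trPow_diagonal, ENNReal.ofReal_sum_of_nonneg fun j _ => Real.rpow_nonneg (by
    have := (he j).1; linarith) _]
  refine Finset.sum_congr rfl fun j _ => ?_
  rw [abs_of_neg (he j).1]

theorem LP.LTconst_le {γ C : ℝ} (hγ : 0 < γ) (h : LP d m γ C) :
    DimLT.LTconst γ d m ≤ ENNReal.ofReal C := by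
  unfold DimLT.LTconst
  refine iSup_le fun V => iSup_le fun hV => iSup_le fun h0 => ?_
  refine ENNReal.div_le_of_le_mul ?_
  exact h.riesz_le hγ hV

end Vale.Agent.P371.H816
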