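import Vale.Agent.P371.H816.L11
import Vale.Agent.P371.H816.KinDefs

set_option linter.all false

/-!
The kinetic energy inequality.
-/

namespace Vale.Agent.P371.H816

open MeasureTheory Filter Topology Set Matrix
open Vale.Agent.P371 Vale.Agent.P371.G
open scoped ComplexOrder Matrix.Norms.L2Operator MatrixOrder ENNReal ContDiff
open Vale.Agent.P371.DimLT (pd density)

variable {N M m K d : ℕ}

/-- the inequality with the positive part, for `H^1` systems and bounded potentials -/
theorem LP.h1_trPos {γ C : ℝ} (hγ : 0 < γ) (h : LP d m γ C)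
    {V : (Fin d → ℝ) → Matrix (Fin m) (Fin m) ℂ} (hV : Bdd V)
    {f : Fin N → (Fin d → ℝ) → EuclideanSpace ℂ (Fin m)}
    {f' : Fin N → Fin d → (Fin d → ℝ) → EuclideanSpace ℂ (Fin m)}
    (hf : ∀ j, DimLT.H1 (f j) (f' j)) (ho : gram volume f = 1) :
    ENNReal.ofReal (trPos γ (LamH V f f')) ≤
      ENNReal.ofReal C * ∫⁻ x, ENNReal.ofReal (trPow (γ + d / 2) (V x)) := by
  choose φ hφ hφ0 hφ1 using fun j => (hf j).2.2
  have hcc : ∀ n j, Cc (φ j n) := fun n j => ⟨(hφ j n).1.of_le (by exact_mod_cast le_top), (hφ j n).2⟩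
  have hfl : ∀ j, MemLp (f j) 2 volume := fun j => (hf j).1
  have hfl' : ∀ j i, MemLp (f' j i) 2 volume := fun j => (hf j).2.1
  set g : ℕ → Fin N → (Fin d → ℝ) → EuclideanSpace ℂ (Fin m) := fun n j => φ j n with hg
  have tg : ∀ {a b : ℕ → (Fin d → ℝ) → EuclideanSpace ℂ (Fin m)}
      {A B : (Fin d → ℝ) → EuclideanSpace ℂ (Fin m)}
      (ha : ∀ n, MemLp (a n) 2 volume) (hb : ∀ n, MemLp (b n) 2 volume) (hA : MemLp A 2 volume)
      (hB : MemLp B 2 volume) (la : Tendsto (fun n => eLpNorm (A - a n) 2 volume) atTop (𝓝 0))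
      (lb : Tendsto (fun n => eLpNorm (B - b n) 2 volume) atTop (𝓝 0)),
      Tendsto (fun n => ∫ x, (inner ℂ (a n x) (b n x) : ℂ)) atTop
        (𝓝 (∫ x, (inner ℂ (A x) (B x) : ℂ))) := by
    intro a b A B ha hb hA hB la lb
    have h := tendsto_form (bdd_one (d := d) (m := m)) ha hb hA hB la lb
    simpa only [toEuclideanLin_one] using h
  have hG : Tendsto (fun n => gram volume (g n)) atTop (𝓝 1) := by
    rw [← ho]
    refine tendsto_entries fun i j => ?_
    simp only [gram, of_apply]
    exact tg (fun n => (hcc n i).memLp) (fun n => (hcc n j).memLp) (hfl i) (hfl j) (hφ0 i) (hφ0 j)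
  have hL : Tendsto (fun n => Lam V (g n)) atTop (𝓝 (LamH V f f')) := by
    unfold Lam LamH
    refine Tendsto.sub ?_ (tendsto_finset_sum _ fun k _ => ?_)
    · refine tendsto_entries fun i j => ?_
      simp only [of_apply]
      exact tendsto_form hV (fun n => (hcc n i).memLp) (fun n => (hcc n j).memLp) (hfl i) (hfl j)
        (hφ0 i) (hφ0 j)
    · refine tendsto_entries fun i j => ?_
      simp only [gram, of_apply]
      exact tg (fun n => (hcc n i).memLp_pd k) (fun n => (hcc n j).memLp_pd k) (hfl' i k)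
        (hfl' j k) (hφ1 i k) (hφ1 j k)
  have hGev := eventually_posDef hG (fun n => gram_isHermitian volume (g n)) PosDef.one
  set r : ℕ → Matrix (Fin N) (Fin N) ℂ := fun n =>
    cfc (fun x : ℝ => x ^ (-(1 / 2) : ℝ)) (gram volume (g n)) with hr
  have hrt : Tendsto r atTop (𝓝 1) := tendsto_invsqrt hG hGev
  have hrc : Tendsto (fun n => (r n)ᴴ) atTop (𝓝 1) := by
    have := (continuous_star (R := Matrix (Fin N) (Fin N) ℂ)).tendsto 1 |>.comp hrt
    rw [star_one] at this
    exact this
  have hL2 : Tendsto (fun n => Lam V (lc (r n) (g n))) atTop (𝓝 (LamH V f f')) := by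
    have h1 := (hrc.mul hL).mul hrt
    rw [one_mul, mul_one] at h1
    refine h1.congr fun n => ?_
    rw [Lam_lc hV (r n) (hcc n)]
  have ht : Tendsto (fun n => trPos γ (Lam V (lc (r n) (g n)))) atTop (𝓝 (trPos γ (LamH V f f'))) := by
    have h1 := ((continuous_trPos (m := N) hγ).tendsto (LamH V f f')).comp hL2
    rw [G.hp_eq_self (LamH_isHermitian hV.posSemidef f f')] at h1
    refine h1.congr fun n => ?_
    simp only [Function.comp_apply]
    rw [G.hp_eq_self (Lam_isHermitian hV.posSemidef _)]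
  refine le_of_tendsto (ENNReal.tendsto_ofReal ht) ?_
  filter_upwards [hGev] with n h2
  refine h.trPos_le hγ hV (fun j => cc_lc (r n) (hcc n) j) ?_
  rw [gram_lc (r n) fun j => (hcc n j).memLp]
  exact orthonormalise h2

theorem trace_re_le_trPos {X : Matrix (Fin N) (Fin N) ℂ} (hX : X.IsHermitian) :
    X.trace.re ≤ trPos 1 X := by
  rw [trPos_eq_sum hX, hX.trace_eq_sum_eigenvalues, Complex.re_sum]
  refine Finset.sum_le_sum fun i _ => ?_
  rw [Real.rpow_one]
  exact le_max_left _ _

theorem density_posSemidef (f : Fin N → (Fin d → ℝ) → EuclideanSpace ℂ (Fin m))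
    (x : Fin d → ℝ) : (density f x).PosSemidef := by
  have e : density f x = ∑ j, Matrix.vecMulVec (⇑(f j x)) (star (⇑(f j x))) := by
    ext a b
    simp [density, Matrix.sum_apply, Matrix.vecMulVec_apply]
  rw [e]
  exact posSemidef_sum _ fun j _ => Matrix.posSemidef_vecMulVec_self_star _

theorem trace_mul_density (A : Matrix (Fin m) (Fin m) ℂ)
    (f : Fin N → (Fin d → ℝ) → EuclideanSpace ℂ (Fin m)) (x : Fin d → ℝ) :
    (A * density f x).trace = ∑ j, inner ℂ (f j x) (Matrix.toEuclideanLin A (f j x)) := by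
  simp only [Matrix.trace, Matrix.diag_apply, Matrix.mul_apply, density, of_apply, Finset.mul_sum,
    PiLp.inner_apply, RCLike.inner_apply, Matrix.toLpLin_apply, Matrix.mulVec, dotProduct,
    Finset.sum_mul]
  rw [Finset.sum_comm_cycle]
  refine Finset.sum_congr rfl fun j _ => Finset.sum_congr rfl fun a _ =>
    Finset.sum_congr rfl fun b _ => ?_
  rw [← Complex.star_def]
  ring

theorem measurable_cfc {X : Type*} [MeasurableSpace X] {g : ℝ → ℝ} (hg : Continuous g)
    {V : X → Matrix (Fin m) (Fin m) ℂ}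
    (hV : ∀ i j, Measurable fun x => V x i j) (hh : ∀ x, (V x).IsHermitian) (i j : Fin m) :
    Measurable fun x => cfc g (V x) i j := by
  have hc0 : Continuous fun X : Matrix (Fin m) (Fin m) ℂ => cfc g (G.hp X) :=
    Continuous.cfc_of_mem_nhdsSet (s := Set.univ) _ (by simp) G.continuous_hp
      (fun X => G.hp_isHermitian X) hg.continuousOn
  have hc : Continuous fun Z : Matrix (Fin m) (Fin m) ℂ => Z i j := by fun_prop
  have h1 : Continuous fun Y : Fin m → Fin m → ℂ => cfc g (G.hp (Matrix.of Y)) i j :=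
    hc.comp (hc0.comp continuous_id)
  have h2 : Measurable fun x => (fun i j => V x i j : Fin m → Fin m → ℂ) :=
    measurable_pi_lambda _ fun i => measurable_pi_lambda _ fun j => hV i j
  have h3 := h1.measurable.comp h2
  have e : (fun x => cfc g (V x) i j) =
      (fun Y : Fin m → Fin m → ℂ => cfc g (G.hp (Matrix.of Y)) i j) ∘
        fun x => (fun i j => V x i j : Fin m → Fin m → ℂ) := by
    funext x
    simp only [Function.comp_apply]
    have : Matrix.of (fun i j => V x i j) = V x := rfl
    rw [this, G.hp_eq_self (hh x)]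
  rw [e]
  exact h3

end Vale.Agent.P371.H816
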