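import Vale.Agent.P371.H816.L12

set_option linter.all false

/-!
The kinetic energy inequality.
-/

namespace Vale.Agent.P371.H816

open MeasureTheory Filter Topology Set Matrix
open Vale.Agent.P371 Vale.Agent.P371.G
open scoped ComplexOrder Matrix.Norms.L2Operator MatrixOrder ENNReal ContDiff
open Vale.Agent.P371.DimLT (pd density)

variable {N M m K d : ℕ}

theorem H1_congr {f g : (Fin d → ℝ) → EuclideanSpace ℂ (Fin m)}
    {f' : Fin d → (Fin d → ℝ) → EuclideanSpace ℂ (Fin m)} (hf : DimLT.H1 f f')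
    (h : f =ᵐ[volume] g) : DimLT.H1 g f' := by
  obtain ⟨h1, h2, φ, h3, h4, h5⟩ := hf
  refine ⟨(memLp_congr_ae h).1 h1, h2, φ, h3, ?_, h5⟩
  refine h4.congr fun n => ?_
  exact eLpNorm_congr_ae (h.sub (EventuallyEq.refl _ _))

/-- the optimal potential -/
theorem trPow_cfc_g {R : Matrix (Fin m) (Fin m) ℂ} (hR : R.PosSemidef) {c s p : ℝ} (hc : 0 ≤ c)
    (hs : 0 < s) (hp : 0 < p) :
    trPow p (cfc (fun t : ℝ => c * (max t 0) ^ s) R) = c ^ p * trPow (s * p) R := by
  have hRh := hR.isHermitian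
  have hcont : Continuous fun t : ℝ => c * (max t 0) ^ s :=
    continuous_const.mul ((continuous_id.max continuous_const).rpow_const fun x => Or.inr hs.le)
  have hcp : Continuous fun t : ℝ => t ^ p := Real.continuous_rpow_const hp.le
  have h := cfc_comp' (R := ℝ) (p := IsSelfAdjoint) (fun x : ℝ => x ^ p)
    (fun t : ℝ => c * (max t 0) ^ s) R hcp.continuousOn hcont.continuousOn hRh
  have hZ : (cfc (fun t : ℝ => c * (max t 0) ^ s) R).IsHermitian := cfc_predicate (R := ℝ) _ _
  rw [PI.trPow_eq_trace hZ, ← h, trace_cfc hRh, Complex.ofReal_re, trPow,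
    dif_pos hRh, Finset.mul_sum]
  refine Finset.sum_congr rfl fun i _ => ?_
  have h0 := hR.eigenvalues_nonneg i
  rw [max_eq_left h0, Real.mul_rpow hc (Real.rpow_nonneg h0 _), ← Real.rpow_mul h0]

theorem trace_cfc_g_mul {R : Matrix (Fin m) (Fin m) ℂ} (hR : R.PosSemidef) {c s : ℝ}
    (hs : 0 < s) :
    (cfc (fun t : ℝ => c * (max t 0) ^ s) R * R).trace = ((c * trPow (1 + s) R : ℝ) : ℂ) := by
  have hRh := hR.isHermitian
  have hcont : Continuous fun t : ℝ => c * (max t 0) ^ s :=
    continuous_const.mul ((continuous_id.max continuous_const).rpow_const fun x => Or.inr hs.le)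
  have h1 : cfc (fun t : ℝ => c * (max t 0) ^ s) R * R =
      cfc (fun t : ℝ => c * (max t 0) ^ s * t) R := by
    nth_rewrite 2 [← PI.cfc_id_eq hRh]
    rw [← cfc_mul _ _ R hcont.continuousOn (by fun_prop)]
  rw [h1, trace_cfc hRh, trPow, dif_pos hRh, Finset.mul_sum]
  congr 1
  refine Finset.sum_congr rfl fun i _ => ?_
  have h0 := hR.eigenvalues_nonneg i
  rw [max_eq_left h0, mul_assoc, Real.rpow_add' h0 (by positivity), Real.rpow_one, mul_comm (_ ^ s)]

theorem kinetic_aux {C : ℝ} (hd : 1 ≤ d) (hC : 0 < C) (h : LP d m 1 C)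
    {f : Fin N → (Fin d → ℝ) → EuclideanSpace ℂ (Fin m)}
    {f' : Fin N → Fin d → (Fin d → ℝ) → EuclideanSpace ℂ (Fin m)}
    (hf : ∀ j, DimLT.H1 (f j) (f' j)) (hfm : ∀ j, Measurable (f j)) (ho : gram volume f = 1) :
    ENNReal.ofReal ((C * (1 + (d : ℝ) / 2)) ^ (-(2 / (d : ℝ))) * ((d : ℝ) / (d + 2))) *
        ∫⁻ x, ENNReal.ofReal (trPow (1 + 2 / (d : ℝ)) (density f x)) ≤
      ENNReal.ofReal (∑ j, ∑ i, ∫ x, ‖f' j i x‖ ^ 2) := by
  have hd0 : (0:ℝ) < d := by exact_mod_cast hd
  set s : ℝ := 2 / (d : ℝ) with hs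
  have hs0 : 0 < s := by positivity
  set p : ℝ := 1 + (d : ℝ) / 2 with hp
  have hp0 : 0 < p := by positivity
  set c : ℝ := (C * p) ^ (-s) with hcd
  have hc0 : 0 < c := Real.rpow_pos_of_pos (by positivity) _
  have hsp : s * p = 1 + s := by rw [hs, hp]; field_simp; ring
  set g : ℝ → ℝ := fun t => c * (max t 0) ^ s with hg
  have hgc : Continuous g :=
    continuous_const.mul ((continuous_id.max continuous_const).rpow_const fun x => Or.inr hs0.le)
  set R : (Fin d → ℝ) → Matrix (Fin m) (Fin m) ℂ := density f with hR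
  have hRp : ∀ x, (R x).PosSemidef := density_posSemidef f
  have hRm : ∀ a b, Measurable fun x => R x a b := by
    intro a b
    simp only [hR, density, of_apply]
    refine Finset.measurable_fun_sum _ fun j _ => ?_
    have c1 : Continuous fun w : EuclideanSpace ℂ (Fin m) => w a := by fun_prop
    have c2 : Continuous fun w : EuclideanSpace ℂ (Fin m) => star (w b) := by fun_prop
    exact (c1.measurable.comp (hfm j)).mul (c2.measurable.comp (hfm j))
  set V : (Fin d → ℝ) → Matrix (Fin m) (Fin m) ℂ := fun x => cfc g (R x) with hV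
  have hVm : ∀ a b, Measurable fun x => V x a b := measurable_cfc hgc hRm fun x => (hRp x).isHermitian
  have hVp : ∀ x, (V x).PosSemidef := fun x => by
    have h : 0 ≤ cfc g (R x) := cfc_nonneg fun t _ => by
      rw [hg]; exact mul_nonneg hc0.le (Real.rpow_nonneg (le_max_right _ _) _)
    exact Matrix.nonneg_iff_posSemidef.1 h
  set T : (Fin d → ℝ) → ℝ := fun x => trPow (1 + s) (R x) with hT
  have hT0 : ∀ x, 0 ≤ T x := fun x => trPow_nonneg' (hRp x) _
  have hTm : Measurable T := measurable_trPow (by positivity) hRm hRp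
  have hVT : ∀ x, trPow p (V x) = c ^ p * T x := fun x => by
    have := trPow_cfc_g (hRp x) hc0.le hs0 hp0
    rw [hsp] at this
    exact this
  have hVR : ∀ x, (V x * R x).trace = ((c * T x : ℝ) : ℂ) := fun x => trace_cfc_g_mul (hRp x) hs0
  have hA : ∀ n : ℕ, MeasurableSet {x | ‖V x‖ ≤ n} := fun n =>
    measurableSet_le (measurable_norm_mat hVm) measurable_const
  set Tn : ℕ → (Fin d → ℝ) → ℝ := fun n => {x | ‖V x‖ ≤ n}.indicator T with hTn
  have hTn0 : ∀ n x, 0 ≤ Tn n x := fun n x => indicator_nonneg (fun x _ => hT0 x) x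
  have hTnm : ∀ n, Measurable (Tn n) := fun n => hTm.indicator (hA n)
  have hb : ∀ n, Bdd (trn V n) := bdd_trn hVm hVp
  have e1 : ∀ n x, trPow p (trn V n x) = c ^ p * Tn n x := by
    intro n x
    unfold trn
    by_cases hx : ‖V x‖ ≤ n
    · rw [if_pos hx, hVT, hTn]
      simp only
      rw [indicator_of_mem (show x ∈ {x | ‖V x‖ ≤ n} from hx)]
    · rw [if_neg hx, trPow_zero hp0, hTn]
      simp only
      rw [indicator_of_notMem (show x ∉ {x | ‖V x‖ ≤ n} from hx), mul_zero]
  have e2 : ∀ n x, ∑ j, (inner ℂ (f j x) (Matrix.toEuclideanLin (trn V n x) (f j x)) : ℂ) =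
      ((c * Tn n x : ℝ) : ℂ) := by
    intro n x
    rw [← trace_mul_density]
    unfold trn
    by_cases hx : ‖V x‖ ≤ n
    · rw [if_pos hx, hTn]
      simp only
      rw [indicator_of_mem (show x ∈ {x | ‖V x‖ ≤ n} from hx)]
      exact hVR x
    · rw [if_neg hx, Matrix.zero_mul, Matrix.trace_zero, hTn]
      simp only
      rw [indicator_of_notMem (show x ∉ {x | ‖V x‖ ≤ n} from hx), mul_zero, Complex.ofReal_zero]
  have hfl : ∀ j, MemLp (f j) 2 volume := fun j => (hf j).1
  have hfl' : ∀ j i, MemLp (f' j i) 2 volume := fun j => (hf j).2.1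
  have i1 : ∀ n j, Integrable (fun x => (inner ℂ (f j x)
      (Matrix.toEuclideanLin (trn V n x) (f j x)) : ℂ)) volume := fun n j =>
    integrable_form' (hb n) (hfl j) (hfl j)
  have i2 : ∀ n, Integrable (fun x => ((c * Tn n x : ℝ) : ℂ)) volume := fun n => by
    simp_rw [← e2]
    exact integrable_finset_sum _ fun j _ => i1 n j
  have i3 : ∀ n, Integrable (Tn n) volume := fun n => by
    have h1 : Integrable (fun x => c * Tn n x) volume := by
      have := (i2 n).re
      simpa using this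
    have h2 := h1.const_mul c⁻¹
    refine h2.congr (Eventually.of_forall fun x => ?_)
    simp only
    rw [← mul_assoc, inv_mul_cancel₀ hc0.ne', one_mul]
  set E : ℝ := ∑ j, ∑ i, ∫ x, ‖f' j i x‖ ^ 2 with hE
  have htr : ∀ n, (LamH (trn V n) f f').trace.re = c * (∫ x, Tn n x) - E := by
    intro n
    have h1 : (LamH (trn V n) f f').trace = ((c * ∫ x, Tn n x : ℝ) : ℂ) - ((E : ℝ) : ℂ) := by
      rw [LamH, Matrix.trace_sub, Matrix.trace_sum]
      congr 1
      · simp only [Matrix.trace, Matrix.diag_apply, of_apply]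
        rw [← integral_finset_sum _ fun j _ => i1 n j]
        simp_rw [e2]
        rw [integral_complex_ofReal, integral_const_mul]
      · simp only [Matrix.trace, Matrix.diag_apply, gram, of_apply, hE]
        rw [Finset.sum_comm]
        push_cast
        refine Finset.sum_congr rfl fun j _ => Finset.sum_congr rfl fun i _ => ?_
        rw [← integral_complex_ofReal]
        refine integral_congr_ae (Eventually.of_forall fun x => ?_)
        simp only
        rw [inner_self_eq_norm_sq_to_K]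
        push_cast
        rfl
    rw [h1, ← Complex.ofReal_sub, Complex.ofReal_re]
  have hkey : ∀ n, c * ((d : ℝ) / (d + 2)) * ∫ x, Tn n x ≤ E := by
    intro n
    have h1 := h.h1_trPos one_pos (hb n) hf ho
    have hpe : (1:ℝ) + (d : ℝ) / 2 = p := rfl
    simp only [hpe, e1] at h1
    rw [← ofReal_integral_eq_lintegral_ofReal ((i3 n).const_mul _)
      (Eventually.of_forall fun x => mul_nonneg (Real.rpow_nonneg hc0.le _) (hTn0 n x)),
      ← ENNReal.ofReal_mul hC.le, integral_const_mul] at h1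
    have hI0 : 0 ≤ ∫ x, Tn n x := integral_nonneg (hTn0 n)
    have h2 : trPos 1 (LamH (trn V n) f f') ≤ C * (c ^ p * ∫ x, Tn n x) :=
      (ENNReal.ofReal_le_ofReal_iff (by positivity)).1 h1
    have h3 := trace_re_le_trPos (LamH_isHermitian (hb n).posSemidef f f')
    rw [htr] at h3
    have h4 : C * c ^ p = c / p := by
      have e : c ^ p = c * c ^ ((d : ℝ) / 2) := by
        rw [hp, Real.rpow_add hc0, Real.rpow_one]
      have e' : c ^ ((d : ℝ) / 2) = (C * p)⁻¹ := by
        rw [hcd, ← Real.rpow_mul (by positivity), ← Real.rpow_neg_one]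
        congr 1
        rw [hs]; field_simp
      rw [e, e']
      field_simp
    have h5 : c - c / p = c * ((d : ℝ) / (d + 2)) := by
      rw [hp]; field_simp; ring
    rw [← h5]
    have h6 : C * (c ^ p * ∫ x, Tn n x) = c / p * ∫ x, Tn n x := by rw [← mul_assoc, h4]
    rw [h6] at h2
    nlinarith only [h2, h3]
  have hK0 : 0 ≤ c * ((d : ℝ) / (d + 2)) := by positivity
  have hfin : ∀ n, ENNReal.ofReal (c * ((d : ℝ) / (d + 2))) * ∫⁻ x, ENNReal.ofReal (Tn n x) ≤
      ENNReal.ofReal E := by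
    intro n
    rw [← ofReal_integral_eq_lintegral_ofReal (i3 n) (Eventually.of_forall (hTn0 n)),
      ← ENNReal.ofReal_mul hK0]
    exact ENNReal.ofReal_le_ofReal (hkey n)
  have hlim : Tendsto (fun n => ∫⁻ x, ENNReal.ofReal (Tn n x)) atTop
      (𝓝 (∫⁻ x, ENNReal.ofReal (T x))) := by
    refine lintegral_tendsto_of_tendsto_of_monotone
      (fun n => (hTnm n).ennreal_ofReal.aemeasurable) (Eventually.of_forall fun x => ?_)
      (Eventually.of_forall fun x => ?_)
    · intro n k hnk
      refine ENNReal.ofReal_le_ofReal ?_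
      simp only [hTn]
      by_cases hx : ‖V x‖ ≤ n
      · have hx' : ‖V x‖ ≤ k := hx.trans (by exact_mod_cast hnk)
        rw [indicator_of_mem (show x ∈ {x | ‖V x‖ ≤ n} from hx),
          indicator_of_mem (show x ∈ {x | ‖V x‖ ≤ k} from hx')]
      · rw [indicator_of_notMem (show x ∉ {x | ‖V x‖ ≤ n} from hx)]
        exact indicator_nonneg (fun x _ => hT0 x) x
    · refine tendsto_const_nhds.congr' ?_
      filter_upwards [eventually_ge_atTop ⌈‖V x‖⌉₊] with n hn
      have : ‖V x‖ ≤ n := (Nat.le_ceil _).trans (by exact_mod_cast hn)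
      simp only [hTn]
      rw [indicator_of_mem (show x ∈ {x | ‖V x‖ ≤ n} from this)]
  exact le_of_tendsto' (ENNReal.Tendsto.const_mul hlim (Or.inr ENNReal.ofReal_ne_top)) hfin

theorem kinetic {C : ℝ} (hd : 1 ≤ d) (hC : 0 < C) (h : LP d m 1 C)
    {f : Fin N → (Fin d → ℝ) → EuclideanSpace ℂ (Fin m)}
    {f' : Fin N → Fin d → (Fin d → ℝ) → EuclideanSpace ℂ (Fin m)}
    (hf : ∀ j, DimLT.H1 (f j) (f' j))
    (ho : ∀ i j, ∫ x, (inner ℂ (f i x) (f j x) : ℂ) = if i = j then 1 else 0) :
    ENNReal.ofReal ((C * (1 + (d : ℝ) / 2)) ^ (-(2 / (d : ℝ))) * ((d : ℝ) / (d + 2))) *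
        ∫⁻ x, ENNReal.ofReal (trPow (1 + 2 / (d : ℝ)) (density f x)) ≤
      ENNReal.ofReal (∑ j, ∑ i, ∫ x, ‖f' j i x‖ ^ 2) := by
  have hm := fun j => (hf j).1.1
  set g : Fin N → (Fin d → ℝ) → EuclideanSpace ℂ (Fin m) := fun j => (hm j).mk (f j) with hg
  have hfg : ∀ j, f j =ᵐ[volume] g j := fun j => (hm j).ae_eq_mk
  have hall : ∀ᵐ x ∂(volume : Measure (Fin d → ℝ)), ∀ j, f j x = g j x :=
    ae_all_iff.2 fun j => hfg j
  have hgo : gram volume g = 1 := by
    ext i j
    rw [gram, of_apply, Matrix.one_apply, ← ho i j]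
    refine integral_congr_ae ?_
    filter_upwards [hall] with x hx
    rw [hx i, hx j]
  have h1 := kinetic_aux hd hC h (fun j => H1_congr (hf j) (hfg j))
    (fun j => (hm j).stronglyMeasurable_mk.measurable) hgo
  refine le_trans (le_of_eq ?_) h1
  congr 1
  refine lintegral_congr_ae ?_
  filter_upwards [hall] with x hx
  have : density f x = density g x := by
    ext a b
    simp only [density, of_apply, hx]
  rw [this]

end Vale.Agent.P371.H816
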