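import Vale.Agent.P371.H816.L13

set_option linter.all false

/-!
The constants of the results.
-/

namespace Vale.Agent.P371.H816

open MeasureTheory Filter Topology Set Matrix
open Vale.Agent.P371 Vale.Agent.P371.G
open scoped ENNReal

variable {N m d : ℕ}

theorem LT_le_one {γ : ℝ} {d : ℕ} (m : ℕ) (h1 : 1 ≤ γ) (h2 : γ < 3 / 2) (hd : 1 ≤ d) :
    DimLT.LTconst γ d m ≤
      ENNReal.ofReal (2 * ((γ - 1 / 2) / (γ + 1 / 2)) ^ (γ - 1 / 2) * DimLT.Lcl γ d) := by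
  have h := (LP_of_one_le (m := m) d h1).LTconst_le (by linarith)
  rw [PP_of_one_le hd h1 h2, rr] at h
  exact h

theorem rr_one : rr 1 = 2 / Real.sqrt 3 := by
  unfold rr
  have e1 : ((1:ℝ) - 1 / 2) / (1 + 1 / 2) = 3⁻¹ := by norm_num
  have e2 : (1:ℝ) - 1 / 2 = 1 / 2 := by norm_num
  rw [e1, e2, Real.inv_rpow (by norm_num), ← Real.sqrt_eq_rpow, div_eq_mul_inv]

theorem LT_le_gamma_one {d : ℕ} (m : ℕ) (hd : 1 ≤ d) :
    DimLT.LTconst 1 d m ≤ ENNReal.ofReal (2 / Real.sqrt 3 * DimLT.Lcl 1 d) := by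
  have h := LT_le_one m le_rfl (by norm_num) hd
  have e : 2 * (((1:ℝ) - 1 / 2) / (1 + 1 / 2)) ^ ((1:ℝ) - 1 / 2) = 2 / Real.sqrt 3 := rr_one
  rw [e] at h
  exact h

theorem LT_le_lt_one {γ : ℝ} {d : ℕ} (m : ℕ) (h1 : 1 / 2 < γ) (h2 : γ < 1) (hd : 2 ≤ d) :
    DimLT.LTconst γ d m ≤
      ENNReal.ofReal (DimLT.ratio γ * DimLT.ratio (γ + 1 / 2) * DimLT.Lcl γ d) := by
  have h := (LP_of_half_lt (m := m) (by omega : 1 ≤ d) h1).LTconst_le (by linarith)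
  rw [PP_of_lt_one hd h1 h2] at h
  exact h

theorem LT_le_ge {γ : ℝ} (d m : ℕ) (h1 : 3 / 2 ≤ γ) :
    DimLT.LTconst γ d m ≤ ENNReal.ofReal (DimLT.Lcl γ d) := by
  have h := (LP_of_one_le (m := m) d (by linarith : 1 ≤ γ)).LTconst_le (by linarith)
  rw [PP_of_ge d h1] at h
  exact h

theorem kin_const {d : ℕ} (hd : 1 ≤ d) :
    (PP d 1 * (1 + (d : ℝ) / 2)) ^ (-(2 / (d : ℝ))) * ((d : ℝ) / (d + 2)) =
      (Real.sqrt 3 / 2) ^ (2 / (d : ℝ)) * DimLT.Kcl d := by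
  have hd0 : (0:ℝ) < d := by exact_mod_cast hd
  have hpi := Real.pi_pos
  have hG : 0 < Real.Gamma ((d : ℝ) / 2 + 1) := Real.Gamma_pos_of_pos (by positivity)
  have h3 : 0 < Real.sqrt 3 := Real.sqrt_pos.2 (by norm_num)
  rw [PP_of_one_le hd le_rfl (by norm_num), rr_one, DimLT.Lcl, DimLT.Kcl]
  have g1 : Real.Gamma (1 + 1) = 1 := by
    rw [Real.Gamma_add_one one_ne_zero, Real.Gamma_one, mul_one]
  have g2 : Real.Gamma (1 + (d : ℝ) / 2 + 1) = ((d : ℝ) / 2 + 1) * Real.Gamma ((d : ℝ) / 2 + 1) := by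
    rw [add_comm 1 ((d : ℝ) / 2), Real.Gamma_add_one (by positivity)]
  rw [g1, g2]
  have e1 : 2 / Real.sqrt 3 * (1 / ((4 * Real.pi) ^ ((d : ℝ) / 2) *
      (((d : ℝ) / 2 + 1) * Real.Gamma ((d : ℝ) / 2 + 1)))) * (1 + (d : ℝ) / 2) =
      ((Real.sqrt 3 / 2) * (4 * Real.pi) ^ ((d : ℝ) / 2) * Real.Gamma ((d : ℝ) / 2 + 1))⁻¹ := by
    field_simp
    ring
  rw [e1, Real.rpow_neg (by positivity), Real.inv_rpow (by positivity), inv_inv,
    Real.mul_rpow (by positivity) hG.le, Real.mul_rpow (by positivity) (by positivity),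
    ← Real.rpow_mul (by positivity)]
  have e2 : (d : ℝ) / 2 * (2 / (d : ℝ)) = 1 := by field_simp
  rw [e2, Real.rpow_one]
  ring

end Vale.Agent.P371.H816
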