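import Vale.Agent.P371.H816.L1

set_option linter.all false

/-!
Lifting: orthonormal families of `C^1_c` functions; hat functions.
-/

namespace Vale.Agent.P371.H816

open MeasureTheory Filter Topology Set Matrix
open Vale.Agent.P371 Vale.Agent.P371.G
open scoped ComplexOrder Matrix.Norms.L2Operator MatrixOrder ENNReal ContDiff
open Vale.Agent.P371.DimLT (pd)

variable {N M m K d : ℕ}

theorem lc_lc {X E : Type*} [AddCommMonoid E] [Module ℂ E] (r : Matrix (Fin N) (Fin M) ℂ)
    (r' : Matrix (Fin M) (Fin K) ℂ) (f : Fin N → X → E) : lc r' (lc r f) = lc (r * r') f := by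
  funext k x
  simp only [lc, Finset.smul_sum, Matrix.mul_apply, Finset.sum_smul]
  rw [Finset.sum_comm]
  refine Finset.sum_congr rfl fun i _ => Finset.sum_congr rfl fun j _ => ?_
  rw [smul_smul, mul_comm]

theorem qf_eq_conj (A : Matrix (Fin N) (Fin N) ℂ) (v : Fin N → ℂ) :
    qf A v = (((Matrix.of fun i (_ : Fin 1) => v i)ᴴ * A * (Matrix.of fun i (_ : Fin 1) => v i)) 0 0).re := by
  rw [qf, Matrix.mul_assoc, Matrix.mul_apply]
  rfl

theorem gram_posDef {f : Fin N → (Fin d → ℝ) → EuclideanSpace ℂ (Fin m)} (hf : ∀ j, Cc (f j))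
    (hli : ∀ v : Fin N → ℂ, (∀ x, ∑ j, v j • f j x = 0) → v = 0) : (gram volume f).PosDef := by
  refine posDef_of_qf (gram_isHermitian _ _) fun v hv => ?_
  rw [qf_eq_conj, ← gram_lc _ fun j => (hf j).memLp]
  set r : Matrix (Fin N) (Fin 1) ℂ := Matrix.of fun i (_ : Fin 1) => v i with hr
  have hF := cc_lc r hf 0
  have h1 : gram volume (lc r f) 0 0 = ∫ x, (inner ℂ (lc r f 0 x) (lc r f 0 x) : ℂ) := rfl
  have h2 : ∀ x, (inner ℂ (lc r f 0 x) (lc r f 0 x) : ℂ) = ((‖lc r f 0 x‖ ^ 2 : ℝ) : ℂ) :=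
    fun x => inner_self_re' _
  rw [h1]
  simp_rw [h2]
  rw [integral_complex_ofReal, Complex.ofReal_re]
  obtain ⟨x, hx⟩ : ∃ x, lc r f 0 x ≠ 0 := by
    by_contra h
    push Not at h
    exact hv (hli v h)
  refine Continuous.integral_pos_of_hasCompactSupport_nonneg_nonzero (x := x)
    (hF.continuous.norm.pow 2) ?_ (fun x => by positivity) ?_
  · refine hF.2.comp_left (g := fun v : EuclideanSpace ℂ (Fin m) => ‖v‖ ^ 2) ?_
    simp
  · have : 0 < ‖lc r f 0 x‖ := norm_pos_iff.2 hx
    positivity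

/-- the submodule of `C^1_c` functions -/
def ccS (d m : ℕ) : Submodule ℂ ((Fin d → ℝ) → EuclideanSpace ℂ (Fin m)) where
  carrier := {f | Cc f}
  add_mem' := fun {a b} ha hb => ⟨ha.1.add hb.1, ha.2.add hb.2⟩
  zero_mem' := ⟨contDiff_const, HasCompactSupport.zero⟩
  smul_mem' := fun c f hf => ⟨hf.1.const_smul c, hf.2.smul_left (f := fun _ => c)⟩

/-- a finite family of `C^1_c` functions is contained in the span of an orthonormal family -/
theorem exists_onb {ι : Type*} [Finite ι] (g : ι → (Fin d → ℝ) → EuclideanSpace ℂ (Fin m))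
    (hg : ∀ i, Cc (g i)) :
    ∃ (K : ℕ) (h : Fin K → (Fin d → ℝ) → EuclideanSpace ℂ (Fin m)), (∀ k, Cc (h k)) ∧
      gram volume h = 1 ∧ ∃ c : ι → EuclideanSpace ℂ (Fin K),
        ∀ i x, g i x = ∑ l, (c i) l • h l x := by
  set S := Submodule.span ℂ (Set.range g) with hS
  have hSc : S ≤ ccS d m := Submodule.span_le.2 (by rintro _ ⟨i, rfl⟩; exact hg i)
  haveI : FiniteDimensional ℂ S := FiniteDimensional.span_of_finite ℂ (Set.finite_range g)
  set b := Module.finBasis ℂ S with hb
  set K := Module.finrank ℂ S with hK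
  set bf : Fin K → (Fin d → ℝ) → EuclideanSpace ℂ (Fin m) := fun k => (b k : _) with hbf
  have hbc : ∀ k, Cc (bf k) := fun k => hSc (b k).2
  have hΓ : (gram volume bf).PosDef := by
    refine gram_posDef hbc fun v hv => ?_
    have h1 : ∑ k, v k • b k = 0 := by
      apply Subtype.ext
      rw [Submodule.coe_sum, Submodule.coe_zero]
      funext x
      rw [Finset.sum_apply]
      exact hv x
    have h2 := (Fintype.linearIndependent_iff.1 b.linearIndependent) v h1
    funext k
    exact h2 k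
  set r := cfc (fun x : ℝ => x ^ (-(1 / 2) : ℝ)) (gram volume bf) with hr
  have hrp : r.PosDef := PI.posDef_cfc hΓ _
  have hru : IsUnit r := hrp.isUnit
  have hrr : r * r⁻¹ = 1 := by
    rw [Matrix.mul_nonsing_inv]
    exact (Matrix.isUnit_iff_isUnit_det r).1 hru
  refine ⟨K, lc r bf, fun k => cc_lc r hbc k, ?_, ?_⟩
  · rw [gram_lc r fun j => (hbc j).memLp]
    exact orthonormalise hΓ
  · have h1 : lc r⁻¹ (lc r bf) = bf := by
      rw [lc_lc, hrr]
      funext k x
      simp [lc, Matrix.one_apply]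
    refine ⟨fun i => WithLp.toLp 2 fun l => ∑ k, r⁻¹ l k * b.repr ⟨g i, Submodule.subset_span ⟨i, rfl⟩⟩ k,
      fun i x => ?_⟩
    have h2 := b.sum_repr ⟨g i, Submodule.subset_span ⟨i, rfl⟩⟩
    have h3 : g i x = ∑ k, b.repr ⟨g i, Submodule.subset_span ⟨i, rfl⟩⟩ k • bf k x := by
      have h4 := congrArg (fun z : S => (z : (Fin d → ℝ) → EuclideanSpace ℂ (Fin m)) x) h2
      simp only [Submodule.coe_sum, Finset.sum_apply, Submodule.coe_smul, Pi.smul_apply] at h4
      exact h4.symm
    rw [h3]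
    have h5 : ∀ k, bf k x = ∑ l, r⁻¹ l k • lc r bf l x := fun k => by
      conv_lhs => rw [← h1]
      rfl
    simp_rw [h5, Finset.smul_sum, Finset.sum_smul]
    rw [Finset.sum_comm]
    refine Finset.sum_congr rfl fun l _ => Finset.sum_congr rfl fun k _ => ?_
    rw [smul_smul, mul_comm]

/-- the hat function -/
noncomputable def hat (t : ℝ) : ℝ := max 0 (1 - |t|)

/-- its right derivative -/
noncomputable def hat' (t : ℝ) : ℝ :=
  if -1 ≤ t ∧ t < 0 then 1 else if 0 ≤ t ∧ t < 1 then -1 else 0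

theorem continuous_hat : Continuous hat := by unfold hat; fun_prop

theorem hat_nonneg (t : ℝ) : 0 ≤ hat t := le_max_left _ _

theorem hat_le_one (t : ℝ) : hat t ≤ 1 := by
  unfold hat
  exact max_le zero_le_one (by linarith [abs_nonneg t])

theorem hat_eq_zero {t : ℝ} (h : 1 ≤ |t|) : hat t = 0 := max_eq_left (by linarith)

theorem hat'_eq_zero {t : ℝ} (h : 1 < |t|) : hat' t = 0 := by
  unfold hat'
  rcases lt_abs.1 h with h | h
  · rw [if_neg (by rintro ⟨_, h2⟩; linarith), if_neg (by rintro ⟨_, h2⟩; linarith)]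
  · rw [if_neg (by rintro ⟨h1, _⟩; linarith), if_neg (by rintro ⟨h1, _⟩; linarith)]

theorem abs_hat'_le (t : ℝ) : |hat' t| ≤ 1 := by
  unfold hat'
  split_ifs <;> simp

theorem measurable_hat' : Measurable hat' := by
  unfold hat'
  refine Measurable.ite ?_ measurable_const (Measurable.ite ?_ measurable_const measurable_const)
  · exact measurableSet_Ico (a := (-1 : ℝ)) (b := 0)
  · exact measurableSet_Ico (a := (0 : ℝ)) (b := 1)

theorem hasDerivAt_hat {x : ℝ} (h1 : x ≠ -1) (h2 : x ≠ 0) (h3 : x ≠ 1) :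
    HasDerivAt hat (hat' x) x := by
  rcases lt_or_gt_of_ne h2 with hx | hx
  · rcases lt_or_gt_of_ne h1 with hy | hy
    · have e : hat' x = 0 := hat'_eq_zero (by rw [abs_of_neg hx]; linarith)
      rw [e]
      refine (hasDerivAt_const x (0 : ℝ)).congr_of_eventuallyEq ?_
      filter_upwards [gt_mem_nhds hy] with t ht
      exact hat_eq_zero (by rw [abs_of_neg (by linarith)]; linarith)
    · have e : hat' x = 1 := by rw [hat', if_pos ⟨hy.le, hx⟩]
      rw [e]
      refine ((hasDerivAt_id x).const_add 1).congr_of_eventuallyEq ?_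
      filter_upwards [gt_mem_nhds hx, lt_mem_nhds hy] with t ht ht'
      rw [hat, abs_of_neg ht, max_eq_right (by linarith)]
      simp
  · rcases lt_or_gt_of_ne h3 with hy | hy
    · have e : hat' x = -1 := by
        rw [hat', if_neg (by rintro ⟨_, h⟩; linarith), if_pos ⟨hx.le, hy⟩]
      rw [e]
      have h4 := (hasDerivAt_id x).neg.const_add 1
      refine h4.congr_of_eventuallyEq ?_
      filter_upwards [lt_mem_nhds hx, gt_mem_nhds hy] with t ht ht'
      rw [hat, abs_of_pos ht, max_eq_right (by linarith)]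
      simp [sub_eq_add_neg]
    · have e : hat' x = 0 := hat'_eq_zero (by rw [abs_of_pos hx]; exact hy)
      rw [e]
      refine (hasDerivAt_const x (0 : ℝ)).congr_of_eventuallyEq ?_
      filter_upwards [lt_mem_nhds hy] with t ht
      exact hat_eq_zero (by rw [abs_of_pos (by linarith)]; linarith)

theorem ii_hat' (a b : ℝ) : IntervalIntegrable hat' volume a b := by
  refine (intervalIntegrable_const (c := (1 : ℝ))).mono_fun measurable_hat'.aestronglyMeasurable
    (Eventually.of_forall fun x => ?_)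
  simpa using abs_hat'_le x

theorem hat_ftc (a b : ℝ) : ∫ x in a..b, hat' x = hat b - hat a := by
  refine MeasureTheory.integral_eq_of_hasDerivAt_off_countable hat hat'
    (s := {-1, 0, 1}) (by simp) continuous_hat.continuousOn (fun x hx => ?_) (ii_hat' a b)
  have h := hx.2
  simp only [Set.mem_insert_iff, Set.mem_singleton_iff, not_or] at h
  exact hasDerivAt_hat h.1 h.2.1 h.2.2

end Vale.Agent.P371.H816
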