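import Vale.Agent.P371.H816.L2

set_option linter.all false

/-!
Lifting: piecewise linear interpolation in one variable; Fubini.
-/

namespace Vale.Agent.P371.H816

open MeasureTheory Filter Topology Set Matrix
open Vale.Agent.P371 Vale.Agent.P371.G
open scoped ComplexOrder Matrix.Norms.L2Operator MatrixOrder ENNReal ContDiff
open Vale.Agent.P371.DimLT (pd)

variable {N M m K d : ℕ}

/-- sum of hats -/
noncomputable def intp {E : Type*} [AddCommMonoid E] [Module ℂ E] (F : Finset ℤ) (a : ℤ → E)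
    (t : ℝ) : E := ∑ k ∈ F, ((hat (t - k) : ℝ) : ℂ) • a k

noncomputable def intp' {E : Type*} [AddCommMonoid E] [Module ℂ E] (F : Finset ℤ) (a : ℤ → E)
    (t : ℝ) : E := ∑ k ∈ F, ((hat' (t - k) : ℝ) : ℂ) • a k

theorem two_term {E : Type*} [AddCommGroup E] [Module ℂ E] {F : Finset ℤ} {a : ℤ → E}
    (ha : ∀ k ∉ F, a k = 0) (w : ℝ → ℝ) (t : ℝ) (hw : ∀ k : ℤ, k ≠ ⌊t⌋ → k ≠ ⌊t⌋ + 1 → w (t - k) = 0) :
    ∑ k ∈ F, ((w (t - k) : ℝ) : ℂ) • a k =
      ((w (t - ⌊t⌋) : ℝ) : ℂ) • a ⌊t⌋ + ((w (t - (⌊t⌋ + 1 : ℤ)) : ℝ) : ℂ) • a (⌊t⌋ + 1) := by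
  classical
  have h1 : ∑ k ∈ F, ((w (t - k) : ℝ) : ℂ) • a k =
      ∑ k ∈ F ∪ {⌊t⌋, ⌊t⌋ + 1}, ((w (t - k) : ℝ) : ℂ) • a k :=
    Finset.sum_subset Finset.subset_union_left fun k _ hk => by rw [ha k hk, smul_zero]
  have h2 : ∑ k ∈ ({⌊t⌋, ⌊t⌋ + 1} : Finset ℤ), ((w (t - k) : ℝ) : ℂ) • a k =
      ∑ k ∈ F ∪ {⌊t⌋, ⌊t⌋ + 1}, ((w (t - k) : ℝ) : ℂ) • a k :=
    Finset.sum_subset Finset.subset_union_right fun k _ hk => by
      simp only [Finset.mem_insert, Finset.mem_singleton, not_or] at hk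
      rw [hw k hk.1 hk.2, Complex.ofReal_zero, zero_smul]
  rw [h1, ← h2, Finset.sum_pair (by omega)]

theorem dist_of_ne {t : ℝ} {k : ℤ} (h1 : k ≠ ⌊t⌋) (h2 : k ≠ ⌊t⌋ + 1) :
    t - k < -1 ∨ 1 ≤ t - k := by
  have hf1 := Int.floor_le t
  have hf2 := Int.lt_floor_add_one t
  rcases lt_or_gt_of_ne h1 with h | h
  · right
    have : (k : ℝ) + 1 ≤ ⌊t⌋ := by exact_mod_cast h
    linarith
  · left
    have h3 : ⌊t⌋ + 2 ≤ k := by omega
    have : (⌊t⌋ : ℝ) + 2 ≤ k := by exact_mod_cast h3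
    linarith

theorem intp_eq {E : Type*} [AddCommGroup E] [Module ℂ E] {F : Finset ℤ} {a : ℤ → E}
    (ha : ∀ k ∉ F, a k = 0) (t : ℝ) :
    intp F a t = ((1 - Int.fract t : ℝ) : ℂ) • a ⌊t⌋ + ((Int.fract t : ℝ) : ℂ) • a (⌊t⌋ + 1) := by
  unfold intp
  rw [two_term ha hat t fun k h1 h2 => by
    rcases dist_of_ne h1 h2 with h | h
    · exact hat_eq_zero (by rw [abs_of_neg (by linarith)]; linarith)
    · exact hat_eq_zero (by rw [abs_of_pos (by linarith)]; linarith)]
  have h0 := Int.fract_nonneg t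
  have h1 := Int.fract_lt_one t
  have e1 : hat (t - ⌊t⌋) = 1 - Int.fract t := by
    rw [hat, Int.self_sub_floor, abs_of_nonneg h0, max_eq_right (by linarith)]
  have e2 : hat (t - (⌊t⌋ + 1 : ℤ)) = Int.fract t := by
    have : t - ((⌊t⌋ + 1 : ℤ) : ℝ) = Int.fract t - 1 := by
      push_cast
      rw [← Int.self_sub_floor]
      ring
    rw [hat, this, abs_of_neg (by linarith), max_eq_right (by linarith)]
    ring
  rw [e1, e2]

theorem intp'_eq {E : Type*} [AddCommGroup E] [Module ℂ E] {F : Finset ℤ} {a : ℤ → E}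
    (ha : ∀ k ∉ F, a k = 0) (t : ℝ) : intp' F a t = a (⌊t⌋ + 1) - a ⌊t⌋ := by
  unfold intp'
  rw [two_term ha hat' t fun k h1 h2 => by
    rcases dist_of_ne h1 h2 with h | h
    · exact hat'_eq_zero (by rw [abs_of_neg (by linarith)]; linarith)
    · rcases h.eq_or_lt with h | h
      · rw [← h, hat', if_neg (by rintro ⟨_, h2⟩; linarith), if_neg (by rintro ⟨_, h2⟩; linarith)]
      · exact hat'_eq_zero (by rw [abs_of_pos (by linarith)]; linarith)]
  have h0 := Int.fract_nonneg t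
  have h1 := Int.fract_lt_one t
  have e1 : hat' (t - ⌊t⌋) = -1 := by
    rw [hat', Int.self_sub_floor, if_neg (by rintro ⟨_, h⟩; linarith), if_pos ⟨h0, h1⟩]
  have e2 : hat' (t - (⌊t⌋ + 1 : ℤ)) = 1 := by
    have : t - ((⌊t⌋ + 1 : ℤ) : ℝ) = Int.fract t - 1 := by
      push_cast
      rw [← Int.self_sub_floor]
      ring
    rw [hat', this, if_pos ⟨by linarith, by linarith⟩]
  rw [e1, e2]
  push_cast
  rw [neg_smul, one_smul, one_smul]
  abel

theorem memLp_of_bdd {X E : Type*} [MeasurableSpace X] {μ : Measure X} [NormedAddCommGroup E]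
    {f : X → E} (hf : AEStronglyMeasurable f μ) {C : ℝ} (hC : ∀ x, ‖f x‖ ≤ C) {S : Set X}
    (hS : MeasurableSet S) (hμ : μ S < ⊤) (h0 : ∀ x ∉ S, f x = 0) (p : ℝ≥0∞) : MemLp f p μ := by
  have h1 : f = S.indicator f := by
    funext x
    by_cases hx : x ∈ S
    · rw [indicator_of_mem hx]
    · rw [indicator_of_notMem hx, h0 x hx]
  rw [h1, memLp_indicator_iff_restrict hS]
  haveI : IsFiniteMeasure (μ.restrict S) := ⟨by rw [Measure.restrict_apply_univ]; exact hμ⟩
  exact MemLp.of_bound hf.restrict C (Eventually.of_forall hC)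

/-- the vector-valued interpolants are in `H^1` -/
theorem isH1_intp (n : ℕ) (F : Finset ℤ) (c : ℤ → EuclideanSpace ℂ (Fin K)) :
    IsH1 (fun s => intp F c (((n : ℝ) + 1) * s))
      (fun s => (((n : ℝ) + 1 : ℝ) : ℂ) • intp' F c (((n : ℝ) + 1) * s)) := by
  have hn : (0:ℝ) < (n : ℝ) + 1 := by positivity
  -- one hat
  have one : ∀ k : ℤ, IsH1 (fun s : ℝ => ((hat (((n : ℝ) + 1) * s - k) : ℝ) : ℂ) • c k)
      (fun s : ℝ => (((n : ℝ) + 1 : ℝ) : ℂ) • (((hat' (((n : ℝ) + 1) * s - k) : ℝ) : ℂ) • c k)) := by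
    intro k
    set S : Set ℝ := Icc (((k : ℝ) - 1) / ((n : ℝ) + 1)) (((k : ℝ) + 1) / ((n : ℝ) + 1)) with hS
    have hSm : MeasurableSet S := measurableSet_Icc
    have hSf : volume S < ⊤ := by rw [hS]; exact measure_Icc_lt_top
    have hout : ∀ s ∉ S, 1 < |((n : ℝ) + 1) * s - k| := by
      intro s hs
      rw [hS, mem_Icc, not_and_or, not_le, not_le, lt_div_iff₀ hn, div_lt_iff₀ hn] at hs
      rcases hs with h | h
      · rw [lt_abs]; right; linarith
      · rw [lt_abs]; left; linarith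
    have hc1 : Continuous fun s : ℝ => ((hat (((n : ℝ) + 1) * s - k) : ℝ) : ℂ) • c k :=
      (Complex.continuous_ofReal.comp (continuous_hat.comp (by fun_prop))).smul continuous_const
    have hm2 : AEStronglyMeasurable (fun s : ℝ => (((n : ℝ) + 1 : ℝ) : ℂ) •
        (((hat' (((n : ℝ) + 1) * s - k) : ℝ) : ℂ) • c k)) volume := by
      have h0 : Measurable fun s : ℝ => ((hat' (((n : ℝ) + 1) * s - k) : ℝ) : ℂ) :=
        Complex.measurable_ofReal.comp (measurable_hat'.comp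
          (by fun_prop : Measurable fun s : ℝ => ((n : ℝ) + 1) * s - k))
      have h1 : AEStronglyMeasurable (fun s : ℝ => ((hat' (((n : ℝ) + 1) * s - k) : ℝ) : ℂ) • c k)
          volume := h0.aestronglyMeasurable.smul_const (c k)
      exact h1.const_smul' _
    refine ⟨?_, ?_, ?_⟩
    · refine memLp_of_bdd hc1.aestronglyMeasurable (C := ‖c k‖) (fun s => ?_) hSm hSf
        (fun s hs => ?_) 2
      · rw [norm_smul, Complex.norm_real, Real.norm_of_nonneg (hat_nonneg _)]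
        exact mul_le_of_le_one_left (norm_nonneg _) (hat_le_one _)
      · rw [hat_eq_zero (hout s hs).le, Complex.ofReal_zero, zero_smul]
    · refine memLp_of_bdd hm2 (C := ((n : ℝ) + 1) * ‖c k‖) (fun s => ?_) hSm hSf
        (fun s hs => ?_) 2
      · rw [norm_smul, norm_smul, Complex.norm_real, Complex.norm_real, Real.norm_of_nonneg hn.le,
          Real.norm_eq_abs]
        exact mul_le_mul_of_nonneg_left (mul_le_of_le_one_left (norm_nonneg _) (abs_hat'_le _)) hn.le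
      · rw [hat'_eq_zero (hout s hs), Complex.ofReal_zero, zero_smul, smul_zero]
    · intro a b
      have h1 : ∫ s in a..b, (((n : ℝ) + 1) * hat' (((n : ℝ) + 1) * s - k)) =
          hat (((n : ℝ) + 1) * b - k) - hat (((n : ℝ) + 1) * a - k) := by
        rw [intervalIntegral.integral_const_mul,
          intervalIntegral.integral_comp_mul_sub (fun x => hat' x) hn.ne', hat_ftc, smul_eq_mul,
          mul_inv_cancel_left₀ hn.ne']
      have h2 : ∀ s : ℝ, (((n : ℝ) + 1 : ℝ) : ℂ) • (((hat' (((n : ℝ) + 1) * s - k) : ℝ) : ℂ) • c k) =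
          (((((n : ℝ) + 1) * hat' (((n : ℝ) + 1) * s - k) : ℝ) : ℂ)) • c k := fun s => by
        rw [smul_smul, ← Complex.ofReal_mul]
      simp_rw [h2]
      rw [intervalIntegral.integral_smul_const, intervalIntegral.integral_ofReal, h1, ← sub_smul,
        ← Complex.ofReal_sub]
  refine ⟨?_, ?_, ?_⟩
  · unfold intp
    exact memLp_finset_sum _ fun k _ => (one k).memLp
  · unfold intp'
    simp_rw [Finset.smul_sum]
    exact memLp_finset_sum _ fun k _ => (one k).memLp_deriv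
  · intro a b
    unfold intp intp'
    simp_rw [Finset.smul_sum]
    rw [intervalIntegral.integral_finset_sum fun k _ => (one k).intervalIntegrable_deriv a b,
      ← Finset.sum_sub_distrib]
    exact Finset.sum_congr rfl fun k _ => (one k).ftc a b

end Vale.Agent.P371.H816
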