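import Vale.Agent.P371.H816.L3

set_option linter.all false

/-!
Lifting: Fubini for finite sums of products.
-/

namespace Vale.Agent.P371.H816

open MeasureTheory Filter Topology Set Matrix
open Vale.Agent.P371 Vale.Agent.P371.G
open scoped ComplexOrder Matrix.Norms.L2Operator MatrixOrder ENNReal
open Vale.Agent.P371.DimLT (pd)

variable {N M m K d : ℕ}

theorem measurable_cons : Measurable fun z : ℝ × (Fin d → ℝ) =>
    (Fin.cons z.1 z.2 : Fin (d + 1) → ℝ) := by
  refine measurable_pi_lambda _ fun i => ?_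
  refine Fin.cases ?_ (fun j => ?_) i
  · simpa using measurable_fst
  · simp only [Fin.cons_succ]
    exact (measurable_pi_apply j).comp measurable_snd

theorem integral_cons {E : Type*} [NormedAddCommGroup E] [NormedSpace ℝ E]
    (F : (Fin (d + 1) → ℝ) → E) :
    ∫ x, F x = ∫ z : ℝ × (Fin d → ℝ), F (Fin.cons z.1 z.2 : Fin (d + 1) → ℝ) := by
  have h := (volume_preserving_piFinSuccAbove (fun _ : Fin (d + 1) => ℝ) 0).symm.integral_comp' F
  rw [← h]
  refine integral_congr_ae (Eventually.of_forall fun z => ?_)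
  simp only [MeasurableEquiv.piFinSuccAbove_symm_apply, Fin.insertNthEquiv_zero]
  rfl

theorem lintegral_cons {F : (Fin (d + 1) → ℝ) → ℝ≥0∞} (hF : Measurable F) :
    ∫⁻ x, F x = ∫⁻ s, ∫⁻ y, F (Fin.cons s y : Fin (d + 1) → ℝ) := by
  have h := (volume_preserving_piFinSuccAbove (fun _ : Fin (d + 1) => ℝ) 0).symm.lintegral_comp hF
  have h2 : ∫⁻ z : ℝ × (Fin d → ℝ), F (Fin.cons z.1 z.2 : Fin (d + 1) → ℝ) = ∫⁻ x, F x := by
    rw [← h]
    refine lintegral_congr fun z => ?_
    simp only [MeasurableEquiv.piFinSuccAbove_symm_apply, Fin.insertNthEquiv_zero]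
    rfl
  rw [← h2]
  have h3 := lintegral_prod (μ := (volume : Measure ℝ)) (ν := (volume : Measure (Fin d → ℝ)))
    (fun z : ℝ × (Fin d → ℝ) => F (Fin.cons z.1 z.2 : Fin (d + 1) → ℝ))
    (hF.comp measurable_cons).aemeasurable
  exact h3

/-- finite sums of products -/
noncomputable def ten (u : ℝ → EuclideanSpace ℂ (Fin K))
    (h : Fin K → (Fin d → ℝ) → EuclideanSpace ℂ (Fin m)) (x : Fin (d + 1) → ℝ) :
    EuclideanSpace ℂ (Fin m) := ∑ l, (u (x 0)) l • h l (Fin.tail x)

theorem ten_cons (u : ℝ → EuclideanSpace ℂ (Fin K))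
    (h : Fin K → (Fin d → ℝ) → EuclideanSpace ℂ (Fin m)) (s : ℝ) (y : Fin d → ℝ) :
    ten u h (Fin.cons s y : Fin (d + 1) → ℝ) = ∑ l, (u s) l • h l y := by
  simp [ten]

noncomputable def Bm (S : (Fin (d + 1) → ℝ) → Matrix (Fin m) (Fin m) ℂ)
    (h h' : Fin K → (Fin d → ℝ) → EuclideanSpace ℂ (Fin m)) (s : ℝ) :
    Matrix (Fin K) (Fin K) ℂ :=
  Matrix.of fun l l' => ∫ y, (inner ℂ (h l y)
    (Matrix.toEuclideanLin (S (Fin.cons s y : Fin (d + 1) → ℝ)) (h' l' y)) : ℂ)

theorem measurable_form {X : Type*} [MeasurableSpace X]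
    {V : X → Matrix (Fin m) (Fin m) ℂ} (hV : ∀ i j, Measurable fun x => V x i j)
    {f g : X → EuclideanSpace ℂ (Fin m)} (hf : Measurable f) (hg : Measurable g) :
    Measurable (fun x => (inner ℂ (f x) (Matrix.toEuclideanLin (V x) (g x)) : ℂ)) := by
  have h2 : (fun x => (inner ℂ (f x) (Matrix.toEuclideanLin (V x) (g x)) : ℂ)) =
      fun x => ∑ k, ∑ l, (starRingEnd ℂ (f x k)) * V x k l * g x l := by
    funext x
    rw [PiLp.inner_apply]
    refine Finset.sum_congr rfl fun k _ => ?_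
    rw [RCLike.inner_apply, Matrix.toLpLin_apply]
    simp only [Matrix.mulVec, dotProduct, Finset.sum_mul]
    refine Finset.sum_congr rfl fun l _ => ?_
    ring
  rw [h2]
  refine Finset.measurable_fun_sum _ fun k _ => Finset.measurable_fun_sum _ fun l _ => ?_
  have hk : Continuous fun v : EuclideanSpace ℂ (Fin m) => starRingEnd ℂ (v k) := by fun_prop
  have hl : Continuous fun v : EuclideanSpace ℂ (Fin m) => v l := by fun_prop
  exact ((hk.measurable.comp hf).mul (hV k l)).mul (hl.measurable.comp hg)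

theorem bdd_cons {S : (Fin (d + 1) → ℝ) → Matrix (Fin m) (Fin m) ℂ} (hS : Bdd S) :
    Bdd fun z : ℝ × (Fin d → ℝ) => S (Fin.cons z.1 z.2 : Fin (d + 1) → ℝ) where
  measurable i j := (hS.measurable i j).comp measurable_cons
  posSemidef x := hS.posSemidef _
  bound := by
    obtain ⟨B, hB⟩ := hS.bound
    exact ⟨B, fun x => hB _⟩

theorem bdd_slice {S : (Fin (d + 1) → ℝ) → Matrix (Fin m) (Fin m) ℂ} (hS : Bdd S) (s : ℝ) :
    Bdd fun y : Fin d → ℝ => S (Fin.cons s y : Fin (d + 1) → ℝ) where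
  measurable i j := (hS.measurable i j).comp
    (measurable_cons.comp (measurable_const.prodMk measurable_id))
  posSemidef x := hS.posSemidef _
  bound := by
    obtain ⟨B, hB⟩ := hS.bound
    exact ⟨B, fun x => hB _⟩

theorem measurable_Bm {S : (Fin (d + 1) → ℝ) → Matrix (Fin m) (Fin m) ℂ} (hS : Bdd S)
    {h h' : Fin K → (Fin d → ℝ) → EuclideanSpace ℂ (Fin m)} (hh : ∀ k, Continuous (h k))
    (hh' : ∀ k, Continuous (h' k)) (l l' : Fin K) : Measurable fun s => Bm S h h' s l l' := by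
  have h1 : StronglyMeasurable fun z : ℝ × (Fin d → ℝ) => (inner ℂ (h l z.2)
      (Matrix.toEuclideanLin (S (Fin.cons z.1 z.2 : Fin (d + 1) → ℝ)) (h' l' z.2)) : ℂ) :=
    (measurable_form (bdd_cons hS).measurable ((hh l).measurable.comp measurable_snd)
      ((hh' l').measurable.comp measurable_snd)).stronglyMeasurable
  exact (h1.integral_prod_right' (ν := (volume : Measure (Fin d → ℝ)))).measurable

theorem fubini {S : (Fin (d + 1) → ℝ) → Matrix (Fin m) (Fin m) ℂ} (hS : Bdd S)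
    {h h' : Fin K → (Fin d → ℝ) → EuclideanSpace ℂ (Fin m)}
    (hh : ∀ k, Continuous (h k)) (hh' : ∀ k, Continuous (h' k))
    (hl : ∀ k, MemLp (h k) 2 volume) (hl' : ∀ k, MemLp (h' k) 2 volume)
    {u v : ℝ → EuclideanSpace ℂ (Fin K)} (hu : MemLp u 2 volume) (hv : MemLp v 2 volume) :
    ∫ x, (inner ℂ (ten u h x) (Matrix.toEuclideanLin (S x) (ten v h' x)) : ℂ) =
      ∫ s, (inner ℂ (u s) (Matrix.toEuclideanLin (Bm S h h' s) (v s)) : ℂ) := by
  obtain ⟨B, hB⟩ := hS.bound
  have hB0 : 0 ≤ B := (norm_nonneg _).trans (hB 0)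
  set G : Fin K → Fin K → ℝ × (Fin d → ℝ) → ℂ := fun l l' z =>
    ((starRingEnd ℂ (u z.1 l)) * v z.1 l') * (inner ℂ (h l z.2)
      (Matrix.toEuclideanLin (S (Fin.cons z.1 z.2 : Fin (d + 1) → ℝ)) (h' l' z.2)) : ℂ) with hG
  have hGi : ∀ l l', Integrable (G l l') (volume.prod volume) := by
    intro l l'
    have i1 : Integrable (fun s : ℝ => ‖u s‖ ^ 2 + ‖v s‖ ^ 2) volume :=
      (hu.integrable_norm_pow (by norm_num)).add (hv.integrable_norm_pow (by norm_num))
    have i2 : Integrable (fun y : Fin d → ℝ => B * (‖h l y‖ ^ 2 + ‖h' l' y‖ ^ 2)) volume :=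
      (((hl l).integrable_norm_pow (by norm_num)).add
        ((hl' l').integrable_norm_pow (by norm_num))).const_mul B
    refine (i1.mul_prod i2).mono' ?_ (Eventually.of_forall fun z => ?_)
    · have c1 : Continuous fun w : EuclideanSpace ℂ (Fin K) => starRingEnd ℂ (w l) := by fun_prop
      have c2 : Continuous fun w : EuclideanSpace ℂ (Fin K) => w l' := by fun_prop
      refine AEStronglyMeasurable.mul (AEStronglyMeasurable.mul ?_ ?_) ?_
      · exact (c1.comp_aestronglyMeasurable hu.1).comp_fst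
      · exact (c2.comp_aestronglyMeasurable hv.1).comp_fst
      · exact (measurable_form (bdd_cons hS).measurable ((hh l).measurable.comp measurable_snd)
          ((hh' l').measurable.comp measurable_snd)).aestronglyMeasurable
    · rw [hG]
      simp only [norm_mul, RCLike.norm_conj]
      have n1 : ‖u z.1 l‖ ≤ ‖u z.1‖ := PiLp.norm_apply_le _ _
      have n2 : ‖v z.1 l'‖ ≤ ‖v z.1‖ := PiLp.norm_apply_le _ _
      have n3 := norm_inner_toEuclideanLin_le (S (Fin.cons z.1 z.2 : Fin (d + 1) → ℝ)) (h l z.2)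
        (h' l' z.2)
      have n4 : ‖u z.1 l‖ * ‖v z.1 l'‖ ≤ ‖u z.1‖ ^ 2 + ‖v z.1‖ ^ 2 := by
        have := mul_le_mul n1 n2 (norm_nonneg _) (norm_nonneg _)
        nlinarith only [this, sq_nonneg (‖u z.1‖ - ‖v z.1‖), sq_nonneg (‖u z.1‖),
          sq_nonneg (‖v z.1‖)]
      have n5 : ‖(inner ℂ (h l z.2) (Matrix.toEuclideanLin
          (S (Fin.cons z.1 z.2 : Fin (d + 1) → ℝ)) (h' l' z.2)) : ℂ)‖ ≤
          B * (‖h l z.2‖ ^ 2 + ‖h' l' z.2‖ ^ 2) := by
        refine n3.trans ?_
        have h2 : ‖h l z.2‖ * ‖h' l' z.2‖ ≤ ‖h l z.2‖ ^ 2 + ‖h' l' z.2‖ ^ 2 := by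
          nlinarith only [sq_nonneg (‖h l z.2‖ - ‖h' l' z.2‖), sq_nonneg (‖h l z.2‖),
            sq_nonneg (‖h' l' z.2‖)]
        rw [mul_assoc]
        exact mul_le_mul (hB _) h2 (by positivity) hB0
      exact mul_le_mul n4 n5 (norm_nonneg _) (by positivity)
  have e1 : ∀ z : ℝ × (Fin d → ℝ), (inner ℂ (ten u h (Fin.cons z.1 z.2 : Fin (d + 1) → ℝ))
      (Matrix.toEuclideanLin (S (Fin.cons z.1 z.2 : Fin (d + 1) → ℝ))
        (ten v h' (Fin.cons z.1 z.2 : Fin (d + 1) → ℝ))) : ℂ) = ∑ l, ∑ l', G l l' z := by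
    intro z
    rw [ten_cons, ten_cons, sum_inner]
    refine Finset.sum_congr rfl fun l _ => ?_
    rw [map_sum, inner_sum]
    refine Finset.sum_congr rfl fun l' _ => ?_
    rw [map_smul, inner_smul_left, inner_smul_right, hG]
    ring
  rw [integral_cons]
  simp_rw [e1]
  rw [show (volume : Measure (ℝ × (Fin d → ℝ))) = volume.prod volume from rfl,
    integral_finset_sum _ fun l _ => integrable_finset_sum _ fun l' _ => hGi l l']
  simp_rw [integral_finset_sum _ fun l' _ => hGi _ l']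
  have e2 : ∀ l l', ∫ z, G l l' z ∂(volume.prod volume) =
      ∫ s, ((starRingEnd ℂ (u s l)) * v s l') * Bm S h h' s l l' := by
    intro l l'
    rw [integral_prod _ (hGi l l')]
    refine integral_congr_ae (Eventually.of_forall fun s => ?_)
    simp only [hG]
    rw [integral_const_mul]
    rfl
  have i3 : ∀ l l', Integrable (fun s => ((starRingEnd ℂ (u s l)) * v s l') * Bm S h h' s l l')
      volume := by
    intro l l'
    have h1 := (hGi l l').integral_prod_left
    refine h1.congr (Eventually.of_forall fun s => ?_)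
    simp only [hG]
    rw [integral_const_mul]
    rfl
  simp_rw [e2]
  have e3 : ∀ s, (inner ℂ (u s) (Matrix.toEuclideanLin (Bm S h h' s) (v s)) : ℂ) =
      ∑ l, ∑ l', ((starRingEnd ℂ (u s l)) * v s l') * Bm S h h' s l l' := by
    intro s
    rw [PiLp.inner_apply]
    refine Finset.sum_congr rfl fun k _ => ?_
    rw [RCLike.inner_apply, Matrix.toLpLin_apply]
    simp only [Matrix.mulVec, dotProduct, Finset.sum_mul]
    refine Finset.sum_congr rfl fun l _ => ?_
    ring
  simp_rw [e3]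
  rw [integral_finset_sum _ fun l _ => integrable_finset_sum _ fun l' _ => i3 l l']
  exact Finset.sum_congr rfl fun l _ => (integral_finset_sum _ fun l' _ => i3 l l').symm

end Vale.Agent.P371.H816
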