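import Vale.Agent.P371.H816.L4

set_option linter.all false

/-!
Lifting: convergence of the interpolants.
-/

namespace Vale.Agent.P371.H816

open MeasureTheory Filter Topology Set Matrix
open Vale.Agent.P371 Vale.Agent.P371.G
open scoped ComplexOrder Matrix.Norms.L2Operator MatrixOrder ENNReal
open Vale.Agent.P371.DimLT (pd)

variable {N M m K d : ℕ}

/-- support in the ball of radius `R` -/
def SB {X E : Type*} [NormedAddCommGroup X] [Zero E] (R : ℝ) (F : X → E) : Prop :=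
  ∀ x, R < ‖x‖ → F x = 0

theorem Cc.exists_R {f : (Fin d → ℝ) → EuclideanSpace ℂ (Fin m)} (hf : Cc f) :
    ∃ R, 0 ≤ R ∧ SB R f ∧ ∀ i, SB R (pd i f) := by
  obtain ⟨R, hR⟩ := hf.2.isCompact.isBounded.subset_closedBall 0
  have hm : ∀ x, max R 0 < ‖x‖ → x ∉ tsupport f := fun x hx hx' => by
    have h := hR hx'
    rw [Metric.mem_closedBall, dist_zero_right] at h
    exact absurd (lt_of_le_of_lt (le_max_left R 0) hx) (not_lt.2 h)
  refine ⟨max R 0, le_max_right _ _, fun x hx => image_eq_zero_of_notMem_tsupport (hm x hx),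
    fun i x hx => ?_⟩
  unfold pd
  rw [fderiv_of_notMem_tsupport (𝕜 := ℝ) (hm x hx), ContinuousLinearMap.zero_apply]

theorem SB.mono {X E : Type*} [NormedAddCommGroup X] [Zero E] {R R' : ℝ} {F : X → E}
    (h : SB R F) (hR : R ≤ R') : SB R' F := fun x hx => h x (hR.trans_lt hx)

theorem norm_cons_ge (t : ℝ) (y : Fin d → ℝ) : |t| ≤ ‖(Fin.cons t y : Fin (d + 1) → ℝ)‖ := by
  have := norm_le_pi_norm (Fin.cons t y : Fin (d + 1) → ℝ) 0
  simpa using this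

theorem norm_cons_ge' (t : ℝ) (y : Fin d → ℝ) : ‖y‖ ≤ ‖(Fin.cons t y : Fin (d + 1) → ℝ)‖ := by
  rw [pi_norm_le_iff_of_nonneg (norm_nonneg _)]
  intro i
  have := norm_le_pi_norm (Fin.cons t y : Fin (d + 1) → ℝ) i.succ
  simpa using this

theorem norm_le_of (x : Fin (d + 1) → ℝ) : ‖x‖ ≤ max |x 0| ‖Fin.tail x‖ := by
  rw [pi_norm_le_iff_of_nonneg (le_max_of_le_left (abs_nonneg _))]
  intro i
  refine Fin.cases ?_ (fun j => ?_) i
  · exact le_max_left _ _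
  · exact le_max_of_le_right (norm_le_pi_norm (Fin.tail x) j)

/-- the grid -/
noncomputable def Gr (n : ℕ) (R : ℝ) : Finset ℤ :=
  Finset.Icc (-⌈R * ((n : ℝ) + 1)⌉) ⌈R * ((n : ℝ) + 1)⌉

theorem not_mem_Gr {n : ℕ} {R : ℝ} {k : ℤ} (hk : k ∉ Gr n R) : R < |(k : ℝ) / ((n : ℝ) + 1)| := by
  have hn : (0:ℝ) < (n : ℝ) + 1 := by positivity
  rw [Gr, Finset.mem_Icc, not_and_or, not_le, not_le] at hk
  have h1 := Int.le_ceil (R * ((n : ℝ) + 1))
  rw [abs_div, abs_of_pos hn, lt_div_iff₀ hn]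
  rcases hk with h | h
  · have h2 : (k : ℝ) < -(⌈R * ((n : ℝ) + 1)⌉ : ℤ) := by exact_mod_cast h
    rw [lt_abs]; right; linarith
  · have h2 : ((⌈R * ((n : ℝ) + 1)⌉ : ℤ) : ℝ) < k := by exact_mod_cast h
    rw [lt_abs]; left; linarith

theorem grid_zero {E : Type*} [Zero E] {R : ℝ} {F : (Fin (d + 1) → ℝ) → E} (hF : SB R F) (n : ℕ)
    (y : Fin d → ℝ) : ∀ k ∉ Gr n R, F (Fin.cons ((k : ℝ) / ((n : ℝ) + 1)) y) = 0 := fun k hk =>
  hF _ ((not_mem_Gr hk).trans_le (norm_cons_ge _ _))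

/-- the interpolant -/
noncomputable def In (n : ℕ) (R : ℝ) (F : (Fin (d + 1) → ℝ) → EuclideanSpace ℂ (Fin m))
    (x : Fin (d + 1) → ℝ) : EuclideanSpace ℂ (Fin m) :=
  intp (Gr n R) (fun k : ℤ => F (Fin.cons ((k : ℝ) / ((n : ℝ) + 1)) (Fin.tail x)))
    (((n : ℝ) + 1) * x 0)

/-- its derivative in the first variable -/
noncomputable def Dn (n : ℕ) (R : ℝ) (F : (Fin (d + 1) → ℝ) → EuclideanSpace ℂ (Fin m))
    (x : Fin (d + 1) → ℝ) : EuclideanSpace ℂ (Fin m) :=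
  (((n : ℝ) + 1 : ℝ) : ℂ) •
    intp' (Gr n R) (fun k : ℤ => F (Fin.cons ((k : ℝ) / ((n : ℝ) + 1)) (Fin.tail x)))
      (((n : ℝ) + 1) * x 0)

theorem continuous_cons {X : Type*} [TopologicalSpace X] {f : X → ℝ} {g : X → Fin d → ℝ}
    (hf : Continuous f) (hg : Continuous g) :
    Continuous fun x => (Fin.cons (f x) (g x) : Fin (d + 1) → ℝ) := by
  refine continuous_pi fun i => ?_
  refine Fin.cases ?_ (fun j => ?_) i
  · simpa using hf
  · simp only [Fin.cons_succ]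
    exact (continuous_apply j).comp hg

theorem continuous_tail : Continuous fun x : Fin (d + 1) → ℝ => Fin.tail x :=
  continuous_pi fun i => continuous_apply i.succ

theorem continuous_In (n : ℕ) (R : ℝ) {F : (Fin (d + 1) → ℝ) → EuclideanSpace ℂ (Fin m)}
    (hF : Continuous F) : Continuous (In n R F) := by
  unfold In intp
  refine continuous_finset_sum _ fun k _ => ?_
  have h1 : Continuous fun x : Fin (d + 1) → ℝ => ((hat (((n : ℝ) + 1) * x 0 - k) : ℝ) : ℂ) :=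
    Complex.continuous_ofReal.comp (continuous_hat.comp (by fun_prop))
  exact h1.smul (hF.comp (continuous_cons continuous_const continuous_tail))

theorem measurable_Dn (n : ℕ) (R : ℝ) {F : (Fin (d + 1) → ℝ) → EuclideanSpace ℂ (Fin m)}
    (hF : Continuous F) : Measurable (Dn n R F) := by
  unfold Dn intp'
  have h2 : Measurable fun x : Fin (d + 1) → ℝ => ∑ k ∈ Gr n R,
      ((hat' (((n : ℝ) + 1) * x 0 - k) : ℝ) : ℂ) •
        F (Fin.cons ((k : ℝ) / ((n : ℝ) + 1)) (Fin.tail x)) := by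
    refine Finset.measurable_fun_sum _ fun k _ => ?_
    have h1 : Measurable fun x : Fin (d + 1) → ℝ => ((hat' (((n : ℝ) + 1) * x 0 - k) : ℝ) : ℂ) :=
      Complex.measurable_ofReal.comp (measurable_hat'.comp
        (by fun_prop : Measurable fun x : Fin (d + 1) → ℝ => ((n : ℝ) + 1) * x 0 - k))
    exact h1.smul (hF.comp (continuous_cons continuous_const continuous_tail)).measurable
  exact h2.const_smul (((n : ℝ) + 1 : ℝ) : ℂ)

theorem cons_tail (x : Fin (d + 1) → ℝ) : (Fin.cons (x 0) (Fin.tail x) : Fin (d + 1) → ℝ) = x :=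
  Fin.cons_self_tail x

section Limits

variable {R : ℝ} {F : (Fin (d + 1) → ℝ) → EuclideanSpace ℂ (Fin m)}

theorem In_eq (hF : SB R F) (n : ℕ) (x : Fin (d + 1) → ℝ) :
    In n R F x =
      ((1 - Int.fract (((n : ℝ) + 1) * x 0) : ℝ) : ℂ) •
        F (Fin.cons ((⌊((n : ℝ) + 1) * x 0⌋ : ℝ) / ((n : ℝ) + 1)) (Fin.tail x)) +
      ((Int.fract (((n : ℝ) + 1) * x 0) : ℝ) : ℂ) •
        F (Fin.cons (((⌊((n : ℝ) + 1) * x 0⌋ + 1 : ℤ) : ℝ) / ((n : ℝ) + 1)) (Fin.tail x)) := by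
  unfold In
  exact intp_eq (grid_zero hF n (Fin.tail x)) _

theorem Dn_eq (hF : SB R F) (n : ℕ) (x : Fin (d + 1) → ℝ) :
    Dn n R F x = (((n : ℝ) + 1 : ℝ) : ℂ) •
      (F (Fin.cons (((⌊((n : ℝ) + 1) * x 0⌋ + 1 : ℤ) : ℝ) / ((n : ℝ) + 1)) (Fin.tail x)) -
        F (Fin.cons ((⌊((n : ℝ) + 1) * x 0⌋ : ℝ) / ((n : ℝ) + 1)) (Fin.tail x))) := by
  unfold Dn
  rw [intp'_eq (grid_zero hF n (Fin.tail x))]

theorem floor_bounds (n : ℕ) (t : ℝ) :
    (⌊((n : ℝ) + 1) * t⌋ : ℝ) / ((n : ℝ) + 1) ≤ t ∧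
      t - 1 / ((n : ℝ) + 1) < (⌊((n : ℝ) + 1) * t⌋ : ℝ) / ((n : ℝ) + 1) ∧
      t < ((⌊((n : ℝ) + 1) * t⌋ + 1 : ℤ) : ℝ) / ((n : ℝ) + 1) ∧
      ((⌊((n : ℝ) + 1) * t⌋ + 1 : ℤ) : ℝ) / ((n : ℝ) + 1) ≤ t + 1 / ((n : ℝ) + 1) := by
  have hn : (0:ℝ) < (n : ℝ) + 1 := by positivity
  have h1 := Int.floor_le (((n : ℝ) + 1) * t)
  have h2 := Int.lt_floor_add_one (((n : ℝ) + 1) * t)
  push_cast
  refine ⟨?_, ?_, ?_, ?_⟩
  · rw [div_le_iff₀ hn]; linarith
  · rw [lt_div_iff₀ hn, sub_mul, div_mul_cancel₀ _ hn.ne']; linarith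
  · rw [lt_div_iff₀ hn]; linarith
  · have e : (t + 1 / ((n : ℝ) + 1)) * ((n : ℝ) + 1) = t * ((n : ℝ) + 1) + 1 := by field_simp
    rw [div_le_iff₀ hn, e]; linarith

theorem norm_In_le (hF : SB R F) {C : ℝ} (hC : ∀ x, ‖F x‖ ≤ C) (n : ℕ) (x : Fin (d + 1) → ℝ) :
    ‖In n R F x‖ ≤ C := by
  rw [In_eq hF]
  have h0 := Int.fract_nonneg (((n : ℝ) + 1) * x 0)
  have h1 := Int.fract_lt_one (((n : ℝ) + 1) * x 0)
  refine (norm_add_le _ _).trans ?_
  rw [norm_smul, norm_smul, Complex.norm_real, Complex.norm_real, Real.norm_of_nonneg h0,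
    Real.norm_of_nonneg (by linarith)]
  have a1 := mul_le_mul_of_nonneg_left
    (hC (Fin.cons ((⌊((n : ℝ) + 1) * x 0⌋ : ℝ) / ((n : ℝ) + 1)) (Fin.tail x)))
    (show 0 ≤ 1 - Int.fract (((n : ℝ) + 1) * x 0) by linarith)
  have a2 := mul_le_mul_of_nonneg_left
    (hC (Fin.cons (((⌊((n : ℝ) + 1) * x 0⌋ + 1 : ℤ) : ℝ) / ((n : ℝ) + 1)) (Fin.tail x))) h0
  linarith

theorem grid_big {x : Fin (d + 1) → ℝ} (hx : R + 1 < ‖x‖) (n : ℕ) {t : ℝ}
    (ht : |t - x 0| ≤ 1 / ((n : ℝ) + 1)) :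
    R < ‖(Fin.cons t (Fin.tail x) : Fin (d + 1) → ℝ)‖ := by
  have hn1 : 1 / ((n : ℝ) + 1) ≤ 1 := by
    rw [div_le_one (by positivity)]
    have : (0:ℝ) ≤ n := Nat.cast_nonneg n
    linarith
  have h1 := hx.trans_le (norm_le_of x)
  rcases lt_max_iff.1 h1 with h | h
  · refine lt_of_lt_of_le ?_ (norm_cons_ge _ _)
    have := abs_sub_abs_le_abs_sub (x 0) t
    rw [abs_sub_comm (x 0) t] at this
    linarith
  · refine lt_of_lt_of_le ?_ (norm_cons_ge' _ _)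
    linarith

theorem SB_In (hF : SB R F) (n : ℕ) : SB (R + 1) (In n R F) := by
  intro x hx
  obtain ⟨b1, b2, b3, b4⟩ := floor_bounds n (x 0)
  rw [In_eq hF, hF _ (grid_big hx n (by rw [abs_le]; constructor <;> linarith)),
    hF _ (grid_big hx n (by rw [abs_le]; constructor <;> linarith)), smul_zero, smul_zero,
    add_zero]

theorem SB_Dn (hF : SB R F) (n : ℕ) : SB (R + 1) (Dn n R F) := by
  intro x hx
  obtain ⟨b1, b2, b3, b4⟩ := floor_bounds n (x 0)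
  rw [Dn_eq hF, hF _ (grid_big hx n (by rw [abs_le]; constructor <;> linarith)),
    hF _ (grid_big hx n (by rw [abs_le]; constructor <;> linarith)), sub_zero, smul_zero]

theorem tendsto_one_div : Tendsto (fun n : ℕ => 1 / ((n : ℝ) + 1)) atTop (𝓝 0) :=
  tendsto_one_div_add_atTop_nhds_zero_nat

theorem tendsto_lo (t : ℝ) : Tendsto (fun n : ℕ => (⌊((n : ℝ) + 1) * t⌋ : ℝ) / ((n : ℝ) + 1))
    atTop (𝓝 t) := by
  have h1 : Tendsto (fun n : ℕ => t - 1 / ((n : ℝ) + 1)) atTop (𝓝 t) := by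
    have := tendsto_one_div.const_sub t
    simpa only [sub_zero] using this
  exact tendsto_of_tendsto_of_tendsto_of_le_of_le h1 tendsto_const_nhds
    (fun n => (floor_bounds n t).2.1.le) (fun n => (floor_bounds n t).1)

theorem tendsto_hi (t : ℝ) :
    Tendsto (fun n : ℕ => ((⌊((n : ℝ) + 1) * t⌋ + 1 : ℤ) : ℝ) / ((n : ℝ) + 1)) atTop (𝓝 t) := by
  have h1 : Tendsto (fun n : ℕ => t + 1 / ((n : ℝ) + 1)) atTop (𝓝 t) := by
    have := tendsto_one_div.const_add t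
    simpa only [add_zero] using this
  exact tendsto_of_tendsto_of_tendsto_of_le_of_le tendsto_const_nhds h1
    (fun n => (floor_bounds n t).2.2.1.le) (fun n => (floor_bounds n t).2.2.2)

theorem tendsto_In (hF : SB R F) (hFc : Continuous F) (x : Fin (d + 1) → ℝ) :
    Tendsto (fun n => In n R F x) atTop (𝓝 (F x)) := by
  have hcx : Continuous fun t : ℝ => F (Fin.cons t (Fin.tail x) : Fin (d + 1) → ℝ) :=
    hFc.comp (continuous_cons continuous_id continuous_const)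
  have hx : F (Fin.cons (x 0) (Fin.tail x) : Fin (d + 1) → ℝ) = F x := by rw [cons_tail]
  have h1 := (hcx.tendsto (x 0)).comp (tendsto_lo (x 0))
  have h2 := (hcx.tendsto (x 0)).comp (tendsto_hi (x 0))
  simp only [hx] at h1 h2
  rw [tendsto_iff_norm_sub_tendsto_zero] at h1 h2 ⊢
  have h3 := h1.add h2
  rw [add_zero] at h3
  refine squeeze_zero (fun n => norm_nonneg _) (fun n => ?_) h3
  simp only [Function.comp_apply]
  rw [In_eq hF]
  set θ := Int.fract (((n : ℝ) + 1) * x 0) with hθ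
  have h0 : 0 ≤ θ := Int.fract_nonneg _
  have h1' : θ < 1 := Int.fract_lt_one _
  set A := F (Fin.cons ((⌊((n : ℝ) + 1) * x 0⌋ : ℝ) / ((n : ℝ) + 1)) (Fin.tail x))
  set B := F (Fin.cons (((⌊((n : ℝ) + 1) * x 0⌋ + 1 : ℤ) : ℝ) / ((n : ℝ) + 1)) (Fin.tail x))
  have e : ((1 - θ : ℝ) : ℂ) • A + ((θ : ℝ) : ℂ) • B - F x =
      ((1 - θ : ℝ) : ℂ) • (A - F x) + ((θ : ℝ) : ℂ) • (B - F x) := by
    rw [smul_sub, smul_sub]
    have : F x = ((1 - θ : ℝ) : ℂ) • F x + ((θ : ℝ) : ℂ) • F x := by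
      rw [← add_smul, ← Complex.ofReal_add, sub_add_cancel, Complex.ofReal_one, one_smul]
    nth_rewrite 1 [this]
    abel
  rw [e]
  refine (norm_add_le _ _).trans ?_
  rw [norm_smul, norm_smul, Complex.norm_real, Complex.norm_real, Real.norm_of_nonneg h0,
    Real.norm_of_nonneg (by linarith)]
  refine add_le_add ?_ ?_
  · exact mul_le_of_le_one_left (norm_nonneg _) (by linarith)
  · exact mul_le_of_le_one_left (norm_nonneg _) h1'.le

theorem hasDerivAt_cons (y : Fin d → ℝ) (t : ℝ) :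
    HasDerivAt (fun t : ℝ => (Fin.cons t y : Fin (d + 1) → ℝ)) (Pi.single 0 1) t := by
  rw [hasDerivAt_pi]
  intro i
  refine Fin.cases ?_ (fun j => ?_) i
  · simpa using hasDerivAt_id' t
  · simp only [Fin.cons_succ]
    rw [Pi.single_eq_of_ne (Fin.succ_ne_zero j)]
    exact hasDerivAt_const t _

theorem hasDerivAt_slice (hF : ContDiff ℝ 1 F) (y : Fin d → ℝ) (t : ℝ) :
    HasDerivAt (fun t : ℝ => F (Fin.cons t y : Fin (d + 1) → ℝ)) (pd 0 F (Fin.cons t y)) t := by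
  have h1 : HasFDerivAt F (fderiv ℝ F (Fin.cons t y : Fin (d + 1) → ℝ)) (Fin.cons t y) :=
    ((hF.differentiable (by norm_num)) _).hasFDerivAt
  exact h1.comp_hasDerivAt t (hasDerivAt_cons y t)

theorem norm_Dn_le (hF : SB R F) (hFc : ContDiff ℝ 1 F) {C : ℝ} (hC : ∀ x, ‖pd 0 F x‖ ≤ C)
    (n : ℕ) (x : Fin (d + 1) → ℝ) : ‖Dn n R F x‖ ≤ C := by
  have hn : (0:ℝ) < (n : ℝ) + 1 := by positivity
  rw [Dn_eq hF, norm_smul, Complex.norm_real, Real.norm_of_nonneg hn.le]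
  obtain ⟨b1, b2, b3, b4⟩ := floor_bounds n (x 0)
  have h1 := Convex.norm_image_sub_le_of_norm_hasDerivWithin_le
    (f := fun t : ℝ => F (Fin.cons t (Fin.tail x) : Fin (d + 1) → ℝ))
    (f' := fun t => pd 0 F (Fin.cons t (Fin.tail x))) (s := univ) (C := C)
    (x := (⌊((n : ℝ) + 1) * x 0⌋ : ℝ) / ((n : ℝ) + 1))
    (y := ((⌊((n : ℝ) + 1) * x 0⌋ + 1 : ℤ) : ℝ) / ((n : ℝ) + 1))
    (fun t _ => (hasDerivAt_slice hFc (Fin.tail x) t).hasDerivWithinAt) (fun t _ => hC _)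
    convex_univ (mem_univ _) (mem_univ _)
  have h2 : ‖((⌊((n : ℝ) + 1) * x 0⌋ + 1 : ℤ) : ℝ) / ((n : ℝ) + 1) -
      (⌊((n : ℝ) + 1) * x 0⌋ : ℝ) / ((n : ℝ) + 1)‖ = 1 / ((n : ℝ) + 1) := by
    rw [← sub_div]
    push_cast
    rw [add_sub_cancel_left, Real.norm_of_nonneg (by positivity)]
  rw [h2] at h1
  calc ((n : ℝ) + 1) * _ ≤ ((n : ℝ) + 1) * (C * (1 / ((n : ℝ) + 1))) :=
        mul_le_mul_of_nonneg_left h1 hn.le
    _ = C := by field_simp

theorem tendsto_Dn (hF : SB R F) (hFc : ContDiff ℝ 1 F) (x : Fin (d + 1) → ℝ) :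
    Tendsto (fun n => Dn n R F x) atTop (𝓝 (pd 0 F x)) := by
  have hcd : Continuous (pd 0 F) := by
    have h : Continuous (fderiv ℝ F) := hFc.continuous_fderiv (by norm_num)
    exact h.clm_apply continuous_const
  have hcx : Continuous fun t : ℝ => pd 0 F (Fin.cons t (Fin.tail x) : Fin (d + 1) → ℝ) :=
    hcd.comp (continuous_cons continuous_id continuous_const)
  rw [Metric.tendsto_atTop]
  intro ε hε
  obtain ⟨δ, hδ, hδ'⟩ := Metric.continuous_iff.1 hcx (x 0) (ε / 2) (by linarith)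
  rw [cons_tail] at hδ'
  obtain ⟨n₀, hn₀⟩ := ((Metric.tendsto_atTop.1 tendsto_one_div) δ hδ)
  refine ⟨n₀, fun n hn => ?_⟩
  have hn' := hn₀ n hn
  have hnp : (0:ℝ) < (n : ℝ) + 1 := by positivity
  rw [Real.dist_eq, sub_zero, abs_of_pos (by positivity)] at hn'
  obtain ⟨b1, b2, b3, b4⟩ := floor_bounds n (x 0)
  set lo := (⌊((n : ℝ) + 1) * x 0⌋ : ℝ) / ((n : ℝ) + 1) with hlo
  set hi := ((⌊((n : ℝ) + 1) * x 0⌋ + 1 : ℤ) : ℝ) / ((n : ℝ) + 1) with hhi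
  have hlen : hi - lo = 1 / ((n : ℝ) + 1) := by
    rw [hhi, hlo, ← sub_div]
    push_cast
    rw [add_sub_cancel_left]
  have h1 := Convex.norm_image_sub_le_of_norm_hasDerivWithin_le
    (f := fun t : ℝ => F (Fin.cons t (Fin.tail x) : Fin (d + 1) → ℝ) - t • pd 0 F x)
    (f' := fun t => pd 0 F (Fin.cons t (Fin.tail x)) - (1 : ℝ) • pd 0 F x) (s := Icc lo hi)
    (C := ε / 2) (x := lo) (y := hi)
    (fun t _ => ((hasDerivAt_slice hFc (Fin.tail x) t).sub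
      ((hasDerivAt_id t).smul_const (pd 0 F x))).hasDerivWithinAt) (fun t ht => by
        rw [one_smul, ← dist_eq_norm]
        refine (hδ' t ?_).le
        rw [Real.dist_eq, abs_lt]
        constructor <;> linarith [ht.1, ht.2])
    (convex_Icc _ _) (left_mem_Icc.2 (by linarith)) (right_mem_Icc.2 (by linarith))
  rw [Real.norm_of_nonneg (by linarith : 0 ≤ hi - lo), hlen] at h1
  rw [dist_eq_norm, Dn_eq hF]
  have e : (((n : ℝ) + 1 : ℝ) : ℂ) • (F (Fin.cons hi (Fin.tail x)) - F (Fin.cons lo (Fin.tail x))) -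
      pd 0 F x = (((n : ℝ) + 1 : ℝ) : ℂ) • ((F (Fin.cons hi (Fin.tail x)) - hi • pd 0 F x) -
        (F (Fin.cons lo (Fin.tail x)) - lo • pd 0 F x)) := by
    have e1 : (F (Fin.cons hi (Fin.tail x)) - hi • pd 0 F x) -
        (F (Fin.cons lo (Fin.tail x)) - lo • pd 0 F x) =
        (F (Fin.cons hi (Fin.tail x)) - F (Fin.cons lo (Fin.tail x))) -
          (1 / ((n : ℝ) + 1)) • pd 0 F x := by
      rw [← hlen, sub_smul]; abel
    rw [e1, smul_sub _ _ ((1 / ((n : ℝ) + 1)) • pd 0 F x), Complex.coe_smul, Complex.coe_smul,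
      smul_smul, mul_one_div_cancel hnp.ne', one_smul]
  rw [e, norm_smul, Complex.norm_real, Real.norm_of_nonneg hnp.le]
  calc ((n : ℝ) + 1) * _ ≤ ((n : ℝ) + 1) * (ε / 2 * (1 / ((n : ℝ) + 1))) :=
        mul_le_mul_of_nonneg_left h1 hnp.le
    _ = ε / 2 := by field_simp
    _ < ε := by linarith

end Limits

end Vale.Agent.P371.H816
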