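import Vale.Agent.P371.H816.L5

set_option linter.all false

/-!
Lifting: the induction step.
-/

namespace Vale.Agent.P371.H816

open MeasureTheory Filter Topology Set Matrix
open Vale.Agent.P371 Vale.Agent.P371.G
open scoped ComplexOrder Matrix.Norms.L2Operator MatrixOrder ENNReal
open Vale.Agent.P371.DimLT (pd)

variable {N M m K d : ℕ}

theorem bdd_one : Bdd (fun _ : Fin d → ℝ => (1 : Matrix (Fin m) (Fin m) ℂ)) where
  measurable i j := measurable_const
  posSemidef x := PosSemidef.one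
  bound := ⟨‖(1 : Matrix (Fin m) (Fin m) ℂ)‖, fun _ => le_rfl⟩

/-- dominated convergence for forms -/
theorem dom {V : (Fin d → ℝ) → Matrix (Fin m) (Fin m) ℂ} (hV : Bdd V)
    {a b : ℕ → (Fin d → ℝ) → EuclideanSpace ℂ (Fin m)}
    {A B : (Fin d → ℝ) → EuclideanSpace ℂ (Fin m)} {R C : ℝ}
    (ha : ∀ n, AEStronglyMeasurable (a n) volume) (hb : ∀ n, AEStronglyMeasurable (b n) volume)
    (ca : ∀ n x, ‖a n x‖ ≤ C) (cb : ∀ n x, ‖b n x‖ ≤ C) (sa : ∀ n, SB R (a n))
    (la : ∀ x, Tendsto (fun n => a n x) atTop (𝓝 (A x)))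
    (lb : ∀ x, Tendsto (fun n => b n x) atTop (𝓝 (B x))) :
    Tendsto (fun n => ∫ x, (inner ℂ (a n x) (Matrix.toEuclideanLin (V x) (b n x)) : ℂ)) atTop
      (𝓝 (∫ x, (inner ℂ (A x) (Matrix.toEuclideanLin (V x) (B x)) : ℂ))) := by
  obtain ⟨B0, hB0⟩ := hV.bound
  have hC : 0 ≤ C := (norm_nonneg _).trans (ca 0 0)
  have hBn : 0 ≤ B0 := (norm_nonneg _).trans (hB0 0)
  refine tendsto_integral_of_dominated_convergence
    ((Metric.closedBall (0 : Fin d → ℝ) R).indicator fun _ => B0 * C * C)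
    (fun n => aesm_form' hV.measurable (ha n) (hb n)) ?_
    (fun n => Eventually.of_forall fun x => ?_) (Eventually.of_forall fun x => ?_)
  · rw [integrable_indicator_iff Metric.isClosed_closedBall.measurableSet]
    exact integrableOn_const (isCompact_closedBall 0 R).measure_lt_top.ne
  · by_cases hx : x ∈ Metric.closedBall (0 : Fin d → ℝ) R
    · rw [indicator_of_mem hx]
      refine (norm_inner_toEuclideanLin_le _ _ _).trans ?_
      exact mul_le_mul (mul_le_mul (hB0 x) (ca n x) (norm_nonneg _) hBn) (cb n x) (norm_nonneg _)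
        (mul_nonneg hBn hC)
    · rw [indicator_of_notMem hx]
      rw [Metric.mem_closedBall, dist_zero_right, not_le] at hx
      rw [sa n x hx, inner_zero_left, norm_zero]
  · refine (la x).inner ?_
    exact ((LinearMap.continuous_of_finiteDimensional (Matrix.toEuclideanLin (V x))).tendsto
      (B x)).comp (lb x)

theorem dom_gram {a b : ℕ → (Fin d → ℝ) → EuclideanSpace ℂ (Fin m)}
    {A B : (Fin d → ℝ) → EuclideanSpace ℂ (Fin m)} {R C : ℝ}
    (ha : ∀ n, AEStronglyMeasurable (a n) volume) (hb : ∀ n, AEStronglyMeasurable (b n) volume)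
    (ca : ∀ n x, ‖a n x‖ ≤ C) (cb : ∀ n x, ‖b n x‖ ≤ C) (sa : ∀ n, SB R (a n))
    (la : ∀ x, Tendsto (fun n => a n x) atTop (𝓝 (A x)))
    (lb : ∀ x, Tendsto (fun n => b n x) atTop (𝓝 (B x))) :
    Tendsto (fun n => ∫ x, (inner ℂ (a n x) (b n x) : ℂ)) atTop
      (𝓝 (∫ x, (inner ℂ (A x) (B x) : ℂ))) := by
  have h := dom bdd_one ha hb ca cb sa la lb
  simpa only [toEuclideanLin_one] using h

theorem exists_bound_family {ι X : Type*} [Fintype ι] [TopologicalSpace X] {E : Type*}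
    [NormedAddCommGroup E] (F : ι → X → E) (hF : ∀ i, Continuous (F i))
    (hF' : ∀ i, HasCompactSupport (F i)) : ∃ C, 0 ≤ C ∧ ∀ i x, ‖F i x‖ ≤ C := by
  choose c hc using fun i => (hF' i).exists_bound_of_continuous (hF i)
  refine ⟨∑ i, |c i|, Finset.sum_nonneg fun i _ => abs_nonneg _, fun i x => ?_⟩
  exact (hc i x).trans ((le_abs_self _).trans
    (Finset.single_le_sum (f := fun i => |c i|) (fun j _ => abs_nonneg _) (Finset.mem_univ i)))

theorem intp_ten {F : Finset ℤ} {a : ℤ → EuclideanSpace ℂ (Fin m)}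
    {c : ℤ → EuclideanSpace ℂ (Fin K)} {H : Fin K → EuclideanSpace ℂ (Fin m)}
    (h : ∀ k ∈ F, a k = ∑ l, (c k) l • H l) (t : ℝ) :
    intp F a t = ∑ l, (intp F c t) l • H l := by
  unfold intp
  have e : ∀ l, (∑ k ∈ F, ((hat (t - k) : ℝ) : ℂ) • c k : EuclideanSpace ℂ (Fin K)) l =
      ∑ k ∈ F, ((hat (t - k) : ℝ) : ℂ) * c k l := fun l => by simp
  simp_rw [e, Finset.sum_smul]
  rw [Finset.sum_comm]
  refine Finset.sum_congr rfl fun k hk => ?_
  rw [h k hk, Finset.smul_sum]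
  exact Finset.sum_congr rfl fun l _ => by rw [smul_smul]

theorem intp'_ten {F : Finset ℤ} {a : ℤ → EuclideanSpace ℂ (Fin m)}
    {c : ℤ → EuclideanSpace ℂ (Fin K)} {H : Fin K → EuclideanSpace ℂ (Fin m)}
    (h : ∀ k ∈ F, a k = ∑ l, (c k) l • H l) (t : ℝ) :
    intp' F a t = ∑ l, (intp' F c t) l • H l := by
  unfold intp'
  have e : ∀ l, (∑ k ∈ F, ((hat' (t - k) : ℝ) : ℂ) • c k : EuclideanSpace ℂ (Fin K)) l =
      ∑ k ∈ F, ((hat' (t - k) : ℝ) : ℂ) * c k l := fun l => by simp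
  simp_rw [e, Finset.sum_smul]
  rw [Finset.sum_comm]
  refine Finset.sum_congr rfl fun k hk => ?_
  rw [h k hk, Finset.smul_sum]
  exact Finset.sum_congr rfl fun l _ => by rw [smul_smul]

/-- `y ↦ (0, y)` -/
noncomputable def consL (d : ℕ) : (Fin d → ℝ) →L[ℝ] (Fin (d + 1) → ℝ) :=
  ContinuousLinearMap.pi fun i => Fin.cases 0 (fun j => ContinuousLinearMap.proj j) i

theorem hasFDerivAt_cons (t : ℝ) (y : Fin d → ℝ) :
    HasFDerivAt (fun y : Fin d → ℝ => (Fin.cons t y : Fin (d + 1) → ℝ)) (consL d) y := by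
  rw [hasFDerivAt_pi']
  intro i
  refine Fin.cases ?_ (fun j => ?_) i
  · have : (ContinuousLinearMap.proj (R := ℝ) (φ := fun _ : Fin (d + 1) => ℝ) 0) ∘L (consL d) =
        (0 : (Fin d → ℝ) →L[ℝ] ℝ) := by
      ext z; simp [consL]
    rw [this]
    simpa using hasFDerivAt_const t y
  · have : (ContinuousLinearMap.proj (R := ℝ) (φ := fun _ : Fin (d + 1) => ℝ) j.succ) ∘L
        (consL d) = ContinuousLinearMap.proj (R := ℝ) (φ := fun _ : Fin d => ℝ) j := by
      ext z; simp [consL]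
    rw [this]
    simp only [Fin.cons_succ]
    exact (ContinuousLinearMap.proj (R := ℝ) (φ := fun _ : Fin d => ℝ) j).hasFDerivAt

theorem consL_single (i : Fin d) :
    consL d (Pi.single i 1) = (Pi.single i.succ 1 : Fin (d + 1) → ℝ) := by
  ext k
  refine Fin.cases ?_ (fun j => ?_) k
  · rw [Pi.single_eq_of_ne (Fin.succ_ne_zero i).symm]
    simp [consL]
  · simp [consL, Pi.single_apply]

theorem pd_succ {F : (Fin (d + 1) → ℝ) → EuclideanSpace ℂ (Fin m)} (hF : Differentiable ℝ F)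
    (i : Fin d) (t : ℝ) (y : Fin d → ℝ) :
    pd i.succ F (Fin.cons t y) = pd i (fun y => F (Fin.cons t y)) y := by
  have h1 : HasFDerivAt F (fderiv ℝ F (Fin.cons t y : Fin (d + 1) → ℝ)) (Fin.cons t y) :=
    (hF _).hasFDerivAt
  have h2 := h1.comp y (hasFDerivAt_cons t y)
  unfold pd
  have h3 : fderiv ℝ (fun y : Fin d → ℝ => F (Fin.cons t y)) y =
      (fderiv ℝ F (Fin.cons t y : Fin (d + 1) → ℝ)) ∘L consL d := h2.fderiv
  rw [h3, ContinuousLinearMap.comp_apply, consL_single]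

theorem cc_slice {F : (Fin (d + 1) → ℝ) → EuclideanSpace ℂ (Fin m)} (hF : Cc F) (t : ℝ) :
    Cc fun y : Fin d → ℝ => F (Fin.cons t y) := by
  constructor
  · refine hF.1.comp ?_
    rw [contDiff_pi]
    intro i
    refine Fin.cases ?_ (fun j => ?_) i
    · simpa using contDiff_const
    · simp only [Fin.cons_succ]
      exact contDiff_apply ℝ ℝ j
  · obtain ⟨R, hR0, hR, -⟩ := hF.exists_R
    refine HasCompactSupport.intro (isCompact_closedBall (0 : Fin d → ℝ) R) fun y hy => ?_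
    rw [Metric.mem_closedBall, dist_zero_right, not_le] at hy
    exact hR _ (hy.trans_le (norm_cons_ge' t y))

theorem pd_sum {c : EuclideanSpace ℂ (Fin K)} {h : Fin K → (Fin d → ℝ) → EuclideanSpace ℂ (Fin m)}
    (hh : ∀ l, Cc (h l)) (i : Fin d) (y : Fin d → ℝ) :
    pd i (fun y => ∑ l, c l • h l y) y = ∑ l, c l • pd i (h l) y := by
  unfold pd
  have h1 : fderiv ℝ (fun x => ∑ j, c j • h j x) y = ∑ j, fderiv ℝ (fun x => c j • h j x) y :=
    fderiv_fun_sum fun j _ => ((hh j).differentiable y).const_smul (c j)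
  rw [h1, ContinuousLinearMap.sum_apply]
  refine Finset.sum_congr rfl fun j _ => ?_
  rw [fderiv_fun_const_smul ((hh j).differentiable y)]
  rfl

theorem mem_Gr_le {n : ℕ} {R : ℝ} {k : ℤ} (hk : k ∈ Gr n R) :
    |(k : ℝ) / ((n : ℝ) + 1)| ≤ R + 1 := by
  have hn : (0:ℝ) < (n : ℝ) + 1 := by positivity
  rw [Gr, Finset.mem_Icc] at hk
  have h1 := Int.ceil_lt_add_one (R * ((n : ℝ) + 1))
  have h2 : (k : ℝ) ≤ (⌈R * ((n : ℝ) + 1)⌉ : ℤ) := by exact_mod_cast hk.2
  have h3 : -((⌈R * ((n : ℝ) + 1)⌉ : ℤ) : ℝ) ≤ k := by exact_mod_cast hk.1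
  have h4 : (0:ℝ) ≤ n := Nat.cast_nonneg n
  rw [abs_div, abs_of_pos hn, div_le_iff₀ hn, abs_le]
  constructor <;> nlinarith

theorem intp_zero {E : Type*} [AddCommGroup E] [Module ℂ E] {n : ℕ} {R : ℝ} {c : ℤ → E}
    (hc : ∀ k ∉ Gr n R, c k = 0) {s : ℝ} (hs : R + 2 < |s|) :
    intp (Gr n R) c (((n : ℝ) + 1) * s) = 0 := by
  obtain ⟨b1, b2, b3, b4⟩ := floor_bounds n s
  have hn1 : 1 / ((n : ℝ) + 1) ≤ 1 := by
    rw [div_le_one (by positivity)]
    have : (0:ℝ) ≤ n := Nat.cast_nonneg n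
    linarith
  rw [intp_eq hc, hc, hc, smul_zero, smul_zero, add_zero]
  · intro h
    have h1 := mem_Gr_le h
    rw [abs_le] at h1
    rcases lt_abs.1 hs with h2 | h2 <;> linarith [h1.1, h1.2]
  · intro h
    have h1 := mem_Gr_le h
    rw [abs_le] at h1
    rcases lt_abs.1 hs with h2 | h2 <;> linarith [h1.1, h1.2]

end Vale.Agent.P371.H816
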