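import Vale.Agent.P371.H816.L6

set_option linter.all false

/-!
Lifting: the sliced operator.
-/

namespace Vale.Agent.P371.H816

open MeasureTheory Filter Topology Set Matrix
open Vale.Agent.P371 Vale.Agent.P371.G
open scoped ComplexOrder Matrix.Norms.L2Operator MatrixOrder ENNReal
open Vale.Agent.P371.DimLT (pd)

variable {N M m K d : ℕ}

theorem locInt_Bm {S : (Fin (d + 1) → ℝ) → Matrix (Fin m) (Fin m) ℂ} (hS : Bdd S)
    {h h' : Fin K → (Fin d → ℝ) → EuclideanSpace ℂ (Fin m)}
    (hh : ∀ k, Continuous (h k)) (hh' : ∀ k, Continuous (h' k))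
    (hl : ∀ k, MemLp (h k) 2 volume) (hl' : ∀ k, MemLp (h' k) 2 volume) :
    LocallyIntegrable (Bm S h h') volume := by
  obtain ⟨B, hB⟩ := hS.bound
  have hB0 : 0 ≤ B := (norm_nonneg _).trans (hB 0)
  refine locallyIntegrable_of_entries fun l l' => ?_
  have i2 : Integrable (fun y : Fin d → ℝ => B * (‖h l y‖ ^ 2 + ‖h' l' y‖ ^ 2)) volume :=
    (((hl l).integrable_norm_pow (by norm_num)).add
      ((hl' l').integrable_norm_pow (by norm_num))).const_mul B
  refine (locallyIntegrable_const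
    ((∫ y : Fin d → ℝ, B * (‖h l y‖ ^ 2 + ‖h' l' y‖ ^ 2) : ℝ) : ℝ)).mono
    (measurable_Bm hS hh hh' l l').aestronglyMeasurable (Eventually.of_forall fun s => ?_)
  rw [Bm, of_apply]
  refine (norm_integral_le_of_norm_le i2 (Eventually.of_forall fun y => ?_)).trans (le_abs_self _)
  refine (norm_inner_toEuclideanLin_le _ _ _).trans ?_
  have h2 : ‖h l y‖ * ‖h' l' y‖ ≤ ‖h l y‖ ^ 2 + ‖h' l' y‖ ^ 2 := by
    nlinarith only [sq_nonneg (‖h l y‖ - ‖h' l' y‖), sq_nonneg (‖h l y‖), sq_nonneg (‖h' l' y‖)]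
  rw [mul_assoc]
  exact mul_le_mul (hB _) h2 (by positivity) hB0

/-- The sliced operator. -/
noncomputable def Sl (V : (Fin (d + 1) → ℝ) → Matrix (Fin m) (Fin m) ℂ)
    (h : Fin K → (Fin d → ℝ) → EuclideanSpace ℂ (Fin m)) (s : ℝ) : Matrix (Fin K) (Fin K) ℂ :=
  Lam (fun y : Fin d → ℝ => V (Fin.cons s y : Fin (d + 1) → ℝ)) h

theorem Sl_eq (V : (Fin (d + 1) → ℝ) → Matrix (Fin m) (Fin m) ℂ)
    (h : Fin K → (Fin d → ℝ) → EuclideanSpace ℂ (Fin m)) (s : ℝ) :
    Sl V h s = Bm V h h s - ∑ k : Fin d, gram volume (fun j => pd k (h j)) := rfl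

theorem Sl_isHermitian {V : (Fin (d + 1) → ℝ) → Matrix (Fin m) (Fin m) ℂ} (hV : Bdd V)
    (h : Fin K → (Fin d → ℝ) → EuclideanSpace ℂ (Fin m)) (s : ℝ) : (Sl V h s).IsHermitian :=
  Lam_isHermitian (fun y => hV.posSemidef _) h

theorem measurable_Sl {V : (Fin (d + 1) → ℝ) → Matrix (Fin m) (Fin m) ℂ} (hV : Bdd V)
    {h : Fin K → (Fin d → ℝ) → EuclideanSpace ℂ (Fin m)} (hh : ∀ k, Cc (h k)) (l l' : Fin K) :
    Measurable fun s => Sl V h s l l' := by
  simp only [Sl_eq, Matrix.sub_apply]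
  exact (measurable_Bm hV (fun k => (hh k).continuous) (fun k => (hh k).continuous) l l').sub
    measurable_const

theorem locInt_Sl {V : (Fin (d + 1) → ℝ) → Matrix (Fin m) (Fin m) ℂ} (hV : Bdd V)
    {h : Fin K → (Fin d → ℝ) → EuclideanSpace ℂ (Fin m)} (hh : ∀ k, Cc (h k)) :
    LocallyIntegrable (Sl V h) volume :=
  (locInt_Bm hV (fun k => (hh k).continuous) (fun k => (hh k).continuous)
    (fun k => (hh k).memLp) (fun k => (hh k).memLp)).sub (locallyIntegrable_const _)

/-- the positive part of the sliced operator is a potential, with the right integral -/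
theorem slice_pot {γ C : ℝ} (hγ : 1 / 2 < γ) (hC : 0 ≤ C) (h0 : LP d m (γ + 1 / 2) C)
    {V : (Fin (d + 1) → ℝ) → Matrix (Fin m) (Fin m) ℂ} (hV : Bdd V)
    (hJ : ∫⁻ x, ENNReal.ofReal (trPow (γ + (d + 1 : ℕ) / 2) (V x)) ≠ ⊤)
    {h : Fin K → (Fin d → ℝ) → EuclideanSpace ℂ (Fin m)} (hh : ∀ k, Cc (h k))
    (ho : gram volume h = 1) :
    IsPotential (γ + 1 / 2) (fun s => pp (Sl V h s)) ∧
      ∫ s, trPow (γ + 1 / 2) (pp (Sl V h s)) ≤
        C * (∫⁻ x, ENNReal.ofReal (trPow (γ + (d + 1 : ℕ) / 2) (V x))).toReal := by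
  have hp : 0 < γ + 1 / 2 := by linarith
  have hmeas : ∀ i j, Measurable fun s => pp (Sl V h s) i j :=
    measurable_pp (measurable_Sl hV hh) (Sl_isHermitian hV h)
  have hpsd : ∀ s, (pp (Sl V h s)).PosSemidef := fun s => pp_posSemidef _
  have hm1 : Measurable fun s => trPow (γ + 1 / 2) (pp (Sl V h s)) := measurable_trPow hp hmeas hpsd
  have hm2 : Measurable fun x => ENNReal.ofReal (trPow (γ + (d + 1 : ℕ) / 2) (V x)) :=
    (measurable_trPow (by positivity) hV.measurable hV.posSemidef).ennreal_ofReal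
  have key : ∫⁻ s, ENNReal.ofReal (trPow (γ + 1 / 2) (pp (Sl V h s))) ≤
      ENNReal.ofReal C * ∫⁻ x, ENNReal.ofReal (trPow (γ + (d + 1 : ℕ) / 2) (V x)) := by
    rw [lintegral_cons hm2, ← lintegral_const_mul' _ _ ENNReal.ofReal_ne_top]
    refine lintegral_mono fun s => ?_
    rw [trPow_pp (Sl_isHermitian hV h s) hp]
    have h1 := h0.trPos_le hp (bdd_slice hV s) hh ho
    have e : γ + 1 / 2 + (d : ℝ) / 2 = γ + ((d + 1 : ℕ) : ℝ) / 2 := by push_cast; ring
    rw [e] at h1
    exact h1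
  have hfin : ENNReal.ofReal C * ∫⁻ x, ENNReal.ofReal (trPow (γ + (d + 1 : ℕ) / 2) (V x)) ≠ ⊤ :=
    ENNReal.mul_ne_top ENNReal.ofReal_ne_top hJ
  have hnn : ∀ s, 0 ≤ trPow (γ + 1 / 2) (pp (Sl V h s)) := fun s => trPow_nonneg' (hpsd s) _
  constructor
  · refine ⟨hmeas, hpsd, ?_⟩
    exact (lintegral_ofReal_ne_top_iff_integrable hm1.aestronglyMeasurable
      (Eventually.of_forall hnn)).1 (ne_top_of_le_ne_top hfin key)
  · rw [integral_eq_lintegral_of_nonneg_ae (Eventually.of_forall hnn) hm1.aestronglyMeasurable]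
    refine (ENNReal.toReal_mono hfin key).trans ?_
    rw [ENNReal.toReal_mul, ENNReal.toReal_ofReal hC]

/-- the Gram matrix of products -/
theorem gram_ten {h : Fin K → (Fin d → ℝ) → EuclideanSpace ℂ (Fin m)} (hh : ∀ k, Continuous (h k))
    (hl : ∀ k, MemLp (h k) 2 volume) {u : Fin N → ℝ → EuclideanSpace ℂ (Fin K)}
    (hu : ∀ j, MemLp (u j) 2 volume) :
    gram volume (fun j => ten (u j) h) =
      Matrix.of fun i j => ∫ s, (inner ℂ (u i s) (Matrix.toEuclideanLin (gram volume h) (u j s)) : ℂ) := by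
  ext i j
  have h1 := fubini (bdd_one (d := d + 1) (m := m)) hh hh hl hl (hu i) (hu j)
  simp only [toEuclideanLin_one] at h1
  rw [gram, of_apply, of_apply, h1]
  refine integral_congr_ae (Eventually.of_forall fun s => ?_)
  simp only
  have : Bm (fun _ : Fin (d + 1) → ℝ => (1 : Matrix (Fin m) (Fin m) ℂ)) h h s = gram volume h := by
    ext l l'
    simp only [Bm, gram, of_apply, toEuclideanLin_one]
  rw [this]

theorem slice_le {V : (Fin (d + 1) → ℝ) → Matrix (Fin m) (Fin m) ℂ} (hV : Bdd V)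
    {h : Fin K → (Fin d → ℝ) → EuclideanSpace ℂ (Fin m)} (hh : ∀ k, Cc (h k))
    (ho : gram volume h = 1) {u u' : Fin N → ℝ → EuclideanSpace ℂ (Fin K)}
    (hu : ∀ j, IsH1 (u j) (u' j)) {a : ℝ} (ha : 0 < a) (hs : ∀ j s, a ≤ |s| → u j s = 0)
    (hWl : LocallyIntegrable (fun s => pp (Sl V h s)) volume) :
    (LamM a (fun s => pp (Sl V h s)) u u' -
      ((Matrix.of fun i j => ∫ x, (inner ℂ (ten (u i) h x)
          (Matrix.toEuclideanLin (V x) (ten (u j) h x)) : ℂ)) -
        (gram volume (fun j => ten (u' j) h) +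
          ∑ k : Fin d, gram volume (fun j => ten (u j) (fun l => pd k (h l)))))).PosSemidef := by
  have hc : ∀ k, Continuous (h k) := fun k => (hh k).continuous
  have hl : ∀ k, MemLp (h k) 2 volume := fun k => (hh k).memLp
  have hul : ∀ j, MemLp (u j) 2 volume := fun j => (hu j).memLp
  have hul' : ∀ j, MemLp (u' j) 2 volume := fun j => (hu j).memLp_deriv
  have e1 : gram volume (fun j => ten (u' j) h) = gram volume u' := by
    rw [gram_ten hc hl hul', ho]
    ext i j
    simp only [gram, of_apply, toEuclideanLin_one]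
  -- restriction to the window
  have hz : ∀ (S : ℝ → Matrix (Fin K) (Fin K) ℂ) (i j : Fin N),
      ∫ s, (inner ℂ (u i s) (Matrix.toEuclideanLin (S s) (u j s)) : ℂ) =
      ∫ s in Ioc (-a) a, (inner ℂ (u i s) (Matrix.toEuclideanLin (S s) (u j s)) : ℂ) := by
    intro S i j
    symm
    refine setIntegral_eq_integral_of_forall_compl_eq_zero fun s hs' => ?_
    rw [mem_Ioc, not_and_or, not_lt, not_le] at hs'
    have : a ≤ |s| := by
      rcases hs' with h | h
      · rw [le_abs]; right; linarith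
      · rw [le_abs]; left; linarith
    rw [hs i s this, inner_zero_left]
  have hint : ∀ {S : ℝ → Matrix (Fin K) (Fin K) ℂ}, LocallyIntegrable S volume → ∀ i j,
      IntegrableOn (fun s => (inner ℂ (u i s) (Matrix.toEuclideanLin (S s) (u j s)) : ℂ))
        (Ioc (-a) a) volume := fun hS i j =>
    (intervalIntegrable_iff_integrableOn_Ioc_of_le (by linarith)).1
      (intervalIntegrable_form hS hu i j (-a) a)
  have hpdc : ∀ k j, Continuous (pd k (h j)) := fun k j => (hh j).continuous_pd k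
  have hpdl : ∀ k j, MemLp (pd k (h j)) 2 volume := fun k j => (hh j).memLp_pd k
  have e2 : (Matrix.of fun i j => ∫ x, (inner ℂ (ten (u i) h x)
      (Matrix.toEuclideanLin (V x) (ten (u j) h x)) : ℂ)) - 
        (∑ k : Fin d, gram volume (fun j => ten (u j) (fun l => pd k (h l)))) =
      Matrix.of fun i j => ∫ s in Ioc (-a) a,
        (inner ℂ (u i s) (Matrix.toEuclideanLin (Sl V h s) (u j s)) : ℂ) := by
    ext i j
    rw [Matrix.sub_apply, Matrix.sum_apply, of_apply, of_apply,
      fubini hV hc hc hl hl (hul i) (hul j), hz]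
    have e3 : ∀ k, gram volume (fun j => ten (u j) (fun l => pd k (h l))) i j =
        ∫ s in Ioc (-a) a, (inner ℂ (u i s)
          (Matrix.toEuclideanLin (gram volume (fun j => pd k (h j))) (u j s)) : ℂ) := by
      intro k
      rw [gram_ten (hpdc k) (hpdl k) hul, of_apply]
      exact hz (fun _ => gram volume (fun j => pd k (h j))) i j
    simp_rw [e3]
    rw [← integral_finset_sum _ fun k _ => hint (locallyIntegrable_const _) i j,
      ← integral_sub (hint (locInt_Bm hV hc hc hl hl) i j)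
        (integrable_finset_sum _ fun k _ => hint (locallyIntegrable_const _) i j)]
    refine integral_congr_ae (Eventually.of_forall fun s => ?_)
    simp only
    rw [Sl_eq, map_sub, map_sum, LinearMap.sub_apply, LinearMap.sum_apply, inner_sub_right,
      inner_sum]
  have e4 : LamM a (fun s => pp (Sl V h s)) u u' -
      ((Matrix.of fun i j => ∫ x, (inner ℂ (ten (u i) h x)
          (Matrix.toEuclideanLin (V x) (ten (u j) h x)) : ℂ)) -
        (gram volume (fun j => ten (u' j) h) +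
          ∑ k : Fin d, gram volume (fun j => ten (u j) (fun l => pd k (h l))))) =
      Matrix.of fun i j => ∫ s in Ioc (-a) a,
        (inner ℂ (u i s) (Matrix.toEuclideanLin (pp (Sl V h s) - Sl V h s) (u j s)) : ℂ) := by
    rw [LamM_eq_sub ha.le, e1]
    have e5 : (Matrix.of fun i j => ∫ x, (inner ℂ (ten (u i) h x)
          (Matrix.toEuclideanLin (V x) (ten (u j) h x)) : ℂ)) -
        (gram volume u' + ∑ k : Fin d, gram volume (fun j => ten (u j) (fun l => pd k (h l)))) =
        (Matrix.of fun i j => ∫ s in Ioc (-a) a,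
          (inner ℂ (u i s) (Matrix.toEuclideanLin (Sl V h s) (u j s)) : ℂ)) - gram volume u' := by
      rw [← e2]
      abel
    rw [e5, sub_sub_sub_cancel_right]
    ext i j
    rw [Matrix.sub_apply, of_apply, of_apply, of_apply,
      ← integral_sub (hint hWl i j) (hint (locInt_Sl hV hh) i j)]
    refine integral_congr_ae (Eventually.of_forall fun s => ?_)
    simp only
    rw [map_sub, LinearMap.sub_apply, inner_sub_right]
  rw [e4]
  refine form_psd (fun s => pp_sub_posSemidef (Sl_isHermitian hV h s)) fun i j => ?_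
  have h5 := (hint hWl i j).sub (hint (locInt_Sl hV hh) i j)
  refine h5.congr (Eventually.of_forall fun s => ?_)
  simp only [Pi.sub_apply]
  rw [map_sub, LinearMap.sub_apply, inner_sub_right]

end Vale.Agent.P371.H816
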