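import Vale.Agent.P371.H816.L7

set_option linter.all false

/-!
Lifting: the induction step.
-/

namespace Vale.Agent.P371.H816

open MeasureTheory Filter Topology Set Matrix
open Vale.Agent.P371 Vale.Agent.P371.G
open scoped ComplexOrder Matrix.Norms.L2Operator MatrixOrder ENNReal
open Vale.Agent.P371.DimLT (pd)

variable {N M m K d : ℕ}

theorem slice_data (n : ℕ) {R : ℝ} {f : Fin N → (Fin (d + 1) → ℝ) → EuclideanSpace ℂ (Fin m)}
    (hf : ∀ j, Cc (f j)) (hR : ∀ j, SB R (f j)) :
    ∃ (K : ℕ) (h : Fin K → (Fin d → ℝ) → EuclideanSpace ℂ (Fin m))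
      (u u' : Fin N → ℝ → EuclideanSpace ℂ (Fin K)),
      (∀ k, Cc (h k)) ∧ gram volume h = 1 ∧ (∀ j, IsH1 (u j) (u' j)) ∧
      (∀ j s, R + 3 ≤ |s| → u j s = 0) ∧ (∀ j, In n R (f j) = ten (u j) h) ∧
      (∀ j, Dn n R (f j) = ten (u' j) h) ∧
      (∀ j (k : Fin d), In n R (pd k.succ (f j)) = ten (u j) (fun l => pd k (h l))) := by
  classical
  obtain ⟨K, h, hh, ho, c, hc⟩ := exists_onb
    (fun (p : Fin N × {k : ℤ // k ∈ Gr n R}) (y : Fin d → ℝ) =>
      f p.1 (Fin.cons (((p.2.1 : ℤ) : ℝ) / ((n : ℝ) + 1)) y : Fin (d + 1) → ℝ))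
    (fun p => cc_slice (hf p.1) _)
  set cj : Fin N → ℤ → EuclideanSpace ℂ (Fin K) := fun j k =>
    if hk : k ∈ Gr n R then c (j, ⟨k, hk⟩) else 0 with hcj
  have hcj0 : ∀ j, ∀ k ∉ Gr n R, cj j k = 0 := fun j k hk => by rw [hcj]; exact dif_neg hk
  have hcj1 : ∀ j, ∀ k ∈ Gr n R, ∀ y : Fin d → ℝ,
      f j (Fin.cons ((k : ℝ) / ((n : ℝ) + 1)) y : Fin (d + 1) → ℝ) = ∑ l, (cj j k) l • h l y := by
    intro j k hk y
    have h1 : cj j k = c (j, ⟨k, hk⟩) := by rw [hcj]; exact dif_pos hk
    rw [h1]
    exact hc (j, ⟨k, hk⟩) y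
  refine ⟨K, h, fun j s => intp (Gr n R) (cj j) (((n : ℝ) + 1) * s),
    fun j s => (((n : ℝ) + 1 : ℝ) : ℂ) • intp' (Gr n R) (cj j) (((n : ℝ) + 1) * s), hh, ho,
    fun j => isH1_intp n (Gr n R) (cj j), fun j s hs => intp_zero (hcj0 j) (by linarith),
    fun j => ?_, fun j => ?_, fun j k => ?_⟩
  · funext x
    exact intp_ten (fun k hk => hcj1 j k hk (Fin.tail x)) _
  · funext x
    unfold Dn ten
    rw [intp'_ten (fun k hk => hcj1 j k hk (Fin.tail x)), Finset.smul_sum]
    refine Finset.sum_congr rfl fun l _ => ?_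
    rw [smul_smul, PiLp.smul_apply, smul_eq_mul]
  · funext x
    refine intp_ten (fun k' hk => ?_) _
    rw [pd_succ (hf j).differentiable]
    have h1 : (fun y : Fin d → ℝ => f j (Fin.cons ((k' : ℝ) / ((n : ℝ) + 1)) y : Fin (d + 1) → ℝ)) =
        fun y => ∑ l, (cj j k') l • h l y := funext fun y => hcj1 j k' hk y
    rw [h1, pd_sum hh]

theorem tendsto_entries {A : ℕ → Matrix (Fin N) (Fin N) ℂ} {B : Matrix (Fin N) (Fin N) ℂ}
    (h : ∀ i j, Tendsto (fun n => A n i j) atTop (𝓝 (B i j))) : Tendsto A atTop (𝓝 B) := by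
  refine tendsto_pi_nhds.2 fun i => tendsto_pi_nhds.2 fun j => h i j

theorem LP_step {γ C1 C : ℝ} (hγ : 1 / 2 < γ) (h1 : 0 < C1) (h2 : 0 < C)
    (hM : ∀ N m, MainHyp γ C1 N m) (h0 : LP d m (γ + 1 / 2) C) : LP (d + 1) m γ (C1 * C) := by
  intro N V f hV hf ho hpos
  set J := ∫⁻ x, ENNReal.ofReal (trPow (γ + ((d + 1 : ℕ) : ℝ) / 2) (V x)) with hJd
  by_cases hJ : J = ⊤
  · rw [hJ, ENNReal.mul_top (ENNReal.ofReal_pos.2 (mul_pos h1 h2)).ne']
    exact le_top
  choose Rj hRj0 hRj1 hRj2 using fun j => (hf j).exists_R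
  set R := ∑ j, Rj j with hRd
  have hRle : ∀ j, Rj j ≤ R := fun j =>
    Finset.single_le_sum (f := Rj) (fun j _ => hRj0 j) (Finset.mem_univ j)
  have hR0 : 0 ≤ R := Finset.sum_nonneg fun j _ => hRj0 j
  have hR1 : ∀ j, SB R (f j) := fun j => (hRj1 j).mono (hRle j)
  have hR2 : ∀ j i, SB R (pd i (f j)) := fun j i => (hRj2 j i).mono (hRle j)
  obtain ⟨C0, -, hC0⟩ := exists_bound_family f (fun j => (hf j).continuous) (fun j => (hf j).2)
  obtain ⟨C0', -, hC0'⟩ := exists_bound_family (fun p : Fin N × Fin (d + 1) => pd p.2 (f p.1))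
    (fun p => (hf p.1).continuous_pd p.2) (fun p => (hf p.1).hasCompactSupport_pd p.2)
  choose Kn hn un un' hh ho' hu hus hIn hDn hpd using fun n => slice_data n hf hR1
  set L : ℕ → Matrix (Fin N) (Fin N) ℂ := fun n =>
    (Matrix.of fun i j => ∫ x, (inner ℂ (In n R (f i) x)
      (Matrix.toEuclideanLin (V x) (In n R (f j) x)) : ℂ)) -
      (gram volume (fun j => Dn n R (f j)) +
        ∑ k : Fin d, gram volume (fun j => In n R (pd k.succ (f j)))) with hL
  have hLt : Tendsto L atTop (𝓝 (Lam V f)) := by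
    have e : Lam V f = (Matrix.of fun i j => ∫ x, (inner ℂ (f i x)
        (Matrix.toEuclideanLin (V x) (f j x)) : ℂ)) -
        (gram volume (fun j => pd 0 (f j)) +
          ∑ k : Fin d, gram volume (fun j => pd k.succ (f j))) := by
      rw [Lam, Fin.sum_univ_succ]
    rw [e]
    refine Tendsto.sub ?_ (Tendsto.add ?_ (tendsto_finset_sum _ fun k _ => ?_))
    · refine tendsto_entries fun i j => ?_
      simp only [of_apply]
      exact dom hV (R := R + 1) (C := C0) (fun n => (continuous_In n R (hf i).continuous).aestronglyMeasurable)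
        (fun n => (continuous_In n R (hf j).continuous).aestronglyMeasurable)
        (fun n x => norm_In_le (hR1 i) (hC0 i) n x) (fun n x => norm_In_le (hR1 j) (hC0 j) n x)
        (fun n => SB_In (hR1 i) n) (fun x => tendsto_In (hR1 i) (hf i).continuous x)
        (fun x => tendsto_In (hR1 j) (hf j).continuous x)
    · refine tendsto_entries fun i j => ?_
      simp only [gram, of_apply]
      exact dom_gram (R := R + 1) (C := C0')
        (fun n => (measurable_Dn n R (hf i).continuous).aestronglyMeasurable)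
        (fun n => (measurable_Dn n R (hf j).continuous).aestronglyMeasurable)
        (fun n x => norm_Dn_le (hR1 i) (hf i).1 (hC0' (i, 0)) n x)
        (fun n x => norm_Dn_le (hR1 j) (hf j).1 (hC0' (j, 0)) n x)
        (fun n => SB_Dn (hR1 i) n) (fun x => tendsto_Dn (hR1 i) (hf i).1 x)
        (fun x => tendsto_Dn (hR1 j) (hf j).1 x)
    · refine tendsto_entries fun i j => ?_
      simp only [gram, of_apply]
      exact dom_gram (R := R + 1) (C := C0')
        (fun n => (continuous_In n R ((hf i).continuous_pd _)).aestronglyMeasurable)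
        (fun n => (continuous_In n R ((hf j).continuous_pd _)).aestronglyMeasurable)
        (fun n x => norm_In_le (hR2 i _) (hC0' (i, k.succ)) n x)
        (fun n x => norm_In_le (hR2 j _) (hC0' (j, k.succ)) n x)
        (fun n => SB_In (hR2 i _) n) (fun x => tendsto_In (hR2 i _) ((hf i).continuous_pd _) x)
        (fun x => tendsto_In (hR2 j _) ((hf j).continuous_pd _) x)
  have hGt : Tendsto (fun n => gram volume (un n)) atTop (𝓝 1) := by
    have e : ∀ n, gram volume (un n) = gram volume (fun j => In n R (f j)) := by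
      intro n
      simp_rw [hIn n]
      rw [gram_ten (fun k => (hh n k).continuous) (fun k => (hh n k).memLp)
        (fun j => (hu n j).memLp), ho' n]
      ext i j
      simp only [gram, of_apply, toEuclideanLin_one]
    simp_rw [e, ← ho]
    refine tendsto_entries fun i j => ?_
    simp only [gram, of_apply]
    exact dom_gram (R := R + 1) (C := C0)
      (fun n => (continuous_In n R (hf i).continuous).aestronglyMeasurable)
      (fun n => (continuous_In n R (hf j).continuous).aestronglyMeasurable)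
      (fun n x => norm_In_le (hR1 i) (hC0 i) n x) (fun n x => norm_In_le (hR1 j) (hC0 j) n x)
      (fun n => SB_In (hR1 i) n) (fun x => tendsto_In (hR1 i) (hf i).continuous x)
      (fun x => tendsto_In (hR1 j) (hf j).continuous x)
  have hpot := fun n => slice_pot hγ h2.le h0 hV hJ (hh n) (ho' n)
  have hmain := lim_principle2 hγ h1.le (fun m => hM N m) hpos Kn (fun _ => R + 3)
    (fun _ => by linarith) (fun n s => pp (Sl V (hn n) s)) (fun n => (hpot n).1) un un' hu hGt L
    (fun n => ?_) (fun n => ?_) hLt (I := C * J.toReal) (fun n => (hpot n).2)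
  · refine (ENNReal.ofReal_le_ofReal hmain).trans (le_of_eq ?_)
    rw [← mul_assoc, ENNReal.ofReal_mul (mul_pos h1 h2).le, ENNReal.ofReal_toReal hJ]
  · refine IsHermitian.sub ?_ (IsHermitian.add (gram_isHermitian volume _) ?_)
    · ext i j
      rw [conjTranspose_apply, of_apply, of_apply, Complex.star_def, ← integral_conj]
      simp only [inner_symm_herm (hV.posSemidef _).isHermitian]
    · rw [IsHermitian, conjTranspose_sum]
      exact Finset.sum_congr rfl fun k _ => gram_isHermitian volume _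
  · have h3 := slice_le hV (hh n) (ho' n) (hu n) (a := R + 3) (by linarith) (hus n)
      (locInt (by linarith) (hpot n).1)
    have e : L n = ((Matrix.of fun i j => ∫ x, (inner ℂ (ten (un n i) (hn n) x)
          (Matrix.toEuclideanLin (V x) (ten (un n j) (hn n) x)) : ℂ)) -
        (gram volume (fun j => ten (un' n j) (hn n)) +
          ∑ k : Fin d, gram volume (fun j => ten (un n j) (fun l => pd k (hn n l))))) := by
      simp only [hL, hIn n, hDn n, hpd n]
    rw [e]
    exact h3

end Vale.Agent.P371.H816
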