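import Vale.Agent.P371.H816.L8

set_option linter.all false

/-!
Lifting: the base case and the constants.
-/

namespace Vale.Agent.P371.H816

open MeasureTheory Filter Topology Set Matrix
open Vale.Agent.P371 Vale.Agent.P371.G
open scoped ComplexOrder Matrix.Norms.L2Operator MatrixOrder ENNReal
open Vale.Agent.P371.DimLT (pd)

variable {N M m K d : ℕ}

theorem integral_fin0 {E : Type*} [NormedAddCommGroup E] [NormedSpace ℝ E] [CompleteSpace E]
    (F : (Fin 0 → ℝ) → E) : ∫ x, F x = F 0 := by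
  rw [volume_pi, Measure.pi_of_empty _ (0 : Fin 0 → ℝ), integral_dirac]

theorem lintegral_fin0 (F : (Fin 0 → ℝ) → ℝ≥0∞) : ∫⁻ x, F x = F 0 := by
  rw [volume_pi, Measure.pi_of_empty _ (0 : Fin 0 → ℝ), lintegral_dirac]

theorem one_sub_mul_conjTranspose_psd {r : Matrix (Fin K) (Fin N) ℂ} (hr : rᴴ * r = 1) :
    (1 - r * rᴴ).PosSemidef := by
  have h1 : (1 - r * rᴴ) = (1 - r * rᴴ)ᴴ * (1 - r * rᴴ) := by
    rw [conjTranspose_sub, conjTranspose_one, conjTranspose_mul, conjTranspose_conjTranspose,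
      Matrix.sub_mul, Matrix.mul_sub, Matrix.mul_sub, Matrix.one_mul, Matrix.one_mul,
      Matrix.mul_one]
    have e : r * rᴴ * (r * rᴴ) = r * rᴴ := by
      rw [Matrix.mul_assoc, ← Matrix.mul_assoc rᴴ, hr, Matrix.one_mul]
    rw [e, sub_self, sub_zero]
  rw [h1]
  exact posSemidef_conjTranspose_mul_self _

theorem LP_zero {γ : ℝ} (hγ : 1 ≤ γ) : LP 0 m γ 1 := by
  intro N V f hV hf ho hpos
  rw [ENNReal.ofReal_one, one_mul, lintegral_fin0]
  refine ENNReal.ofReal_le_ofReal ?_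
  have e0 : γ + ((0 : ℕ) : ℝ) / 2 = γ := by norm_num
  rw [e0]
  set F : Matrix (Fin m) (Fin N) ℂ := Matrix.of fun a j => f j 0 a with hF
  have hin : ∀ (A : Matrix (Fin m) (Fin m) ℂ) (i j : Fin N),
      (inner ℂ (f i 0) (Matrix.toEuclideanLin A (f j 0)) : ℂ) = (Fᴴ * A * F) i j := by
    intro A i j
    rw [PiLp.inner_apply, Matrix.mul_assoc, Matrix.mul_apply]
    refine Finset.sum_congr rfl fun k _ => ?_
    rw [RCLike.inner_apply, Matrix.toLpLin_apply, conjTranspose_apply, mul_comm]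
    rfl
  have e1 : Fᴴ * F = 1 := by
    rw [← ho]
    ext i j
    rw [gram, of_apply, integral_fin0]
    have := hin 1 i j
    rw [toEuclideanLin_one, Matrix.mul_one] at this
    exact this.symm
  have e2 : Lam V f = Fᴴ * V 0 * F := by
    rw [Lam, Finset.univ_eq_empty, Finset.sum_empty, sub_zero]
    ext i j
    rw [of_apply, integral_fin0, hin]
  rw [e2]
  have h3 := PI.trPow_conj_le hγ (hV.posSemidef 0) (V := Fᴴ)
    (by rw [conjTranspose_conjTranspose]; exact one_sub_mul_conjTranspose_psd e1)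
    (by rw [conjTranspose_conjTranspose, e1, sub_self]; exact PosSemidef.zero)
  rw [conjTranspose_conjTranspose] at h3
  exact h3

/-- the one-dimensional constants -/
noncomputable def CC (γ : ℝ) : ℝ := if γ < 3 / 2 then Cg γ else Lcl γ

theorem CC_pos {γ : ℝ} (hγ : 1 / 2 < γ) : 0 < CC γ := by
  unfold CC
  split_ifs
  · exact Cg_pos hγ
  · exact Lcl_pos (by linarith)

theorem mainHyp_CC {γ : ℝ} (hγ : 1 / 2 < γ) (N m : ℕ) : MainHyp γ (CC γ) N m := by
  unfold CC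
  split_ifs with h
  · exact PI.mainHyp hγ h N m
  · rcases (not_lt.1 h).eq_or_lt with h' | h'
    · rw [← h']; exact mainHyp_three_half N m
    · exact mainHyp_AL h' N m

/-- the lifted constants -/
noncomputable def PP : ℕ → ℝ → ℝ
  | 0, _ => 1
  | d + 1, γ => CC γ * PP d (γ + 1 / 2)

theorem PP_pos (d : ℕ) {γ : ℝ} (hγ : 1 / 2 < γ) : 0 < PP d γ := by
  induction d generalizing γ with
  | zero => exact one_pos
  | succ d ih => exact mul_pos (CC_pos hγ) (ih (by linarith))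

theorem LP_of_one_le (d : ℕ) {γ : ℝ} (hγ : 1 ≤ γ) : LP d m γ (PP d γ) := by
  induction d generalizing γ with
  | zero => exact LP_zero hγ
  | succ d ih =>
    exact LP_step (by linarith) (CC_pos (by linarith)) (PP_pos d (by linarith))
      (mainHyp_CC (by linarith)) (ih (by linarith))

theorem LP_of_half_lt {d : ℕ} (hd : 1 ≤ d) {γ : ℝ} (hγ : 1 / 2 < γ) : LP d m γ (PP d γ) := by
  obtain ⟨d, rfl⟩ : ∃ e, d = e + 1 := ⟨d - 1, by omega⟩
  exact LP_step hγ (CC_pos hγ) (PP_pos d (by linarith)) (mainHyp_CC hγ) (LP_of_one_le d (by linarith))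

theorem DLcl_pos (d : ℕ) {γ : ℝ} (hγ : 0 ≤ γ) : 0 < DimLT.Lcl γ d := by
  unfold DimLT.Lcl
  have h3 := Real.Gamma_pos_of_pos (show 0 < γ + 1 by linarith)
  have h4 := Real.Gamma_pos_of_pos (show 0 < γ + d / 2 + 1 by positivity)
  have := Real.pi_pos
  positivity

theorem DLcl_zero {γ : ℝ} (hγ : 0 ≤ γ) : DimLT.Lcl γ 0 = 1 := by
  unfold DimLT.Lcl
  have h3 := Real.Gamma_pos_of_pos (show 0 < γ + 1 by linarith)
  rw [Nat.cast_zero, zero_div, Real.rpow_zero, add_zero, one_mul, div_self h3.ne']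

theorem DLcl_succ (d : ℕ) {γ : ℝ} (hγ : 0 ≤ γ) :
    DimLT.Lcl γ (d + 1) = Lcl γ * DimLT.Lcl (γ + 1 / 2) d := by
  unfold DimLT.Lcl Lcl
  have h1 := Real.Gamma_pos_of_pos (show 0 < γ + 3 / 2 by linarith)
  have hpi := Real.pi_pos
  have e1 : (4 * Real.pi) ^ (((d + 1 : ℕ) : ℝ) / 2) =
      2 * Real.sqrt Real.pi * (4 * Real.pi) ^ ((d : ℝ) / 2) := by
    have : ((d + 1 : ℕ) : ℝ) / 2 = 1 / 2 + (d : ℝ) / 2 := by push_cast; ring
    rw [this, Real.rpow_add (by positivity), ← Real.sqrt_eq_rpow,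
      Real.sqrt_mul (by norm_num : (0:ℝ) ≤ 4)]
    have h4 : Real.sqrt 4 = 2 := by
      rw [show (4:ℝ) = 2 ^ 2 by norm_num]
      exact Real.sqrt_sq (by norm_num)
    rw [h4]
  have e2 : γ + 1 / 2 + 1 = γ + 3 / 2 := by ring
  have e3 : γ + ((d + 1 : ℕ) : ℝ) / 2 + 1 = γ + 1 / 2 + (d : ℝ) / 2 + 1 := by push_cast; ring
  rw [e1, e2, e3]
  field_simp

theorem PP_of_ge (d : ℕ) {γ : ℝ} (hγ : 3 / 2 ≤ γ) : PP d γ = DimLT.Lcl γ d := by
  induction d generalizing γ with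
  | zero => exact (DLcl_zero (by linarith)).symm
  | succ d ih =>
    rw [PP, ih (by linarith), DLcl_succ d (by linarith), CC, if_neg (not_lt.2 hγ)]

/-- the excess factor `L^{(1)}_γ / L^cl_γ` -/
noncomputable def rr (γ : ℝ) : ℝ := 2 * ((γ - 1 / 2) / (γ + 1 / 2)) ^ (γ - 1 / 2)

theorem PP_of_one_le {d : ℕ} (hd : 1 ≤ d) {γ : ℝ} (hγ : 1 ≤ γ) (hγ2 : γ < 3 / 2) :
    PP d γ = rr γ * DimLT.Lcl γ d := by
  obtain ⟨d, rfl⟩ : ∃ e, d = e + 1 := ⟨d - 1, by omega⟩
  rw [PP, PP_of_ge d (by linarith), DLcl_succ d (by linarith), CC, if_pos hγ2,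
    Cg_eq (by linarith), rr, mul_assoc]

theorem PP_of_lt_one {d : ℕ} (hd : 2 ≤ d) {γ : ℝ} (hγ : 1 / 2 < γ) (hγ2 : γ < 1) :
    PP d γ = rr γ * rr (γ + 1 / 2) * DimLT.Lcl γ d := by
  obtain ⟨d, rfl⟩ : ∃ e, d = e + 1 := ⟨d - 1, by omega⟩
  rw [PP, PP_of_one_le (by omega) (by linarith) (by linarith), DLcl_succ d (by linarith), CC,
    if_pos (by linarith), Cg_eq (by linarith), rr, rr]
  ring

end Vale.Agent.P371.H816
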