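import Vale.Agent.P371.LT
import Mathlib.Analysis.CStarAlgebra.ContinuousLinearMap
import Mathlib.Analysis.CStarAlgebra.ContinuousFunctionalCalculus.Order

/-!
Definitions for the one-dimensional Lieb-Thirring constants of operator-valued potentials: `G` is
a complex Hilbert space (matrix potentials are the case `G = ℂ^m`).
-/

namespace Vale.Agent.P371.OpLT

open MeasureTheory
open scoped ENNReal

section Hilbert

variable {G : Type*} [NormedAddCommGroup G] [InnerProductSpace ℂ G]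

/-- `f` is in `H^1(ℝ; G)` (continuous representative) and `f'` is its weak derivative. -/
def H1 (f f' : ℝ → G) : Prop :=
  MemLp f 2 volume ∧ MemLp f' 2 volume ∧ ∀ a b : ℝ, f b - f a = ∫ x in a..b, f' x

/-- `f`, with weak derivative `f'`, is in the form domain `H^1` and satisfies
`h_W(g, f) = lam ⟨g, f⟩` for every `g` in the form domain, where
`h_W(g, f) = ∫ ⟨g', f'⟩ - ∫ ⟨g, W f⟩` is the form of `H_W = -d²/dx² - W`. -/
def Eigen (W : ℝ → G →L[ℂ] G) (lam : ℝ) (f f' : ℝ → G) : Prop :=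
  H1 f f' ∧ ∀ g g' : ℝ → G, H1 g g' →
    (∫ x, (inner ℂ (g' x) (f' x) : ℂ)) - (∫ x, (inner ℂ (g x) (W x (f x)) : ℂ))
      = lam * ∫ x, (inner ℂ (g x) (f x) : ℂ)

/-- `∑_j |λ_j|^γ` over the negative eigenvalues of `H_W` counted with multiplicity, written as
the supremum over all finite orthonormal systems of eigenfunctions with negative eigenvalues. -/
noncomputable def rieszMean (γ : ℝ) (W : ℝ → G →L[ℂ] G) : ℝ≥0∞ :=
  ⨆ (N : ℕ) (lam : Fin N → ℝ) (f : Fin N → ℝ → G) (f' : Fin N → ℝ → G)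
    (_ : ∀ j, lam j < 0 ∧ Eigen W (lam j) (f j) (f' j))
    (_ : ∀ i j, ∫ x, (inner ℂ (f i x) (f j x) : ℂ) = if i = j then 1 else 0),
    ∑ j, ENNReal.ofReal (|lam j| ^ γ)

/-- The trace in `[0,∞]` of a positive operator `A`: the supremum over all finite orthonormal
systems `e_1, ..., e_n` of `∑ ⟨e_i, A e_i⟩`. -/
noncomputable def trace (A : G →L[ℂ] G) : ℝ≥0∞ :=
  ⨆ (n : ℕ) (e : Fin n → G) (_ : Orthonormal ℂ e),
    ∑ i, ENNReal.ofReal (inner ℂ (e i) (A (e i)) : ℂ).re

end Hilbert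

section Complete

variable {G : Type*} [NormedAddCommGroup G] [InnerProductSpace ℂ G] [CompleteSpace G]

/-- `Tr (W^p)` in `[0,∞]` for a positive operator `W`, the power `W^p` being defined by the
continuous functional calculus. -/
noncomputable def trPow (p : ℝ) (W : G →L[ℂ] G) : ℝ≥0∞ := trace (cfc (fun t : ℝ => t ^ p) W)

/-- Operator-valued potentials: weakly measurable, positive, with `∫ Tr W^p < ∞`. -/
structure Potential (p : ℝ) (W : ℝ → G →L[ℂ] G) : Prop where
  measurable : ∀ u v : G, Measurable fun x => (inner ℂ u (W x v) : ℂ)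
  positive : ∀ x, (W x).IsPositive
  finite : ∫⁻ x, trPow p (W x) < ∞

/-- The Lieb-Thirring constant `L_γ(G)`: the best constant in
`Tr (H_W)_-^γ ≤ L ∫ Tr W^(γ+1/2)` for potentials `W` with values in the positive operators
of `G`. -/
noncomputable def LTconst (γ : ℝ) (G : Type*) [NormedAddCommGroup G] [InnerProductSpace ℂ G]
    [CompleteSpace G] : ℝ≥0∞ :=
  ⨆ (W : ℝ → G →L[ℂ] G) (_ : Potential (γ + 1 / 2) W) (_ : ∫⁻ x, trPow (γ + 1 / 2) (W x) ≠ 0),
    rieszMean γ W / ∫⁻ x, trPow (γ + 1 / 2) (W x)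

end Complete

end Vale.Agent.P371.OpLT
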