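import Vale.Agent.P371.H816.OpUpper

set_option linter.all false

/-!
The scalar constant is a lower bound for the constant of operator-valued potentials.
-/

namespace Vale.Agent.P371.H816

open MeasureTheory Filter Topology Set Matrix
open Vale.Agent.P371 Vale.Agent.P371.G
open scoped ComplexOrder Matrix.Norms.L2Operator MatrixOrder ENNReal

section Lower

variable {G : Type*} [NormedAddCommGroup G] [InnerProductSpace ℂ G]

/-- the rank-one projection on `e` -/
noncomputable def pr (e : G) : G →L[ℂ] G := (innerSL ℂ e).smulRight e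

theorem pr_apply (e x : G) : pr e x = (inner ℂ e x : ℂ) • e := rfl

/-- the embedding `z ↦ z_0 e` of `ℂ¹` -/
noncomputable def emb1 (e : G) : EuclideanSpace ℂ (Fin 1) →L[ℂ] G :=
  (EuclideanSpace.proj (0 : Fin 1) : EuclideanSpace ℂ (Fin 1) →L[ℂ] ℂ).smulRight e

theorem emb1_apply (e : G) (z : EuclideanSpace ℂ (Fin 1)) : emb1 e z = z 0 • e := rfl

theorem inner_ee {e : G} (he : ‖e‖ = 1) : (inner ℂ e e : ℂ) = 1 := by
  rw [inner_self_eq_norm_sq_to_K, he]; simp

theorem pr_mul_self {e : G} (he : ‖e‖ = 1) : pr e * pr e = pr e := by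
  ext x
  rw [ContinuousLinearMap.mul_apply, pr_apply, pr_apply, inner_smul_right, inner_ee he, mul_one]

theorem inner_pr (e x y : G) : (inner ℂ x (pr e y) : ℂ) = inner ℂ x e * inner ℂ e y := by
  rw [pr_apply, inner_smul_right]; ring

theorem pr_isPositive (e : G) : (pr e).IsPositive := by
  refine ⟨fun x y => ?_, fun x => ?_⟩
  · change (inner ℂ (pr e x) y : ℂ) = inner ℂ x (pr e y)
    rw [inner_pr, pr_apply, inner_smul_left, inner_conj_symm]
  · change 0 ≤ RCLike.re (inner ℂ (pr e x) x : ℂ)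
    rw [pr_apply, inner_smul_left]
    have : (starRingEnd ℂ) (inner ℂ e x) * (inner ℂ e x : ℂ) = ((‖(inner ℂ e x : ℂ)‖ ^ 2 : ℝ) : ℂ) := by
      rw [mul_comm, Complex.mul_conj, Complex.normSq_eq_norm_sq]
    rw [this]
    change 0 ≤ (((‖(inner ℂ e x : ℂ)‖ ^ 2 : ℝ) : ℂ)).re
    rw [Complex.ofReal_re]
    positivity

variable [CompleteSpace G]

theorem cfc_pr {e : G} (he : ‖e‖ = 1) {w p : ℝ} (hw : 0 ≤ w) (hp : 0 < p) :
    cfc (fun t : ℝ => t ^ p) (w • pr e) = (w ^ p) • pr e := by
  have hsa : IsSelfAdjoint (pr e) := (pr_isPositive e).isSelfAdjoint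
  have hid : IsIdempotentElem (pr e) := pr_mul_self he
  have hc : Continuous fun t : ℝ => t ^ p := Real.continuous_rpow_const hp.le
  rw [← cfc_comp_smul w (fun t : ℝ => t ^ p) (pr e) hc.continuousOn hsa,
    ← cfc_const_mul_id (w ^ p) (pr e) hsa]
  refine cfc_congr fun x hx => ?_
  have h1 := IsIdempotentElem.spectrum_subset ℝ hid hx
  rcases h1 with h1 | h1
  · rw [h1]
    simp [Real.zero_rpow hp.ne']
  · rw [Set.mem_singleton_iff.1 h1]
    simp

theorem trace_smul_pr {e : G} (he : ‖e‖ = 1) {c : ℝ} (hc : 0 ≤ c) :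
    OpLT.trace (c • pr e) = ENNReal.ofReal c := by
  have h1 : ∀ x : G, (inner ℂ x ((c • pr e) x) : ℂ).re = c * ‖(inner ℂ x e : ℂ)‖ ^ 2 := by
    intro x
    have e1 : (c • pr e) x = ((c : ℂ)) • pr e x := by
      simp only [ContinuousLinearMap.smul_apply, Complex.coe_smul]
    rw [e1, inner_smul_right, inner_pr, ← inner_conj_symm e x, Complex.mul_conj,
      Complex.normSq_eq_norm_sq, ← Complex.ofReal_mul, Complex.ofReal_re]
  unfold OpLT.trace
  refine le_antisymm ?_ ?_
  · refine iSup_le fun n => iSup_le fun b => iSup_le fun hb => ?_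
    simp_rw [h1]
    rw [← ENNReal.ofReal_sum_of_nonneg fun i _ => by positivity]
    apply ENNReal.ofReal_le_ofReal
    rw [← Finset.mul_sum]
    have h2 := hb.sum_inner_products_le (x := e) (s := Finset.univ)
    rw [he, one_pow] at h2
    calc c * ∑ i, ‖(inner ℂ (b i) e : ℂ)‖ ^ 2 ≤ c * 1 := mul_le_mul_of_nonneg_left h2 hc
      _ = c := mul_one c
  · refine le_iSup_of_le 1 (le_iSup_of_le (fun _ => e) (le_iSup_of_le ?_ ?_))
    · exact ⟨fun _ => he, fun i j hij => absurd (Subsingleton.elim i j) hij⟩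
    · simp_rw [h1, inner_ee he]
      simp

theorem trPow_smul_pr {e : G} (he : ‖e‖ = 1) {w p : ℝ} (hw : 0 ≤ w) (hp : 0 < p) :
    OpLT.trPow p (w • pr e) = ENNReal.ofReal (w ^ p) := by
  rw [OpLT.trPow, cfc_pr he hw hp, trace_smul_pr he (Real.rpow_nonneg hw p)]

/-- the scalar potential times a rank-one projection -/
noncomputable def WG (e : G) (W : ℝ → Matrix (Fin 1) (Fin 1) ℂ) (x : ℝ) : G →L[ℂ] G :=
  (W x 0 0).re • pr e

theorem re_nonneg {W : Matrix (Fin 1) (Fin 1) ℂ} (hW : W.PosSemidef) : 0 ≤ (W 0 0).re := by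
  have h : 0 ≤ W 0 0 := hW.diag_nonneg
  exact (Complex.le_def.1 h).1

theorem trPow_WG {e : G} (he : ‖e‖ = 1) {p : ℝ} (hp : 0 < p) {W : ℝ → Matrix (Fin 1) (Fin 1) ℂ}
    (hW : ∀ x, (W x).PosSemidef) (x : ℝ) :
    OpLT.trPow p (WG e W x) = ENNReal.ofReal (trPow p (W x)) := by
  rw [WG, trPow_smul_pr he (re_nonneg (hW x)) hp, trPow_scalar p (hW x)]

theorem potential_WG {e : G} (he : ‖e‖ = 1) {p : ℝ} (hp : 0 < p)
    {W : ℝ → Matrix (Fin 1) (Fin 1) ℂ} (hW : IsPotential p W) :
    OpLT.Potential p (WG e W) where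
  measurable u v := by
    have h1 : (fun x => (inner ℂ u (WG e W x v) : ℂ)) =
        fun x => (((W x 0 0).re : ℝ) : ℂ) * inner ℂ u (pr e v) := by
      funext x
      have e1 : (WG e W x) v = (((W x 0 0).re : ℝ) : ℂ) • pr e v := by
        simp only [WG, ContinuousLinearMap.smul_apply, Complex.coe_smul]
      rw [e1, inner_smul_right]
    rw [h1]
    have h2 : Measurable fun x => (((W x 0 0).re : ℝ) : ℂ) :=
      Complex.measurable_ofReal.comp (Complex.measurable_re.comp (hW.measurable 0 0))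
    exact h2.mul_const _
  positive x := by
    have h1 : WG e W x = (((W x 0 0).re : ℝ) : ℂ) • pr e := by
      ext v
      simp only [WG, ContinuousLinearMap.smul_apply, Complex.coe_smul]
    rw [h1]
    refine (pr_isPositive e).smul_of_nonneg ?_
    exact_mod_cast re_nonneg (hW.posSemidef x)
  finite := by
    simp_rw [trPow_WG he hp hW.posSemidef]
    exact hW.integrable.lintegral_lt_top

theorem adj_emb1 (e g : G) (z : EuclideanSpace ℂ (Fin 1)) :
    (inner ℂ g (emb1 e z) : ℂ) = inner ℂ (ContinuousLinearMap.adjoint (emb1 e) g) z := by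
  rw [ContinuousLinearMap.adjoint_inner_left]

theorem inner_emb1 {e : G} (he : ‖e‖ = 1) (u v : EuclideanSpace ℂ (Fin 1)) :
    (inner ℂ (emb1 e u) (emb1 e v) : ℂ) = inner ℂ u v := by
  rw [emb1_apply, emb1_apply, inner_smul_left, inner_smul_right, inner_ee he, PiLp.inner_apply]
  simp [mul_comm]

theorem WG_emb1 {e : G} (he : ‖e‖ = 1) {W : ℝ → Matrix (Fin 1) (Fin 1) ℂ}
    (hW : ∀ x, (W x).PosSemidef) (x : ℝ) (z : EuclideanSpace ℂ (Fin 1)) :
    WG e W x (emb1 e z) = emb1 e (Matrix.toEuclideanLin (W x) z) := by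
  have e1 : (WG e W x) (emb1 e z) = (((W x 0 0).re : ℝ) : ℂ) • pr e (emb1 e z) := by
    simp only [WG, ContinuousLinearMap.smul_apply, Complex.coe_smul]
  rw [e1, emb1_apply, emb1_apply, pr_apply, inner_smul_right, inner_ee he, mul_one,
    ← scalar_eq (hW x), smul_smul, Matrix.toLpLin_apply]
  simp [Matrix.mulVec, dotProduct]

theorem rieszMean_le_op {e : G} (he : ‖e‖ = 1) (γ : ℝ) {W : ℝ → Matrix (Fin 1) (Fin 1) ℂ}
    (hW : ∀ x, (W x).PosSemidef) : rieszMean γ W ≤ OpLT.rieszMean γ (WG e W) := by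
  unfold rieszMean
  refine iSup_le fun N => iSup_le fun lam => iSup_le fun f => iSup_le fun f' => iSup_le fun h =>
    iSup_le fun ho => ?_
  unfold OpLT.rieszMean
  refine le_iSup_of_le N <| le_iSup_of_le lam <|
    le_iSup_of_le (fun j x => emb1 e (f j x)) <| le_iSup_of_le (fun j x => emb1 e (f' j x)) <|
    le_iSup_of_le ?_ <| le_iSup_of_le ?_ le_rfl
  · intro j
    have hf := (h j).2.isH1
    refine ⟨(h j).1, ⟨(emb1 e).comp_memLp' hf.memLp, (emb1 e).comp_memLp' hf.memLp_deriv, ?_⟩, ?_⟩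
    · intro a b
      rw [(emb1 e).intervalIntegral_comp_comm (hf.intervalIntegrable_deriv a b), ← hf.ftc a b,
        map_sub]
    · intro g g' hg
      set T := ContinuousLinearMap.adjoint (emb1 e) with hT
      have hTg : IsH1 (fun x => T (g x)) (fun x => T (g' x)) :=
        ⟨T.comp_memLp' hg.1, T.comp_memLp' hg.2.1, fun a b => by
          have hloc : LocallyIntegrable g' volume := hg.2.1.locallyIntegrable (by norm_num)
          rw [T.intervalIntegral_comp_comm
            (hloc.integrableOn_isCompact isCompact_uIcc).intervalIntegrable, ← hg.2.2 a b,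
            map_sub]⟩
      have h1 := (h j).2.form_eq _ _ hTg
      simp only [WG_emb1 he hW, adj_emb1]
      exact h1
  · intro i j
    simp only [inner_emb1 he]
    exact ho i j

theorem LTconst_le_op {γ : ℝ} (hγ : -(1 / 2) < γ) [Nontrivial G] :
    LTconst γ 1 ≤ OpLT.LTconst γ G := by
  obtain ⟨e, he⟩ := exists_norm_eq G (c := 1) zero_le_one
  have hp : 0 < γ + 1 / 2 := by linarith
  unfold LTconst
  refine iSup_le fun W => iSup_le fun hW => iSup_le fun hne => ?_
  have h0 : ∀ x, 0 ≤ trPow (γ + 1 / 2) (W x) := fun x => trPow_nonneg' (hW.posSemidef x) _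
  have he1 : ∫⁻ x, OpLT.trPow (γ + 1 / 2) (WG e W x) =
      ENNReal.ofReal (∫ x, trPow (γ + 1 / 2) (W x)) := by
    simp_rw [trPow_WG he hp hW.posSemidef]
    exact (ofReal_integral_eq_lintegral_ofReal hW.integrable (Eventually.of_forall h0)).symm
  have hpos : 0 < ∫ x, trPow (γ + 1 / 2) (W x) :=
    lt_of_le_of_ne (integral_nonneg h0) (Ne.symm hne)
  unfold OpLT.LTconst
  refine le_iSup_of_le (WG e W) <| le_iSup_of_le (potential_WG he hp hW) <|
    le_iSup_of_le (by rw [he1]; simpa using hpos) ?_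
  rw [he1]
  exact ENNReal.div_le_div_right (rieszMean_le_op he γ hW.posSemidef) _

end Lower

end Vale.Agent.P371.H816
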