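import Vale.Agent.P371.H816.OpUpper

set_option linter.all false

/-!
The upper bound for operator-valued potentials, from the core inequality.
-/

namespace Vale.Agent.P371.H816

open MeasureTheory Filter Topology Set Matrix
open Vale.Agent.P371 Vale.Agent.P371.G
open scoped ComplexOrder Matrix.Norms.L2Operator MatrixOrder ENNReal

section H1

variable {G : Type*} [NormedAddCommGroup G] [InnerProductSpace ℂ G] {f f' : ℝ → G}

theorem ii_of_memLp {f : ℝ → G} (hf : MemLp f 2 volume) (a b : ℝ) :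
    IntervalIntegrable f volume a b := by
  have h : LocallyIntegrable f volume := hf.locallyIntegrable (by norm_num)
  exact (h.integrableOn_isCompact isCompact_uIcc).intervalIntegrable

theorem integral_norm_le' {f : ℝ → G} (hf : MemLp f 2 volume) (b : ℝ) :
    ∫ x in b..(b + 1), ‖f x‖ ≤ 1 + ∫ x, ‖f x‖ ^ 2 := by
  have h2 : Integrable (fun x => ‖f x‖ ^ 2) volume := hf.integrable_norm_pow (by norm_num)
  have h1 : IntervalIntegrable (fun x => ‖f x‖) volume b (b + 1) := (ii_of_memLp hf _ _).norm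
  calc ∫ x in b..(b + 1), ‖f x‖ ≤ ∫ x in b..(b + 1), (1 + ‖f x‖ ^ 2) := by
        apply intervalIntegral.integral_mono_on (by linarith) h1
        · exact (intervalIntegrable_const).add h2.intervalIntegrable
        · intro x _
          nlinarith only [sq_nonneg (‖f x‖ - 1), sq_nonneg (‖f x‖)]
    _ = 1 + ∫ x in b..(b + 1), ‖f x‖ ^ 2 := by
        rw [intervalIntegral.integral_add intervalIntegrable_const h2.intervalIntegrable]
        simp
    _ ≤ 1 + ∫ x, ‖f x‖ ^ 2 := by
        gcongr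
        rw [intervalIntegral.integral_of_le (by linarith)]
        exact setIntegral_le_integral h2 (Eventually.of_forall fun x => by positivity)

theorem h1_bounded (hf : OpLT.H1 f f') : ∃ C, ∀ x, ‖f x‖ ≤ C := by
  refine ⟨(1 + ∫ x, ‖f x‖ ^ 2) + (1 + ∫ x, ‖f' x‖ ^ 2), fun b => ?_⟩
  have key : ∀ a ∈ Set.Icc b (b + 1), ‖f b‖ ≤ ‖f a‖ + ∫ x in b..(b + 1), ‖f' x‖ := by
    intro a ha
    have h1 : f b = f a - ∫ x in b..a, f' x := by
      rw [← hf.2.2 b a]; abel
    have h2 : ‖∫ x in b..a, f' x‖ ≤ ∫ x in b..(b + 1), ‖f' x‖ := by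
      refine (intervalIntegral.norm_integral_le_integral_norm ha.1).trans ?_
      apply intervalIntegral.integral_mono_interval le_rfl ha.1 ha.2
      · exact Eventually.of_forall fun x => norm_nonneg _
      · exact (ii_of_memLp hf.2.1 b (b + 1)).norm
    calc ‖f b‖ = ‖f a - ∫ x in b..a, f' x‖ := by rw [← h1]
      _ ≤ ‖f a‖ + ‖∫ x in b..a, f' x‖ := norm_sub_le _ _
      _ ≤ _ := by gcongr
  have hc : ‖f b‖ = ∫ _ in b..(b + 1), ‖f b‖ := by simp
  rw [hc]
  calc ∫ _ in b..(b + 1), ‖f b‖ ≤ ∫ a in b..(b + 1), (‖f a‖ + ∫ x in b..(b + 1), ‖f' x‖) := by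
        apply intervalIntegral.integral_mono_on (by linarith) intervalIntegrable_const
        · exact (ii_of_memLp hf.1 b (b + 1)).norm.add intervalIntegrable_const
        · exact key
    _ = (∫ a in b..(b + 1), ‖f a‖) + ∫ x in b..(b + 1), ‖f' x‖ := by
        rw [intervalIntegral.integral_add (ii_of_memLp hf.1 b (b + 1)).norm
          intervalIntegrable_const]
        simp only [intervalIntegral.integral_const, add_sub_cancel_left, smul_eq_mul, one_mul]
    _ ≤ _ := add_le_add (integral_norm_le' hf.1 b) (integral_norm_le' hf.2.1 b)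

variable [CompleteSpace G]

theorem isH1_T {k : ℕ} (T : G →L[ℂ] EuclideanSpace ℂ (Fin k)) (hf : OpLT.H1 f f') :
    IsH1 (fun x => T (f x)) (fun x => T (f' x)) where
  memLp := T.comp_memLp' hf.1
  memLp_deriv := T.comp_memLp' hf.2.1
  ftc a b := by
    rw [T.intervalIntegral_comp_comm (ii_of_memLp hf.2.1 a b), ← hf.2.2 a b, map_sub]

end H1

section Proj

variable (G : Type*) [NormedAddCommGroup G] [InnerProductSpace ℂ G]
  [TopologicalSpace.SeparableSpace G]

/-- finite-dimensional subspaces with dense union -/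
noncomputable def Un (n : ℕ) : Submodule ℂ G :=
  Submodule.span ℂ (TopologicalSpace.denseSeq G '' Set.Iio n)

instance (n : ℕ) : FiniteDimensional ℂ (Un G n) :=
  FiniteDimensional.span_of_finite ℂ ((Set.finite_Iio n).image _)

theorem Un_mono : Monotone (Un G) := fun a b h =>
  Submodule.span_mono (Set.image_mono (Set.Iio_subset_Iio h))

theorem Un_dense : ⊤ ≤ (⨆ n, Un G n).topologicalClosure := by
  rw [top_le_iff, ← Submodule.dense_iff_topologicalClosure_eq_top]
  refine (TopologicalSpace.denseRange_denseSeq G).mono ?_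
  rintro _ ⟨k, rfl⟩
  exact (le_iSup (Un G) (k + 1)) (Submodule.subset_span ⟨k, Nat.lt_succ_self k, rfl⟩)

noncomputable def dimn (n : ℕ) : ℕ := Module.finrank ℂ (Un G n)

noncomputable def Jn (n : ℕ) : EuclideanSpace ℂ (Fin (dimn G n)) →ₗᵢ[ℂ] G :=
  (Un G n).subtypeₗᵢ.comp (stdOrthonormalBasis ℂ (Un G n)).repr.symm.toLinearIsometry

noncomputable def Tn (n : ℕ) : G →L[ℂ] EuclideanSpace ℂ (Fin (dimn G n)) :=
  (stdOrthonormalBasis ℂ (Un G n)).repr.toContinuousLinearEquiv.toContinuousLinearMap ∘L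
    (Un G n).orthogonalProjectionOnto

variable {G}

theorem Jn_Tn (n : ℕ) (x : G) : Jn G n (Tn G n x) = (Un G n).starProjection x := by
  have h : Jn G n (Tn G n x) = (((stdOrthonormalBasis ℂ (Un G n)).repr.symm
      ((stdOrthonormalBasis ℂ (Un G n)).repr ((Un G n).orthogonalProjectionOnto x)) : Un G n) : G) :=
    rfl
  rw [h, LinearIsometryEquiv.symm_apply_apply]
  rfl

theorem norm_P_le (n : ℕ) (x : G) : ‖(Un G n).starProjection x‖ ≤ ‖x‖ :=
  (Un G n).norm_starProjection_apply_le x

theorem norm_Tn_le (n : ℕ) (x : G) : ‖Tn G n x‖ ≤ ‖x‖ := by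
  rw [← (Jn G n).norm_map, Jn_Tn]
  exact norm_P_le n x

theorem inner_Tn (n : ℕ) (x y : G) : (inner ℂ (Tn G n x) (Tn G n y) : ℂ) =
    inner ℂ ((Un G n).starProjection x) ((Un G n).starProjection y) := by
  rw [← Jn_Tn, ← Jn_Tn, (Jn G n).inner_map_map]

theorem tendsto_P (x : G) : Tendsto (fun n => (Un G n).starProjection x) atTop (𝓝 x) :=
  Submodule.starProjection_tendsto_self (Un G) (Un_mono G) x (Un_dense G)

end Proj

section Limits

variable {G : Type*} [NormedAddCommGroup G] [InnerProductSpace ℂ G]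
  [TopologicalSpace.SeparableSpace G]

theorem tendsto_inner_P {f g : ℝ → G} (hf : MemLp f 2 volume) (hg : MemLp g 2 volume) :
    Tendsto (fun n => ∫ x, (inner ℂ (Tn G n (f x)) (Tn G n (g x)) : ℂ)) atTop
      (𝓝 (∫ x, (inner ℂ (f x) (g x) : ℂ))) := by
  refine tendsto_integral_of_dominated_convergence (fun x => ‖f x‖ ^ 2 + ‖g x‖ ^ 2) (fun n => ?_)
    ((hf.integrable_norm_pow (by norm_num)).add (hg.integrable_norm_pow (by norm_num)))
    (fun n => Eventually.of_forall fun x => ?_) (Eventually.of_forall fun x => ?_)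
  · exact ((Tn G n).continuous.comp_aestronglyMeasurable hf.1).inner
      ((Tn G n).continuous.comp_aestronglyMeasurable hg.1)
  · refine (norm_inner_le_norm _ _).trans ?_
    have h1 := norm_Tn_le n (f x)
    have h2 := norm_Tn_le n (g x)
    have h3 := mul_le_mul h1 h2 (norm_nonneg _) (norm_nonneg _)
    nlinarith only [h3, sq_nonneg (‖f x‖ - ‖g x‖), sq_nonneg (‖f x‖), sq_nonneg (‖g x‖)]
  · simp_rw [inner_Tn]
    exact (tendsto_P (f x)).inner (tendsto_P (g x))

variable [CompleteSpace G]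

/-- The sharp Lieb-Thirring inequality for operator-valued potentials, from the core inequality. -/
theorem op_rieszMean_le {γ C : ℝ} (hγ : 1 / 2 < γ) (hC : 0 ≤ C)
    (hM : ∀ N m, MainHyp γ C N m) {W : ℝ → G →L[ℂ] G} (hW : OpLT.Potential (γ + 1 / 2) W) :
    OpLT.rieszMean γ W ≤ ENNReal.ofReal C * ∫⁻ x, OpLT.trPow (γ + 1 / 2) (W x) := by
  unfold OpLT.rieszMean
  refine iSup_le fun N => iSup_le fun lam => iSup_le fun f => iSup_le fun f' => iSup_le fun h =>
    iSup_le fun ho => ?_
  have hf : ∀ j, OpLT.H1 (f j) (f' j) := fun j => (h j).2.1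
  set p : ℝ := γ + 1 / 2 with hp
  have hp1 : (1 : ℝ) ≤ p := by linarith
  have hp0 : (0 : ℝ) < p := by linarith
  set V : ∀ n : ℕ, ℝ → Matrix (Fin (dimn G n)) (Fin (dimn G n)) ℂ := fun n x =>
    cmpr (Jn G n) (W x) with hV
  have hVm : ∀ n i j, Measurable fun x => V n x i j := fun n i j => hW.measurable _ _
  have hVp : ∀ n x, (V n x).PosSemidef := fun n x => cmpr_posSemidef _ (hW.positive x)
  have hVt : ∀ n, Measurable fun x => trPow p (V n x) := fun n =>
    measurable_trPow hp0 (hVm n) (hVp n)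
  have hV0 : ∀ n x, 0 ≤ trPow p (V n x) := fun n x => trPow_nonneg' (hVp n x) p
  have hVle : ∀ n x, ENNReal.ofReal (trPow p (V n x)) ≤ OpLT.trPow p (W x) := fun n x =>
    trPow_cmpr_le _ (hW.positive x) hp1
  set I : ℝ≥0∞ := ∫⁻ x, OpLT.trPow p (W x) with hI
  have hIfin : I < ∞ := hW.finite
  -- the dominating function
  set τ : ℝ → ℝ≥0∞ := fun x => ⨆ n, ENNReal.ofReal (trPow p (V n x)) with hτ
  have hτm : Measurable τ := Measurable.iSup fun n => (hVt n).ennreal_ofReal
  have hτle : ∫⁻ x, τ x ≤ I := lintegral_mono fun x => iSup_le fun n => hVle n x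
  have hτfin : ∫⁻ x, τ x ≠ ∞ := (hτle.trans_lt hIfin).ne
  have hτi : Integrable (fun x => (τ x).toReal) volume :=
    integrable_toReal_of_lintegral_ne_top hτm.aemeasurable hτfin
  have hτae : ∀ᵐ x, τ x < ∞ := ae_lt_top hτm hτfin
  have hVτ : ∀ᵐ x, ∀ n, trPow p (V n x) ≤ (τ x).toReal := by
    filter_upwards [hτae] with x hx n
    have h1 : ENNReal.ofReal (trPow p (V n x)) ≤ τ x :=
      le_iSup (fun n => ENNReal.ofReal (trPow p (V n x))) n
    exact (ENNReal.ofReal_le_iff_le_toReal hx.ne).1 h1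
  have hVint : ∀ n, Integrable (fun x => trPow p (V n x)) volume := fun n =>
    hτi.mono' (hVt n).aestronglyMeasurable (by
      filter_upwards [hVτ] with x hx
      rw [Real.norm_of_nonneg (hV0 n x)]
      exact hx n)
  have hpot : ∀ n, IsPotential p (V n) := fun n => ⟨hVm n, hVp n, hVint n⟩
  have hVI : ∀ n, ∫ x, trPow p (V n x) ≤ I.toReal := by
    intro n
    rw [integral_eq_lintegral_of_nonneg_ae (Eventually.of_forall (hV0 n))
      (hVt n).aestronglyMeasurable]
    exact ENNReal.toReal_mono hIfin.ne (lintegral_mono fun x => hVle n x)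
  -- the limit of the matrices
  set D : Matrix (Fin N) (Fin N) ℂ := diagonal fun j => ((-lam j : ℝ) : ℂ) with hD
  have hDp : D.PosDef := PosDef.diagonal fun j => by
    have : (0:ℝ) < -lam j := by linarith only [(h j).1]
    exact_mod_cast this
  have hDe : ∀ i j, D i j = (∫ x, (inner ℂ (f i x) (W x (f j x)) : ℂ)) -
      ∫ x, (inner ℂ (f' i x) (f' j x) : ℂ) := by
    intro i j
    have h1 := (h j).2.2 (f i) (f' i) (hf i)
    rw [ho i j] at h1
    rw [hD, diagonal_apply]
    split_ifs at h1 ⊢ with hij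
    · subst hij
      push_cast
      linear_combination h1
    · linear_combination h1
  have hLent : ∀ (n : ℕ) (i j : Fin N), LamM ((n : ℝ) + 1) (V n) (fun j x => Tn G n (f j x))
      (fun j x => Tn G n (f' j x)) i j =
      (∫ x, (Ioc (-((n : ℝ) + 1)) ((n : ℝ) + 1)).indicator (fun x => (inner ℂ (Tn G n (f i x))
        (Matrix.toEuclideanLin (V n x) (Tn G n (f j x))) : ℂ)) x) -
      ∫ x, (inner ℂ (Tn G n (f' i x)) (Tn G n (f' j x)) : ℂ) := by
    intro n i j
    simp only [LamM, of_apply]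
    rw [intervalIntegral.integral_of_le (by
      have : (0:ℝ) ≤ n := Nat.cast_nonneg n
      linarith), integral_indicator measurableSet_Ioc]
  have hL : Tendsto (fun n : ℕ => LamM ((n : ℝ) + 1) (V n) (fun j x => Tn G n (f j x))
      (fun j x => Tn G n (f' j x))) atTop (𝓝 D) := by
    refine tendsto_pi_nhds.mpr fun i => tendsto_pi_nhds.mpr fun j => ?_
    rw [hDe i j]
    simp_rw [hLent]
    refine Tendsto.sub ?_ (tendsto_inner_P (hf i).2.1 (hf j).2.1)
    obtain ⟨A, hA⟩ := h1_bounded (hf i)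
    obtain ⟨B, hB⟩ := h1_bounded (hf j)
    have hA0 : 0 ≤ A := (norm_nonneg _).trans (hA 0)
    have hB0 : 0 ≤ B := (norm_nonneg _).trans (hB 0)
    refine tendsto_integral_of_dominated_convergence
      (fun x => (‖f i x‖ ^ 2 + ‖f j x‖ ^ 2) + (A * B) * (τ x).toReal) (fun n => ?_)
      ((((hf i).1.integrable_norm_pow (by norm_num)).add
        ((hf j).1.integrable_norm_pow (by norm_num))).add (hτi.const_mul _)) (fun n => ?_) ?_
    · exact (aesm_form (locInt hp1 (hpot n)) (fun j => isH1_T (Tn G n) (hf j)) i j).indicator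
        measurableSet_Ioc
    · filter_upwards [hVτ] with x hx
      refine (norm_indicator_le_norm_self _ _).trans ?_
      refine (norm_inner_toEuclideanLin_le _ _ _).trans ?_
      have h1 := norm_le_one_add_trPow (hVp n x) hp1
      have h2 := hx n
      have h3 := mul_le_mul (norm_Tn_le n (f i x)) (norm_Tn_le n (f j x)) (norm_nonneg _)
        (norm_nonneg _)
      have h4 : ‖f i x‖ * ‖f j x‖ ≤ A * B := mul_le_mul (hA x) (hB x) (norm_nonneg _) hA0
      have h5 : ‖V n x‖ ≤ 1 + (τ x).toReal := by linarith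
      have h6 : 0 ≤ (τ x).toReal := ENNReal.toReal_nonneg
      calc ‖V n x‖ * ‖Tn G n (f i x)‖ * ‖Tn G n (f j x)‖
          = ‖V n x‖ * (‖Tn G n (f i x)‖ * ‖Tn G n (f j x)‖) := by ring
        _ ≤ (1 + (τ x).toReal) * (‖f i x‖ * ‖f j x‖) :=
            mul_le_mul h5 h3 (by positivity) (by linarith)
        _ = ‖f i x‖ * ‖f j x‖ + (‖f i x‖ * ‖f j x‖) * (τ x).toReal := by ring
        _ ≤ (‖f i x‖ ^ 2 + ‖f j x‖ ^ 2) + (A * B) * (τ x).toReal := by
            have h7 : ‖f i x‖ * ‖f j x‖ ≤ ‖f i x‖ ^ 2 + ‖f j x‖ ^ 2 := by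
              nlinarith only [sq_nonneg (‖f i x‖ - ‖f j x‖), sq_nonneg (‖f i x‖),
                sq_nonneg (‖f j x‖)]
            have h8 := mul_le_mul_of_nonneg_right h4 h6
            linarith
    · refine Eventually.of_forall fun x => ?_
      have h1 : Tendsto (fun n => (inner ℂ ((Un G n).starProjection (f i x))
          (W x ((Un G n).starProjection (f j x))) : ℂ)) atTop
          (𝓝 (inner ℂ (f i x) (W x (f j x)))) :=
        (tendsto_P (f i x)).inner (((W x).continuous.tendsto _).comp (tendsto_P (f j x)))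
      refine h1.congr' ?_
      obtain ⟨n₀, hn₀⟩ := exists_nat_gt |x|
      filter_upwards [eventually_ge_atTop n₀] with n hn
      have hn' : (n₀ : ℝ) ≤ n := by exact_mod_cast hn
      have hx : x ∈ Ioc (-((n : ℝ) + 1)) ((n : ℝ) + 1) := by
        have := abs_lt.1 (hn₀.trans_le hn')
        exact ⟨by linarith [this.1], by linarith [this.2]⟩
      rw [indicator_of_mem hx, hV]
      simp only []
      rw [inner_cmpr, Jn_Tn, Jn_Tn]
  have hG : Tendsto (fun n => gram volume (fun j x => Tn G n (f j x))) atTop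
      (𝓝 (1 : Matrix (Fin N) (Fin N) ℂ)) := by
    refine tendsto_pi_nhds.mpr fun i => tendsto_pi_nhds.mpr fun j => ?_
    have h1 := tendsto_inner_P (hf i).1 (hf j).1
    rw [ho i j] at h1
    rw [Matrix.one_apply]
    exact h1
  have hfin := lim_principle hγ hC (fun m => hM N m) hDp (fun n => dimn G n)
    (fun n => (n : ℝ) + 1) (fun n => by positivity) V hpot (fun n j x => Tn G n (f j x))
    (fun n j x => Tn G n (f' j x)) (fun n j => isH1_T (Tn G n) (hf j)) hG hL hVI
  rw [← ENNReal.ofReal_sum_of_nonneg (fun j _ => by positivity)]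
  rw [hD, trPow_diagonal] at hfin
  have e : ∑ j, |lam j| ^ γ = ∑ j, (-lam j) ^ γ :=
    Finset.sum_congr rfl fun j _ => by rw [abs_of_neg (h j).1]
  rw [e]
  refine (ENNReal.ofReal_le_ofReal hfin).trans ?_
  rw [ENNReal.ofReal_mul hC, ENNReal.ofReal_toReal hIfin.ne]

end Limits

end Vale.Agent.P371.H816
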