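import Vale.Agent.P371.H816.Tools
import Vale.Agent.P371.H816.OpDefs
import Mathlib.Analysis.InnerProductSpace.StarOrder

set_option linter.all false

/-!
Compressions of positive operators and the upper bound for operator-valued potentials.
-/

namespace Vale.Agent.P371.H816

open MeasureTheory Filter Topology Set Matrix
open Vale.Agent.P371 Vale.Agent.P371.G
open scoped ComplexOrder Matrix.Norms.L2Operator MatrixOrder ENNReal

section Cmpr

variable {G : Type*} [NormedAddCommGroup G] [InnerProductSpace ℂ G] {n : ℕ}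

/-- compression of an operator to the range of an isometry -/
noncomputable def cmpr (J : EuclideanSpace ℂ (Fin n) →ₗᵢ[ℂ] G) (A : G →L[ℂ] G) :
    Matrix (Fin n) (Fin n) ℂ :=
  Matrix.of fun k l => inner ℂ (J (EuclideanSpace.single k 1)) (A (J (EuclideanSpace.single l 1)))

theorem sum_single (u : EuclideanSpace ℂ (Fin n)) :
    u = ∑ k, u k • EuclideanSpace.single k (1 : ℂ) := by
  ext j
  simp [Finset.sum_apply, EuclideanSpace.single_apply, Pi.single_apply]

theorem inner_cmpr (J : EuclideanSpace ℂ (Fin n) →ₗᵢ[ℂ] G) (A : G →L[ℂ] G)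
    (u v : EuclideanSpace ℂ (Fin n)) :
    (inner ℂ u (Matrix.toEuclideanLin (cmpr J A) v) : ℂ) = inner ℂ (J u) (A (J v)) := by
  have hu : J u = ∑ k, u k • J (EuclideanSpace.single k (1 : ℂ)) := by
    conv_lhs => rw [sum_single u]
    rw [map_sum]
    exact Finset.sum_congr rfl fun k _ => J.map_smul _ _
  have hv : A (J v) = ∑ k, v k • A (J (EuclideanSpace.single k (1 : ℂ))) := by
    conv_lhs => rw [sum_single v]
    rw [map_sum, map_sum]
    refine Finset.sum_congr rfl fun k _ => ?_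
    rw [J.map_smul, A.map_smul]
  rw [hu, hv, sum_inner, PiLp.inner_apply]
  refine Finset.sum_congr rfl fun k _ => ?_
  rw [inner_sum, RCLike.inner_apply, Matrix.toLpLin_apply]
  simp only [Matrix.mulVec, dotProduct, Finset.sum_mul]
  refine Finset.sum_congr rfl fun l _ => ?_
  rw [inner_smul_left, inner_smul_right, cmpr, Matrix.of_apply]
  ring

theorem cmpr_posSemidef (J : EuclideanSpace ℂ (Fin n) →ₗᵢ[ℂ] G) {A : G →L[ℂ] G}
    (hA : A.IsPositive) : (cmpr J A).PosSemidef := by
  rw [← Matrix.isPositive_toEuclideanLin_iff]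
  refine ⟨?_, fun u => ?_⟩
  · intro u v
    rw [inner_cmpr, ← inner_conj_symm, inner_cmpr, inner_conj_symm]
    exact hA.isSymmetric _ _
  · rw [inner_re_symm, inner_cmpr]
    exact hA.re_inner_nonneg_right (J u)

variable [CompleteSpace G]

/-- Jensen's inequality `⟨e, A e⟩^p ≤ ⟨e, A^p e⟩` -/
theorem jensen {A : G →L[ℂ] G} (hA : A.IsPositive) {p : ℝ} (hp : 1 ≤ p) {e : G} (he : ‖e‖ = 1) :
    ((inner ℂ e (A e) : ℂ).re) ^ p ≤ (inner ℂ e (cfc (fun t : ℝ => t ^ p) A e) : ℂ).re := by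
  set a : ℝ := (inner ℂ e (A e) : ℂ).re with ha
  have ha0 : 0 ≤ a := hA.re_inner_nonneg_right e
  have hA0 : 0 ≤ A := (ContinuousLinearMap.nonneg_iff_isPositive A).2 hA
  have hsa : IsSelfAdjoint A := hA.isSelfAdjoint
  have hc : Continuous fun t : ℝ => t ^ p := Real.continuous_rpow_const (by linarith)
  have h1 : cfc (fun t : ℝ => (a ^ p - p * a ^ (p - 1) * a) + (p * a ^ (p - 1)) * t) A ≤
      cfc (fun t : ℝ => t ^ p) A := by
    refine cfc_mono (fun x hx => ?_) (by fun_prop) hc.continuousOn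
    have hx0 : 0 ≤ x := spectrum_nonneg_of_nonneg hA0 hx
    have := scalar_convex hp hx0 ha0
    linarith
  have h2 : cfc (fun t : ℝ => (a ^ p - p * a ^ (p - 1) * a) + (p * a ^ (p - 1)) * t) A =
      (a ^ p - p * a ^ (p - 1) * a) • (1 : G →L[ℂ] G) + (p * a ^ (p - 1)) • A := by
    rw [cfc_add (R := ℝ) (a := A) (fun _ : ℝ => a ^ p - p * a ^ (p - 1) * a)
      (fun t => (p * a ^ (p - 1)) * t) (by fun_prop) (by fun_prop), cfc_const _ A hsa,
      cfc_const_mul_id _ A hsa, Algebra.algebraMap_eq_smul_one]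
  rw [h2] at h1
  have h3 := (ContinuousLinearMap.le_def _ _).1 h1
  have h4 := h3.re_inner_nonneg_right e
  have h5 : (inner ℂ e e : ℂ) = 1 := by
    rw [inner_self_eq_norm_sq_to_K, he]; simp
  have h6 : (inner ℂ e (((a ^ p - p * a ^ (p - 1) * a) • (1 : G →L[ℂ] G) +
      (p * a ^ (p - 1)) • A) e) : ℂ).re = a ^ p := by
    have e1 : ((a ^ p - p * a ^ (p - 1) * a) • (1 : G →L[ℂ] G) + (p * a ^ (p - 1)) • A) e =
        ((a ^ p - p * a ^ (p - 1) * a : ℝ) : ℂ) • e + ((p * a ^ (p - 1) : ℝ) : ℂ) • A e := by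
      simp only [ContinuousLinearMap.add_apply, ContinuousLinearMap.smul_apply,
        ContinuousLinearMap.one_apply, Complex.coe_smul]
    rw [e1, inner_add_right, inner_smul_right, inner_smul_right, h5, mul_one, Complex.add_re,
      Complex.ofReal_re, Complex.re_ofReal_mul, ← ha]
    ring
  rw [ContinuousLinearMap.sub_apply, inner_sub_right, map_sub] at h4
  have h7 : (inner ℂ e (((a ^ p - p * a ^ (p - 1) * a) • (1 : G →L[ℂ] G) +
      (p * a ^ (p - 1)) • A) e) : ℂ).re ≤ (inner ℂ e (cfc (fun t : ℝ => t ^ p) A e) : ℂ).re := by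
    have h8 : 0 ≤ (inner ℂ e (cfc (fun t : ℝ => t ^ p) A e) : ℂ).re -
      (inner ℂ e (((a ^ p - p * a ^ (p - 1) * a) • (1 : G →L[ℂ] G) +
      (p * a ^ (p - 1)) • A) e) : ℂ).re := h4
    linarith
  rwa [h6] at h7

/-- traces of powers of compressions (Berezin) -/
theorem trPow_cmpr_le (J : EuclideanSpace ℂ (Fin n) →ₗᵢ[ℂ] G) {A : G →L[ℂ] G}
    (hA : A.IsPositive) {p : ℝ} (hp : 1 ≤ p) :
    ENNReal.ofReal (trPow p (cmpr J A)) ≤ OpLT.trPow p A := by
  have hP := cmpr_posSemidef J hA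
  have hh := hP.isHermitian
  set e : Fin n → G := fun k => J (hh.eigenvectorBasis k) with he
  have heo : Orthonormal ℂ e := hh.eigenvectorBasis.orthonormal.comp_linearIsometry J
  have h1 : ∀ k, hh.eigenvalues k = (inner ℂ (e k) (A (e k)) : ℂ).re := by
    intro k
    rw [he]
    simp only []
    rw [← inner_cmpr]
    have h2 : Matrix.toEuclideanLin (cmpr J A) (hh.eigenvectorBasis k) =
        ((hh.eigenvalues k : ℝ) : ℂ) • hh.eigenvectorBasis k := by
      have h3 := hh.mulVec_eigenvectorBasis k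
      rw [Matrix.toLpLin_apply, h3]
      ext j
      simp
    rw [h2, inner_smul_right, inner_self_eq_norm_sq_to_K, hh.eigenvectorBasis.orthonormal.1 k]
    simp
  have h2 : ENNReal.ofReal (trPow p (cmpr J A)) ≤
      ∑ k, ENNReal.ofReal (inner ℂ (e k) (cfc (fun t : ℝ => t ^ p) A (e k)) : ℂ).re := by
    rw [trPow, dif_pos hh, ENNReal.ofReal_sum_of_nonneg fun k _ =>
      Real.rpow_nonneg (hP.eigenvalues_nonneg k) _]
    refine Finset.sum_le_sum fun k _ => ENNReal.ofReal_le_ofReal ?_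
    rw [h1 k]
    exact jensen hA hp (heo.1 k)
  refine h2.trans ?_
  unfold OpLT.trPow OpLT.trace
  exact le_iSup_of_le n (le_iSup_of_le e (le_iSup_of_le heo le_rfl))

end Cmpr

end Vale.Agent.P371.H816
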