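import Vale.Agent.P371.Bdl.B2

set_option linter.all false

/-!
Linear combinations of systems of functions, orthonormalisation and a limit principle for the
core inequality `MainHyp`.
-/

namespace Vale.Agent.P371.H816

open MeasureTheory Filter Topology Set Matrix
open Vale.Agent.P371 Vale.Agent.P371.G
open scoped ComplexOrder Matrix.Norms.L2Operator MatrixOrder

variable {N M m : ℕ}

/-- linear combinations of a system of functions -/
noncomputable def lc {X E : Type*} [AddCommMonoid E] [Module ℂ E] (r : Matrix (Fin N) (Fin M) ℂ)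
    (f : Fin N → X → E) (k : Fin M) (x : X) : E := ∑ j, r j k • f j x

theorem inner_lc {X E F : Type*} [NormedAddCommGroup E] [InnerProductSpace ℂ E]
    [NormedAddCommGroup F] [InnerProductSpace ℂ F]
    (r : Matrix (Fin N) (Fin M) ℂ) (f : Fin N → X → E) (g : Fin N → X → F) (T : X → F →ₗ[ℂ] E)
    (k l : Fin M) (x : X) :
    (inner ℂ (lc r f k x) (T x (lc r g l x)) : ℂ) =
      ∑ i, ∑ j, star (r i k) * inner ℂ (f i x) (T x (g j x)) * r j l := by
  unfold lc
  rw [sum_inner]
  refine Finset.sum_congr rfl fun i _ => ?_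
  rw [map_sum, inner_sum]
  refine Finset.sum_congr rfl fun j _ => ?_
  rw [map_smul, inner_smul_left, inner_smul_right, Complex.star_def]
  ring

theorem integral_sesq {X : Type*} [MeasurableSpace X] {μ : Measure X}
    (r : Matrix (Fin N) (Fin M) ℂ) (B : Fin N → Fin N → X → ℂ)
    (hB : ∀ i j, Integrable (B i j) μ) (k l : Fin M) :
    ∫ x, (∑ i, ∑ j, star (r i k) * B i j x * r j l) ∂μ =
      (rᴴ * (Matrix.of fun i j => ∫ x, B i j x ∂μ) * r) k l := by
  have h1 : ∀ i j, Integrable (fun x => star (r i k) * B i j x * r j l) μ := fun i j =>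
    ((hB i j).const_mul _).mul_const _
  rw [integral_finset_sum _ fun i _ => integrable_finset_sum _ fun j _ => h1 i j]
  simp_rw [integral_finset_sum _ fun j _ => h1 _ j, integral_mul_const, integral_const_mul]
  simp only [Matrix.mul_apply, Matrix.conjTranspose_apply, Matrix.of_apply, Finset.sum_mul]
  rw [Finset.sum_comm]

theorem isH1_lc (r : Matrix (Fin N) (Fin M) ℂ) {f f' : Fin N → ℝ → EuclideanSpace ℂ (Fin m)}
    (hf : ∀ j, IsH1 (f j) (f' j)) (k : Fin M) : IsH1 (lc r f k) (lc r f' k) where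
  memLp := memLp_finset_sum _ fun j _ => (hf j).memLp.const_smul (r j k)
  memLp_deriv := memLp_finset_sum _ fun j _ => (hf j).memLp_deriv.const_smul (r j k)
  ftc := fun a b => by
    simp only [lc]
    rw [intervalIntegral.integral_finset_sum (f := fun j x => r j k • f' j x) fun j _ =>
      ((hf j).intervalIntegrable_deriv a b).smul (r j k), ← Finset.sum_sub_distrib]
    refine Finset.sum_congr rfl fun j _ => ?_
    rw [intervalIntegral.integral_smul, ← (hf j).ftc a b, smul_sub]

/-- the Gram matrix of a system in `L²` -/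
noncomputable def gram {X E : Type*} [MeasurableSpace X] [NormedAddCommGroup E]
    [InnerProductSpace ℂ E] (μ : Measure X) (f : Fin N → X → E) : Matrix (Fin N) (Fin N) ℂ :=
  Matrix.of fun i j => ∫ x, inner ℂ (f i x) (f j x) ∂μ

theorem integrable_inner_gen {X E : Type*} [MeasurableSpace X] {μ : Measure X}
    [NormedAddCommGroup E] [InnerProductSpace ℂ E] {f g : X → E} (hf : MemLp f 2 μ)
    (hg : MemLp g 2 μ) : Integrable (fun x => (inner ℂ (f x) (g x) : ℂ)) μ := by
  refine ((hf.integrable_norm_pow (by norm_num)).add (hg.integrable_norm_pow (by norm_num))).mono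
    (hf.1.inner hg.1) (Eventually.of_forall fun x => ?_)
  refine (norm_inner_le_norm _ _).trans ?_
  refine le_trans ?_ (le_abs_self _)
  simp only [Pi.add_apply]
  nlinarith only [sq_nonneg (‖f x‖ - ‖g x‖), sq_nonneg (‖f x‖ + ‖g x‖)]

theorem gram_lc {X E : Type*} [MeasurableSpace X] {μ : Measure X} [NormedAddCommGroup E]
    [InnerProductSpace ℂ E] (r : Matrix (Fin N) (Fin M) ℂ) {f : Fin N → X → E}
    (hf : ∀ j, MemLp (f j) 2 μ) : gram μ (lc r f) = rᴴ * gram μ f * r := by
  ext k l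
  rw [gram, Matrix.of_apply]
  have h1 : ∀ x, (inner ℂ (lc r f k x) (lc r f l x) : ℂ) =
      ∑ i, ∑ j, star (r i k) * inner ℂ (f i x) (f j x) * r j l := fun x =>
    inner_lc r f f (fun _ => LinearMap.id) k l x
  simp_rw [h1]
  rw [integral_sesq r (fun i j x => inner ℂ (f i x) (f j x)) (fun i j =>
    integrable_inner_gen (hf i) (hf j)) k l]
  rfl

theorem gram_isHermitian {X E : Type*} [MeasurableSpace X] (μ : Measure X) [NormedAddCommGroup E]
    [InnerProductSpace ℂ E] (f : Fin N → X → E) : (gram μ f).IsHermitian := by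
  ext i j
  rw [conjTranspose_apply]
  simp only [gram, of_apply, Complex.star_def]
  rw [← integral_conj]
  simp only [inner_conj_symm]

theorem LamM_eq_sub {a : ℝ} (ha : 0 ≤ a) (W : ℝ → Matrix (Fin m) (Fin m) ℂ)
    (f f' : Fin N → ℝ → EuclideanSpace ℂ (Fin m)) :
    LamM a W f f' = (Matrix.of fun i j => ∫ x in Ioc (-a) a,
      inner ℂ (f i x) (Matrix.toEuclideanLin (W x) (f j x))) - gram volume f' := by
  ext i j
  simp only [LamM, gram, of_apply, Matrix.sub_apply]
  rw [intervalIntegral.integral_of_le (by linarith)]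

theorem LamM_lc {a : ℝ} (ha : 0 ≤ a) {W : ℝ → Matrix (Fin m) (Fin m) ℂ}
    (hW : LocallyIntegrable W volume) (r : Matrix (Fin N) (Fin M) ℂ)
    {f f' : Fin N → ℝ → EuclideanSpace ℂ (Fin m)} (hf : ∀ j, IsH1 (f j) (f' j)) :
    LamM a W (lc r f) (lc r f') = rᴴ * LamM a W f f' * r := by
  rw [LamM_eq_sub ha, LamM_eq_sub ha, Matrix.mul_sub, Matrix.sub_mul,
    gram_lc r fun j => (hf j).memLp_deriv]
  congr 1
  ext k l
  rw [Matrix.of_apply]
  have h1 : ∀ x, (inner ℂ (lc r f k x) (Matrix.toEuclideanLin (W x) (lc r f l x)) : ℂ) =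
      ∑ i, ∑ j, star (r i k) * inner ℂ (f i x) (Matrix.toEuclideanLin (W x) (f j x)) * r j l :=
    fun x => inner_lc r f f (fun x => Matrix.toEuclideanLin (W x)) k l x
  simp_rw [h1]
  exact integral_sesq r (fun i j x => inner ℂ (f i x) (Matrix.toEuclideanLin (W x) (f j x)))
    (fun i j => (intervalIntegrable_iff_integrableOn_Ioc_of_le (by linarith)).1
      (intervalIntegrable_form hW hf i j (-a) a)) k l

/-- `G^(-1/2)` of a positive definite matrix orthonormalises -/
theorem orthonormalise {G : Matrix (Fin N) (Fin N) ℂ} (hG : G.PosDef) :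
    (cfc (fun x : ℝ => x ^ (-(1 / 2) : ℝ)) G)ᴴ * G * cfc (fun x : ℝ => x ^ (-(1 / 2) : ℝ)) G = 1 := by
  have hh : (cfc (fun x : ℝ => x ^ (-(1 / 2) : ℝ)) G).IsHermitian := cfc_predicate (R := ℝ) _ _
  rw [hh.eq]
  nth_rewrite 2 [← PI.cfc_id_eq hG.isHermitian]
  rw [← cfc_mul _ _ G (PI.contOn_spectrum G _) (PI.contOn_spectrum G _),
    ← cfc_mul _ _ G (PI.contOn_spectrum G _) (PI.contOn_spectrum G _), ← PI.cfc_one_eq hG.isHermitian]
  refine cfc_congr fun x hx => ?_
  have hx0 := PI.posSpec hG x hx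
  change x ^ (-(1 / 2) : ℝ) * x * x ^ (-(1 / 2) : ℝ) = 1
  have e : x ^ (-(1 / 2) : ℝ) * x * x ^ (-(1 / 2) : ℝ) =
      x ^ (-(1 / 2) : ℝ) * x ^ (1 : ℝ) * x ^ (-(1 / 2) : ℝ) := by rw [Real.rpow_one]
  rw [e, ← Real.rpow_add hx0, ← Real.rpow_add hx0]
  norm_num

theorem tendsto_invsqrt {G : ℕ → Matrix (Fin N) (Fin N) ℂ} (hG : Tendsto G atTop (𝓝 1))
    (hP : ∀ᶠ n in atTop, (G n).PosDef) :
    Tendsto (fun n => cfc (fun x : ℝ => x ^ (-(1 / 2) : ℝ)) (G n)) atTop (𝓝 1) := by
  have h1 := (PI.continuousOn_cfc_rpow (N := N) (-(1 / 2) : ℝ)) 1 (show (1 : Matrix (Fin N) (Fin N) ℂ)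
    ∈ {K : Matrix (Fin N) (Fin N) ℂ | K.PosDef} from PosDef.one)
  have h2 : cfc (fun x : ℝ => x ^ (-(1 / 2) : ℝ)) (1 : Matrix (Fin N) (Fin N) ℂ) = 1 := by
    rw [cfc_apply_one]
    simp
  rw [ContinuousWithinAt, h2] at h1
  exact h1.comp (tendsto_nhdsWithin_iff.2 ⟨hG, hP⟩)

/-- The limit principle: the core inequality passes to limits of almost orthonormal systems. -/
theorem lim_principle {γ C : ℝ} (hγ : 1 / 2 < γ) (hC : 0 ≤ C) (hM : ∀ m, MainHyp γ C N m)
    {D : Matrix (Fin N) (Fin N) ℂ} (hD : D.PosDef) (m : ℕ → ℕ) (a : ℕ → ℝ) (ha : ∀ n, 0 < a n)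
    (W : ∀ n, ℝ → Matrix (Fin (m n)) (Fin (m n)) ℂ) (hW : ∀ n, IsPotential (γ + 1 / 2) (W n))
    (f f' : ∀ n, Fin N → ℝ → EuclideanSpace ℂ (Fin (m n))) (hf : ∀ n j, IsH1 (f n j) (f' n j))
    (hG : Tendsto (fun n => gram volume (f n)) atTop (𝓝 1))
    (hL : Tendsto (fun n => LamM (a n) (W n) (f n) (f' n)) atTop (𝓝 D)) {I : ℝ}
    (hI : ∀ n, ∫ x, trPow (γ + 1 / 2) (W n x) ≤ I) : trPow γ D ≤ C * I := by
  have hGev := eventually_posDef hG (fun n => gram_isHermitian volume (f n)) PosDef.one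
  set r : ℕ → Matrix (Fin N) (Fin N) ℂ := fun n =>
    cfc (fun x : ℝ => x ^ (-(1 / 2) : ℝ)) (gram volume (f n)) with hr
  have hrt : Tendsto r atTop (𝓝 1) := tendsto_invsqrt hG hGev
  have hWl : ∀ n, LocallyIntegrable (W n) volume := fun n => locInt (by linarith) (hW n)
  have hrc : Tendsto (fun n => (r n)ᴴ) atTop (𝓝 1) := by
    have := (continuous_star (R := Matrix (Fin N) (Fin N) ℂ)).tendsto 1 |>.comp hrt
    rw [star_one] at this
    exact this
  have hL2 : Tendsto (fun n => LamM (a n) (W n) (lc (r n) (f n)) (lc (r n) (f' n))) atTop (𝓝 D) := by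
    have h1 := (hrc.mul hL).mul hrt
    rw [one_mul, mul_one] at h1
    refine h1.congr fun n => ?_
    rw [LamM_lc (ha n).le (hWl n) (r n) (hf n)]
  have hev := eventually_posDef hL2
    (fun n => LamM_isHermitian _ (fun x => ((hW n).posSemidef x).isHermitian) _ _) hD
  have ht := tendsto_trPow hL2 (hev.mono fun n h => h.posSemidef) hD.posSemidef
    (show (0:ℝ) < γ by linarith only [hγ])
  refine le_of_tendsto ht ?_
  filter_upwards [hev, hGev] with n h1 h2
  refine (fixed_a hγ hC (hM (m n)) (hW n) (ha n) (fun j => isH1_lc (r n) (hf n) j) ?_ h1).trans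
    (mul_le_mul_of_nonneg_left (hI n) hC)
  intro i j
  have h3 := gram_lc (r n) (fun j => (hf n j).memLp)
  rw [orthonormalise h2] at h3
  have h4 := congrFun (congrFun h3 i) j
  rw [gram, of_apply] at h4
  rw [h4, Matrix.one_apply]

end Vale.Agent.P371.H816

namespace Vale.Agent.P371.H816

open MeasureTheory Filter Topology Set Matrix
open Vale.Agent.P371 Vale.Agent.P371.G
open scoped ComplexOrder Matrix.Norms.L2Operator MatrixOrder

variable {N M m : ℕ}

/-- `tr (X_+)^p` for a Hermitian matrix `X` -/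
noncomputable def trPos (p : ℝ) (X : Matrix (Fin m) (Fin m) ℂ) : ℝ :=
  (cfc (fun t : ℝ => (max t 0) ^ p) X).trace.re

theorem trPos_eq_sum {X : Matrix (Fin m) (Fin m) ℂ} (hX : X.IsHermitian) (p : ℝ) :
    trPos p X = ∑ i, (max (hX.eigenvalues i) 0) ^ p := by
  rw [trPos, trace_cfc hX, Complex.ofReal_re]

theorem trPos_eq_trPow {X : Matrix (Fin m) (Fin m) ℂ} (hX : X.PosSemidef) (p : ℝ) :
    trPos p X = trPow p X := by
  rw [trPos_eq_sum hX.isHermitian, trPow, dif_pos hX.isHermitian]
  exact Finset.sum_congr rfl fun i _ => by rw [max_eq_left (hX.eigenvalues_nonneg i)]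

theorem trPos_nonneg {X : Matrix (Fin m) (Fin m) ℂ} (hX : X.IsHermitian) (p : ℝ) :
    0 ≤ trPos p X := by
  rw [trPos_eq_sum hX]
  exact Finset.sum_nonneg fun i _ => Real.rpow_nonneg (le_max_right _ _) _

theorem continuous_trPos {p : ℝ} (hp : 0 < p) :
    Continuous fun X : Matrix (Fin m) (Fin m) ℂ => trPos p (G.hp X) := by
  have hc : Continuous fun t : ℝ => (max t 0) ^ p :=
    (continuous_id.max continuous_const).rpow_const fun x => Or.inr hp.le
  have h1 : Continuous fun X : Matrix (Fin m) (Fin m) ℂ =>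
      cfc (fun t : ℝ => (max t 0) ^ p) (G.hp X) :=
    Continuous.cfc_of_mem_nhdsSet (s := Set.univ) _ (by simp) G.continuous_hp
      (fun X => G.hp_isHermitian X) hc.continuousOn
  have h2 : Continuous fun X : Matrix (Fin m) (Fin m) ℂ => X.trace.re := by fun_prop
  exact h2.comp h1

theorem measurable_trPos {X : Type*} [MeasurableSpace X] {p : ℝ} (hp : 0 < p)
    {V : X → Matrix (Fin m) (Fin m) ℂ} (hV : ∀ i j, Measurable fun x => V x i j)
    (hh : ∀ x, (V x).IsHermitian) : Measurable fun x => trPos p (V x) := by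
  have h1 : Continuous fun Y : Fin m → Fin m → ℂ => trPos p (G.hp (Matrix.of Y)) :=
    (continuous_trPos hp).comp continuous_id
  have h2 : Measurable fun x => (fun i j => V x i j : Fin m → Fin m → ℂ) :=
    measurable_pi_lambda _ fun i => measurable_pi_lambda _ fun j => hV i j
  have h3 := h1.measurable.comp h2
  have e : (fun x => trPos p (V x)) =
      (fun Y : Fin m → Fin m → ℂ => trPos p (G.hp (Matrix.of Y))) ∘
        fun x => (fun i j => V x i j : Fin m → Fin m → ℂ) := by
    funext x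
    simp only [Function.comp_apply]
    have : Matrix.of (fun i j => V x i j) = V x := rfl
    rw [this, G.hp_eq_self (hh x)]
  rw [e]
  exact h3

theorem measurable_trPow {X : Type*} [MeasurableSpace X] {p : ℝ} (hp : 0 < p)
    {V : X → Matrix (Fin m) (Fin m) ℂ} (hV : ∀ i j, Measurable fun x => V x i j)
    (hh : ∀ x, (V x).PosSemidef) : Measurable fun x => trPow p (V x) := by
  have e : (fun x => trPow p (V x)) = fun x => trPos p (V x) := by
    funext x
    exact (trPos_eq_trPow (hh x) p).symm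
  rw [e]
  exact measurable_trPos hp hV fun x => (hh x).isHermitian

theorem norm_le_one_add_trPow {X : Matrix (Fin m) (Fin m) ℂ} (hX : X.PosSemidef) {p : ℝ}
    (hp : 1 ≤ p) : ‖X‖ ≤ 1 + trPow p X := by
  have h0 : 0 ≤ trPow p X := trPow_nonneg' hX p
  refine norm_le_of_eigenvalues hX.isHermitian (by linarith) fun i => ?_
  have hx := hX.eigenvalues_nonneg i
  rw [abs_of_nonneg hx]
  have h1 : (hX.isHermitian.eigenvalues i) ^ p ≤ trPow p X := by
    rw [trPow, dif_pos hX.isHermitian]
    exact Finset.single_le_sum (f := fun i => (hX.isHermitian.eigenvalues i) ^ p)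
      (fun j _ => Real.rpow_nonneg (hX.eigenvalues_nonneg j) p) (Finset.mem_univ i)
  rcases le_total (hX.isHermitian.eigenvalues i) 1 with h | h
  · linarith
  · have := Real.self_le_rpow_of_one_le h hp
    linarith

end Vale.Agent.P371.H816
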