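import Vale.Agent.P371.H816.Tools

set_option linter.all false

/-!
Monotonicity of `tr A^γ`, positive eigenspaces, a limit principle with a lower bound.
-/

namespace Vale.Agent.P371.H816

open MeasureTheory Filter Topology Set Matrix
open Vale.Agent.P371 Vale.Agent.P371.G
open scoped ComplexOrder Matrix.Norms.L2Operator MatrixOrder

variable {N M m K : ℕ}

theorem trace_mul_nonneg {A B : Matrix (Fin m) (Fin m) ℂ} (hA : A.PosSemidef)
    (hB : B.PosSemidef) : 0 ≤ (A * B).trace.re := by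
  obtain ⟨C, hC⟩ := CStarAlgebra.nonneg_iff_eq_star_mul_self.mp hB.nonneg
  have h1 : (A * B).trace = (C * A * Cᴴ).trace := by
    rw [hC, Matrix.star_eq_conjTranspose, ← Matrix.mul_assoc, Matrix.trace_mul_comm,
      ← Matrix.mul_assoc]
  rw [h1]
  exact PI.trace_re_nonneg (hA.mul_mul_conjTranspose_same C)

theorem trPow_mono {γ : ℝ} (hγ : 0 ≤ γ) {A B : Matrix (Fin m) (Fin m) ℂ} (hA : A.PosDef)
    (hAB : (B - A).PosSemidef) : trPow γ A ≤ trPow γ B := by
  have hB : B.PosDef := by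
    have := hA.add_posSemidef hAB
    rwa [add_sub_cancel] at this
  rcases le_total 1 γ with h | h
  · have h1 := PI.klein_ge h hB.posSemidef hA
    have h2 := trace_mul_nonneg (PI.posDef_cfc hA (γ - 1)).posSemidef hAB
    nlinarith only [h1, h2, hγ]
  · have h1 := PI.klein_le hγ h hA.posSemidef hB
    have h2 := trace_mul_nonneg (PI.posDef_cfc hB (γ - 1)).posSemidef hAB
    have h3 : (cfc (fun x : ℝ => x ^ (γ - 1)) B * (A - B)).trace.re =
        -(cfc (fun x : ℝ => x ^ (γ - 1)) B * (B - A)).trace.re := by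
      rw [← neg_sub B A, Matrix.mul_neg, Matrix.trace_neg, Complex.neg_re]
    rw [h3] at h1
    nlinarith only [h1, h2, hγ]

/-- the eigenvectors of a Hermitian matrix with positive eigenvalues -/
theorem pos_system {A : Matrix (Fin K) (Fin K) ℂ} (hA : A.IsHermitian) :
    ∃ (N : ℕ) (r : Matrix (Fin K) (Fin N) ℂ), rᴴ * r = 1 ∧ (rᴴ * A * r).PosDef ∧
      ∀ p : ℝ, 0 < p → trPow p (rᴴ * A * r) = trPos p A := by
  classical
  set P := {k : Fin K // 0 < hA.eigenvalues k} with hP
  set e : P ≃ Fin (Fintype.card P) := Fintype.equivFin P with he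
  set σ : Fin (Fintype.card P) → Fin K := fun j => (e.symm j).1 with hσ
  have hσi : Function.Injective σ := fun a b h => e.symm.injective (Subtype.ext h)
  set U : Matrix (Fin K) (Fin K) ℂ := (hA.eigenvectorUnitary : Matrix (Fin K) (Fin K) ℂ) with hU
  have hU1 : Uᴴ * U = 1 := Unitary.coe_star_mul_self _
  have hU2 : Uᴴ * A * U = diagonal fun i => ((hA.eigenvalues i : ℝ) : ℂ) := by
    have h1 := hA.conjStarAlgAut_star_eigenvectorUnitary
    rw [Unitary.conjStarAlgAut_apply] at h1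
    rw [Unitary.coe_star, star_star] at h1
    exact h1
  set r : Matrix (Fin K) (Fin (Fintype.card P)) ℂ := U.submatrix id σ with hr
  have hrc : rᴴ = Uᴴ.submatrix σ id := by rw [hr, conjTranspose_submatrix]
  have h1 : rᴴ * r = 1 := by
    rw [hrc, hr, ← Matrix.submatrix_mul _ _ _ _ _ Function.bijective_id, hU1]
    exact Matrix.submatrix_one _ hσi
  have h2 : rᴴ * A * r = diagonal fun j => ((hA.eigenvalues (σ j) : ℝ) : ℂ) := by
    have h3 : rᴴ * A = (Uᴴ * A).submatrix σ id := by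
      rw [hrc, Matrix.submatrix_mul _ _ _ _ _ Function.bijective_id, Matrix.submatrix_id_id]
    rw [h3, hr, ← Matrix.submatrix_mul _ _ _ _ _ Function.bijective_id, hU2,
      Matrix.submatrix_diagonal _ _ hσi]
    rfl
  refine ⟨Fintype.card P, r, h1, ?_, fun p hp => ?_⟩
  · rw [h2]
    refine PosDef.diagonal fun j => ?_
    have : 0 < hA.eigenvalues (σ j) := (e.symm j).2
    exact_mod_cast this
  · rw [h2, trPow_diagonal, trPos_eq_sum hA]
    have h3 : ∑ j, hA.eigenvalues (σ j) ^ p = ∑ k : P, hA.eigenvalues k.1 ^ p :=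
      Equiv.sum_comp e.symm (fun k : P => hA.eigenvalues k.1 ^ p)
    rw [h3, ← Finset.sum_subtype (Finset.univ.filter fun k => 0 < hA.eigenvalues k)
      (fun k => by simp) (fun k => hA.eigenvalues k ^ p), Finset.sum_filter]
    refine Finset.sum_congr rfl fun k _ => ?_
    split_ifs with hk
    · rw [max_eq_left hk.le]
    · rw [max_eq_right (not_lt.1 hk), Real.zero_rpow hp.ne']

/-- eigenvalues of a shifted matrix -/
theorem trPos_shift {X : Matrix (Fin m) (Fin m) ℂ} (hX : X.IsHermitian) (p t : ℝ) (hp : 0 < p) :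
    trPos p (X - (t : ℂ) • 1) = ∑ i, (max (hX.eigenvalues i - t) 0) ^ p := by
  have e1 : X - (t : ℂ) • 1 = cfc (fun x : ℝ => x - t) X := by
    have h := cfc_sub (R := ℝ) (a := X) (fun x : ℝ => x) (fun _ => t) (by fun_prop) (by fun_prop)
    have h2 : cfc (fun x : ℝ => x) X = X := cfc_id' ℝ X hX
    have h3 : cfc (fun _ : ℝ => t) X = algebraMap ℝ _ t := cfc_const t X hX
    refine Eq.trans ?_ h.symm
    rw [h2, h3, Algebra.algebraMap_eq_smul_one]
    congr 1
  have hc : Continuous fun t : ℝ => (max t 0) ^ p :=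
    (continuous_id.max continuous_const).rpow_const fun x => Or.inr hp.le
  have e2 : cfc (fun x : ℝ => (max x 0) ^ p) (X - (t : ℂ) • 1) =
      cfc (fun x : ℝ => (max (x - t) 0) ^ p) X := by
    rw [e1]
    exact (cfc_comp' (R := ℝ) (p := IsSelfAdjoint) (fun x : ℝ => (max x 0) ^ p) (fun x => x - t) X
      hc.continuousOn (by fun_prop) hX).symm
  rw [trPos, e2, trace_cfc hX, Complex.ofReal_re]

theorem posSemidef_conj {A : Matrix (Fin N) (Fin N) ℂ} (hA : A.PosSemidef)
    (r : Matrix (Fin N) (Fin M) ℂ) : (rᴴ * A * r).PosSemidef := hA.conjTranspose_mul_mul_same r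

/-- The limit principle, with a lower bound. -/
theorem lim_principle2 {γ C : ℝ} (hγ : 1 / 2 < γ) (hC : 0 ≤ C) (hM : ∀ m, MainHyp γ C N m)
    {D : Matrix (Fin N) (Fin N) ℂ} (hD : D.PosDef) (m : ℕ → ℕ) (a : ℕ → ℝ) (ha : ∀ n, 0 < a n)
    (W : ∀ n, ℝ → Matrix (Fin (m n)) (Fin (m n)) ℂ) (hW : ∀ n, IsPotential (γ + 1 / 2) (W n))
    (f f' : ∀ n, Fin N → ℝ → EuclideanSpace ℂ (Fin (m n))) (hf : ∀ n j, IsH1 (f n j) (f' n j))
    (hG : Tendsto (fun n => gram volume (f n)) atTop (𝓝 1))
    (L : ℕ → Matrix (Fin N) (Fin N) ℂ) (hLh : ∀ n, (L n).IsHermitian)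
    (hLe : ∀ n, (LamM (a n) (W n) (f n) (f' n) - L n).PosSemidef)
    (hL : Tendsto L atTop (𝓝 D)) {I : ℝ}
    (hI : ∀ n, ∫ x, trPow (γ + 1 / 2) (W n x) ≤ I) : trPow γ D ≤ C * I := by
  have hGev := eventually_posDef hG (fun n => gram_isHermitian volume (f n)) PosDef.one
  set r : ℕ → Matrix (Fin N) (Fin N) ℂ := fun n =>
    cfc (fun x : ℝ => x ^ (-(1 / 2) : ℝ)) (gram volume (f n)) with hr
  have hrt : Tendsto r atTop (𝓝 1) := tendsto_invsqrt hG hGev
  have hWl : ∀ n, LocallyIntegrable (W n) volume := fun n => locInt (by linarith) (hW n)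
  have hrc : Tendsto (fun n => (r n)ᴴ) atTop (𝓝 1) := by
    have := (continuous_star (R := Matrix (Fin N) (Fin N) ℂ)).tendsto 1 |>.comp hrt
    rw [star_one] at this
    exact this
  have hL2 : Tendsto (fun n => (r n)ᴴ * L n * r n) atTop (𝓝 D) := by
    have h1 := (hrc.mul hL).mul hrt
    rw [one_mul, mul_one] at h1
    exact h1
  have hL2h : ∀ n, ((r n)ᴴ * L n * r n).IsHermitian := fun n =>
    isHermitian_conjTranspose_mul_mul _ (hLh n)
  have hev := eventually_posDef hL2 hL2h hD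
  have ht := tendsto_trPow hL2 (hev.mono fun n h => h.posSemidef) hD.posSemidef
    (show (0:ℝ) < γ by linarith only [hγ])
  refine le_of_tendsto ht ?_
  filter_upwards [hev, hGev] with n h1 h2
  have hle : (LamM (a n) (W n) (lc (r n) (f n)) (lc (r n) (f' n)) -
      (r n)ᴴ * L n * r n).PosSemidef := by
    rw [LamM_lc (ha n).le (hWl n) (r n) (hf n), ← Matrix.sub_mul, ← Matrix.mul_sub]
    exact posSemidef_conj (hLe n) (r n)
  have hP : (LamM (a n) (W n) (lc (r n) (f n)) (lc (r n) (f' n))).PosDef := by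
    have := h1.add_posSemidef hle
    rwa [add_sub_cancel] at this
  refine (trPow_mono (by linarith) h1 hle).trans ?_
  refine (fixed_a hγ hC (hM (m n)) (hW n) (ha n) (fun j => isH1_lc (r n) (hf n) j) ?_ hP).trans
    (mul_le_mul_of_nonneg_left (hI n) hC)
  intro i j
  have h3 := gram_lc (r n) (fun j => (hf n j).memLp)
  rw [orthonormalise h2] at h3
  have h4 := congrFun (congrFun h3 i) j
  rw [gram, of_apply] at h4
  rw [h4, Matrix.one_apply]

end Vale.Agent.P371.H816
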